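import Mathlib
import Crest.Prelude.Def_GlobularCoherator

/-!
Segal conditions for models of globular theories, and maps from globes to shapes.
-/

set_option autoImplicit false

open CategoryTheory CategoryTheory.Limits Opposite
open Crest.GeometryTopology.Coherator Crest.GeometryTopology.Coherator.GlobTheory
open Crest.GeometryTopology.Coherator.GlobPsh

namespace Crest.Agent.R248.Segal

universe u

/-! ### Maps from a globe to a glued shape -/

/-- The gluing square of presheaves. -/
theorem isPushout_psh (S : Shape) (b h : ℕ) (hb : b < S.last) (hh : b < h) :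
    IsPushout (globeRepFace hb true ≫ S.apex : globeRep b ⟶ S.psh)
      (globeRepFace hh false : globeRep b ⟶ globeRep h)
      (S.inLeft b h hb hh : S.psh ⟶ (S.glue b h hb hh).psh)
      (S.inRight b h hb hh : globeRep h ⟶ (S.glue b h hb hh).psh) :=
  IsPushout.of_hasPushout _ _

theorem factor_aux {P Q : GlobPsh.{0}} (φ : Q ⟶ P) (i : ℕ) (g : globeRep i ⟶ P)
    (y : Q.obj (op (GlobeObj.mk i))) (hy : φ.app _ y = yonedaEquiv g) :
    (yonedaEquiv.symm y : globeRep i ⟶ Q) ≫ φ = g := by
  apply yonedaEquiv.injective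
  rw [yonedaEquiv_comp, Equiv.apply_symm_apply]
  exact hy

/-- Every globe in a glued shape lies in one of the two pieces. -/
theorem globe_glue_factor (S : Shape) (b h : ℕ) (hb : b < S.last) (hh : b < h) (i : ℕ)
    (g : Shape.globe i ⟶ S.glue b h hb hh) :
    (∃ g' : Shape.globe i ⟶ S, g' ≫ S.inLeft b h hb hh = g) ∨
    (∃ g' : Shape.globe i ⟶ Shape.globe h, g' ≫ S.inRight b h hb hh = g) := by
  have hpo := (isPushout_psh S b h hb hh).map
    ((evaluation GlobeObjᵒᵖ (Type 0)).obj (op (GlobeObj.mk i)))
  let g0 : globeRep i ⟶ (S.glue b h hb hh).psh := g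
  rcases Types.eq_or_eq_of_isPushout hpo (yonedaEquiv g0) with ⟨y, hy⟩ | ⟨y, hy⟩
  · exact Or.inl ⟨_, factor_aux (S.inLeft b h hb hh : S.psh ⟶ (S.glue b h hb hh).psh) i g0 y hy⟩
  · exact Or.inr ⟨_, factor_aux (Q := globeRep h)
      (S.inRight b h hb hh : globeRep h ⟶ (S.glue b h hb hh).psh) i g0 y hy⟩

/-! ### Maps between globes -/

/-- Every map between globes is the identity or a face. -/
theorem globe_globe_cases (i n : ℕ) (g : Shape.globe i ⟶ Shape.globe n) :
    (∃ h : i = n, g = eqToHom (by rw [h])) ∨ (∃ (h : i < n) (b : Bool), g = Shape.faceMap h b) := by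
  let g0 : globeRep i ⟶ globeRep n := g
  obtain ⟨f, hf⟩ : ∃ f : GlobeObj.mk i ⟶ GlobeObj.mk n, yoneda.map f = g0 :=
    ⟨yoneda.preimage g0, Functor.map_preimage _ _⟩
  have hf' : g = (yoneda.map f : globeRep i ⟶ globeRep n) := hf.symm
  clear hf
  rcases f with _ | ⟨lt, upper⟩
  · left
    refine ⟨rfl, ?_⟩
    rw [hf']
    exact yoneda.map_id _
  · right
    exact ⟨lt, upper, hf'⟩

/-- Induction on shapes by gluing globes. -/
theorem shape_ind {motive : Shape → Prop} (hs : ∀ n, motive (Shape.globe n))
    (hg : ∀ (S : Shape) (b h : ℕ) (hb : b < S.last) (hh : b < h), motive S →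
      motive (S.glue b h hb hh)) (S : Shape) : motive S := by
  obtain ⟨n, P⟩ := S
  induction P with
  | single n => exact hs n
  | glue P b h hb hh ih => exact hg ⟨_, P⟩ b h hb hh ih

theorem dim_globe (n : ℕ) : (Shape.globe n).dim = n := rfl

theorem dim_glue (S : Shape) (b h : ℕ) (hb : b < S.last) (hh : b < h) :
    (S.glue b h hb hh).dim = max S.dim h := rfl

/-- There are no globes above the dimension of a shape. -/
theorem no_globe_above (S : Shape) (i : ℕ) (hi : S.dim < i) : IsEmpty (Shape.globe i ⟶ S) := by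
  induction S using shape_ind with
  | hs n =>
    refine ⟨fun g => ?_⟩
    rw [dim_globe] at hi
    rcases globe_globe_cases i n g with ⟨h, _⟩ | ⟨h, _, _⟩ <;> omega
  | hg S b h hb hh ih =>
    rw [dim_glue] at hi
    refine ⟨fun g => ?_⟩
    rcases globe_glue_factor S b h hb hh i g with ⟨g', _⟩ | ⟨g', _⟩
    · exact (ih (lt_of_le_of_lt (le_max_left _ _) hi)).false g'
    · have : h < i := lt_of_le_of_lt (le_max_right _ _) hi
      rcases globe_globe_cases i h g' with ⟨h, _⟩ | ⟨h, _, _⟩ <;> omega

/-! ### Evaluation of tuples on globes -/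

variable {C : GlobTheory.{u}}

/-- The type of `S`-tuples of a model. -/
abbrev Tup (K : C.GlobModel) (S : Shape) : Type u := K.functor.obj (op (⟨S⟩ : C.Ob))

/-- Restriction of an `S`-tuple of a model along a map of shapes. -/
noncomputable def res (K : C.GlobModel) {S T : Shape} (g : S ⟶ T) (s : Tup K T) : Tup K S :=
  K.functor.map (C.incl.map g).op s

theorem res_id (K : C.GlobModel) (S : Shape) (s : Tup K S) : res K (𝟙 S) s = s := by
  unfold res
  rw [C.incl.map_id, op_id, K.functor.map_id]
  rfl

theorem res_comp (K : C.GlobModel) {R S T : Shape} (f : R ⟶ S) (g : S ⟶ T)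
    (s : Tup K T) : res K (f ≫ g) s = res K f (res K g s) := by
  unfold res
  rw [C.incl.map_comp, op_comp, K.functor.map_comp]
  rfl

/-- Maps of models commute with restriction. -/
theorem app_res {K L : C.GlobModel} (φ : K ⟶ L) {S T : Shape} (g : S ⟶ T) (s : Tup K T) :
    (φ : K.functor ⟶ L.functor).app (op (⟨S⟩ : C.Ob)) (res K g s) =
      res L g ((φ : K.functor ⟶ L.functor).app (op (⟨T⟩ : C.Ob)) s) :=
  types_congr_hom ((φ : K.functor ⟶ L.functor).naturality (C.incl.map g).op) s

theorem src_eq_res (K : C.GlobModel) (i : ℕ) (z : K.cells.cell (i + 1)) :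
    K.cells.src i z = res K (Shape.σ i) z := rfl

theorem tgt_eq_res (K : C.GlobModel) (i : ℕ) (z : K.cells.cell (i + 1)) :
    K.cells.tgt i z = res K (Shape.τ i) z := rfl

theorem hinge_inLeft (S : Shape) (b h : ℕ) (hb : b < S.last) (hh : b < h) :
    S.hinge hb ≫ S.inLeft b h hb hh = Shape.faceMap hh false ≫ S.inRight b h hb hh :=
  (isPushout_psh S b h hb hh).w

/-- Two tuples of a model agreeing on both pieces of a glued shape agree. -/
theorem ext_glue (K : C.GlobModel) (S : Shape) (b h : ℕ) (hb : b < S.last) (hh : b < h)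
    (s s' : Tup K (S.glue b h hb hh))
    (h1 : res K (S.inLeft b h hb hh) s = res K (S.inLeft b h hb hh) s')
    (h2 : res K (S.inRight b h hb hh) s = res K (S.inRight b h hb hh) s') : s = s' :=
  Types.ext_of_isPullback (K.sums S b h hb hh) h1 h2

/-- Gluing tuples of a model. -/
theorem exists_glue (K : C.GlobModel) (S : Shape) (b h : ℕ) (hb : b < S.last) (hh : b < h)
    (s : Tup K S) (t : Tup K (Shape.globe h))
    (hst : res K (S.hinge hb) s = res K (Shape.faceMap hh false) t) :
    ∃ r : Tup K (S.glue b h hb hh),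
      res K (S.inLeft b h hb hh) r = s ∧ res K (S.inRight b h hb hh) r = t :=
  Types.exists_of_isPullback (K.sums S b h hb hh) s t hst

/-- Tuples of a model are determined by their globes. -/
theorem segal_ext (K : C.GlobModel) (S : Shape) (s s' : Tup K S)
    (hs : ∀ (i : ℕ) (g : Shape.globe i ⟶ S), res K g s = res K g s') : s = s' := by
  induction S using shape_ind with
  | hs n =>
    have := hs n (𝟙 (Shape.globe n))
    rwa [res_id, res_id] at this
  | hg S b h hb hh ih =>
    refine ext_glue K S b h hb hh s s' ?_ (hs h _)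
    refine ih _ _ fun i g => ?_
    rw [← res_comp, ← res_comp]
    exact hs i _

/-- Natural families of cells of a model indexed by the globes of a shape. -/
def IsNatFamily (K : C.GlobModel) (S : Shape)
    (x : ∀ i, (Shape.globe i ⟶ S) → Tup K (Shape.globe i)) : Prop :=
  ∀ (i : ℕ) (g : Shape.globe (i + 1) ⟶ S),
    x i (Shape.σ i ≫ g) = res K (Shape.σ i) (x (i + 1) g) ∧
    x i (Shape.τ i ≫ g) = res K (Shape.τ i) (x (i + 1) g)

theorem faceMap_comp {l m n : ℕ} (h : l < m) (h' : m < n) (b b' : Bool) :
    Shape.faceMap h b ≫ Shape.faceMap h' b' = Shape.faceMap (h.trans h') b := by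
  have : GlobeObj.faceArrow h b ≫ GlobeObj.faceArrow h' b' =
      GlobeObj.faceArrow (h.trans h') b := rfl
  have h2 : yoneda.map (GlobeObj.faceArrow h b) ≫ yoneda.map (GlobeObj.faceArrow h' b') =
      yoneda.map (GlobeObj.faceArrow (h.trans h') b) := by
    rw [← Functor.map_comp, this]
  exact h2

theorem IsNatFamily.face {K : C.GlobModel} {S : Shape}
    {x : ∀ i, (Shape.globe i ⟶ S) → Tup K (Shape.globe i)} (hx : IsNatFamily K S x) :
    ∀ (m n : ℕ) (h : m < n) (b : Bool) (g : Shape.globe n ⟶ S),
      x m (Shape.faceMap h b ≫ g) = res K (Shape.faceMap h b) (x n g) := by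
  intro m n h
  induction n, h using Nat.le_induction with
  | base =>
    intro b g
    cases b
    · exact (hx m g).1
    · exact (hx m g).2
  | succ n h ih =>
    intro b g
    rw [show Shape.faceMap (_ : m < n + 1) b = Shape.faceMap h b ≫ Shape.σ n from
      (faceMap_comp _ _ _ _).symm, Category.assoc, ih, (hx n g).1, res_comp]

/-- Segal condition: natural families of cells glue to tuples. -/
theorem segal_exists (K : C.GlobModel) (S : Shape)
    (x : ∀ i, (Shape.globe i ⟶ S) → Tup K (Shape.globe i)) (hx : IsNatFamily K S x) :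
    ∃ s : Tup K S, ∀ (i : ℕ) (g : Shape.globe i ⟶ S), res K g s = x i g := by
  induction S using shape_ind with
  | hs n =>
    refine ⟨x n (𝟙 _), fun i g => ?_⟩
    rcases globe_globe_cases i n g with ⟨h, hg⟩ | ⟨h, b, hg⟩
    · subst h
      have hg' : g = 𝟙 _ := hg
      rw [hg', res_id]
    · subst hg
      rw [← hx.face i n h b (𝟙 _), Category.comp_id]
  | hg S b h hb hh ih =>
    obtain ⟨s, hs⟩ := ih (fun i g => x i (g ≫ S.inLeft b h hb hh)) (by
      intro i g
      simp only [Category.assoc]
      exact hx i (g ≫ S.inLeft b h hb hh))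
    obtain ⟨r, hr1, hr2⟩ := exists_glue K S b h hb hh s (x h (S.inRight b h hb hh)) (by
        rw [hs, ← hx.face b h hh false, hinge_inLeft])
    refine ⟨r, fun i g => ?_⟩
    rcases globe_glue_factor S b h hb hh i g with ⟨g', rfl⟩ | ⟨g', rfl⟩
    · rw [res_comp, hr1, hs]
    · rw [res_comp, hr2]
      rcases globe_globe_cases i h g' with ⟨h', hg⟩ | ⟨h', b', hg⟩
      · subst h'
        have hg' : g' = 𝟙 _ := hg
        rw [hg', Category.id_comp, res_id]
      · subst hg
        rw [hx.face i h h' b']

/-- Segal condition as a unique existence statement. -/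
theorem segal (K : C.GlobModel) (S : Shape)
    (x : ∀ i, (Shape.globe i ⟶ S) → Tup K (Shape.globe i)) (hx : IsNatFamily K S x) :
    ∃! s : Tup K S, ∀ (i : ℕ) (g : Shape.globe i ⟶ S), res K g s = x i g := by
  obtain ⟨s, hs⟩ := segal_exists K S x hx
  exact ⟨s, hs, fun s' hs' => segal_ext K S s' s fun i g => by rw [hs, hs']⟩

/-- The family of globes of a tuple is natural. -/
theorem isNatFamily_res (K : C.GlobModel) (S : Shape) (s : Tup K S) :
    IsNatFamily K S (fun _ g => res K g s) :=
  fun _ _ => ⟨res_comp _ _ _ _, res_comp _ _ _ _⟩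

end Crest.Agent.R248.Segal
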