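import Crest.Agent.R248.Core

/-! TASK Good: cofibrations and good maps. -/

set_option autoImplicit false

namespace Crest.Agent.R248

open CategoryTheory CategoryTheory.Limits Opposite
open Crest.GeometryTopology.Coherator

universe v w

variable {M : Type w} [Category.{v} M] [HasPushouts M] [HasInitial M] {Fr : Shape ⥤ M}

/-- `f` is a cofibration of level `k` and pushing out along `f` preserves contractibility in
dimension `k` (for cofibrant objects of level `k`). -/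
def Good (Fr : Shape ⥤ M) (k : ℕ) : MorphismProperty M := fun A B f =>
  Cof Fr k f ∧ ∀ (V Z : M) (g : A ⟶ V) (i : V ⟶ Z) (b : B ⟶ Z), Cofibrant Fr k V →
    IsPushout g f i b → Contr Fr k V → Contr Fr k Z

theorem Cof.comp {κ : ℕ∞} {A B D : M} {f : A ⟶ B} {g : B ⟶ D} (hf : Cof Fr κ f) (hg : Cof Fr κ g) :
    Cof Fr κ (f ≫ g) :=
  MorphismProperty.comp_mem (GenCof Fr κ).rlp.llp f g hf hg

theorem Cof.of_isIso {κ : ℕ∞} {A B : M} (f : A ⟶ B) [IsIso f] : Cof Fr κ f :=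
  MorphismProperty.llp_of_isIso _ f

/-- cobase change: `f'` is the pushout of `f` -/
theorem Cof.cobase {κ : ℕ∞} {A B A' B' : M} {f : A ⟶ B} {g : A ⟶ A'} {f' : A' ⟶ B'} {g' : B ⟶ B'}
    (sq : IsPushout g f f' g') (hf : Cof Fr κ f) : Cof Fr κ f' :=
  MorphismProperty.of_isPushout (P := (GenCof Fr κ).rlp.llp) sq hf

theorem GenCof.mono {κ κ' : ℕ∞} (h : κ ≤ κ') : GenCof Fr κ ≤ GenCof Fr κ' := by
  intro A B f hf
  obtain ⟨j, hj⟩ := hf
  exact GenCof.mk j (hj.trans (by gcongr))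

theorem Cof.mono {κ κ' : ℕ∞} (h : κ ≤ κ') {A B : M} {f : A ⟶ B} (hf : Cof Fr κ f) : Cof Fr κ' f :=
  MorphismProperty.antitone_llp (MorphismProperty.antitone_rlp (GenCof.mono h)) _ hf

theorem cof_bdι {κ : ℕ∞} {j : ℕ} (hj : (j : ℕ∞) ≤ κ + 1) : Cof Fr κ (bdι Fr j) :=
  MorphismProperty.le_llp_rlp _ _ (GenCof.mk j hj)

theorem cof_sg {κ : ℕ∞} {j : ℕ} (hj : (j : ℕ∞) ≤ κ) : Cof Fr κ (sg Fr j) := by
  rw [← bdInl_bdι]
  refine Cof.comp (Cof.cobase (bd_sq Fr j) (cof_bdι (hj.trans le_self_add))) (cof_bdι ?_)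
  push_cast
  gcongr

theorem cof_tg {κ : ℕ∞} {j : ℕ} (hj : (j : ℕ∞) ≤ κ) : Cof Fr κ (tg Fr j) := by
  rw [← bdInr_bdι]
  refine Cof.comp (Cof.cobase (bd_sq Fr j).flip (cof_bdι (hj.trans le_self_add))) (cof_bdι ?_)
  push_cast
  gcongr

theorem Cofibrant.of_cof {κ : ℕ∞} {A B : M} {f : A ⟶ B} (hA : Cofibrant Fr κ A) (hf : Cof Fr κ f) :
    Cofibrant Fr κ B := by
  have h : initial.to B = initial.to A ≫ f := initialIsInitial.hom_ext _ _
  unfold Cofibrant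
  rw [h]
  exact Cof.comp hA hf

theorem cofibrant_bd {κ : ℕ∞} {j : ℕ} (hj : (j : ℕ∞) ≤ κ + 2) : Cofibrant Fr κ (bd Fr j) := by
  induction j with
  | zero =>
    have : IsIso (initial.to (bd Fr 0)) :=
      (initialIsInitial.uniqueUpToIso (bdInit Fr)).isIso_hom
    exact Cof.of_isIso _
  | succ j ih =>
    have h1 : (j : ℕ∞) ≤ κ + 1 := by
      have h2 : ((j : ℕ∞) + 1) ≤ (κ + 1) + 1 := by
        have : (κ + 1) + 1 = κ + 2 := by rw [add_assoc, one_add_one_eq_two]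
        rw [this]
        exact_mod_cast hj
      exact (ENat.add_le_add_iff_right (by simp)).1 h2
    have h2 : (j : ℕ∞) ≤ κ + 2 := h1.trans (by gcongr; norm_num)
    refine Cofibrant.of_cof (Cofibrant.of_cof (ih h2) (cof_bdι h1)) (Cof.cobase (bd_sq Fr j) (cof_bdι h1))

theorem cofibrant_glob {κ : ℕ∞} {j : ℕ} (hj : (j : ℕ∞) ≤ κ + 1) : Cofibrant Fr κ (glob Fr j) :=
  Cofibrant.of_cof (cofibrant_bd (hj.trans (by gcongr; norm_num))) (cof_bdι hj)

/-- faces between globes are cofibrations -/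
theorem cof_face {κ : ℕ∞} {b h : ℕ} (hh : b < h) (up : Bool) (hk : (h : ℕ∞) ≤ κ + 1) :
    Cof Fr κ (Fr.map (Shape.faceMap hh up)) := by
  obtain ⟨d, rfl⟩ : ∃ d, h = b + 1 + d := ⟨h - (b + 1), by omega⟩
  induction d with
  | zero =>
    have hb : (b : ℕ∞) ≤ κ := by
      have : (b : ℕ∞) + 1 ≤ κ + 1 := by exact_mod_cast hk
      exact (ENat.add_le_add_iff_right (by simp)).1 this
    cases up
    · exact cof_sg hb
    · exact cof_tg hb
  | succ d ih =>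
    have hb : ((b + 1 + d : ℕ) : ℕ∞) ≤ κ := by
      have : ((b + 1 + d : ℕ) : ℕ∞) + 1 ≤ κ + 1 := by exact_mod_cast hk
      exact (ENat.add_le_add_iff_right (by simp)).1 this
    have h1 : b < b + 1 + d := by omega
    have h2 : b + 1 + d < b + 1 + d + 1 := by omega
    have e : Shape.faceMap hh up = Shape.faceMap h1 up ≫ Shape.faceMap h2 false :=
      (faceMap_comp h1 h2 up false).symm
    rw [e, Fr.map_comp]
    exact Cof.comp (ih h1 (hb.trans le_self_add)) (cof_sg hb)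

theorem cofibrant_obj (hS : Sums Fr) {κ : ℕ∞} (S : Shape) (hd : (S.dim : ℕ∞) ≤ κ + 1) :
    Cofibrant Fr κ (Fr.obj S) := by
  obtain ⟨n, P⟩ := S
  induction P with
  | single h => exact cofibrant_glob hd
  | @glue last P b h hb hh ih =>
    have hd' : (max P.dim h : ℕ) = (Shape.glue ⟨last, P⟩ b h hb hh).dim := rfl
    have h1 : ((Shape.dim ⟨last, P⟩ : ℕ) : ℕ∞) ≤ κ + 1 := by
      refine le_trans ?_ hd
      exact_mod_cast (le_max_left P.dim h)
    have h2 : (h : ℕ∞) ≤ κ + 1 := by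
      refine le_trans ?_ hd
      exact_mod_cast (le_max_right P.dim h)
    exact Cofibrant.of_cof (ih h1) (Cof.cobase (hS ⟨last, P⟩ b h hb hh) (cof_face hh false h2))

theorem Contr.of_retract {k : ℕ} {X Y : M} (i : X ⟶ Y) (r : Y ⟶ X) (h : i ≫ r = 𝟙 X)
    (hY : Contr Fr k Y) : Contr Fr k X := by
  intro u v huv
  obtain ⟨w, h1, h2⟩ := hY (u ≫ i) (v ≫ i) (by rw [← Category.assoc, huv, Category.assoc])
  exact ⟨w ≫ r, by rw [← Category.assoc, h1, Category.assoc, h, Category.comp_id],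
    by rw [← Category.assoc, h2, Category.assoc, h, Category.comp_id]⟩

theorem Contr.of_iso {k : ℕ} {X Y : M} (i : X ≅ Y) (hY : Contr Fr k Y) : Contr Fr k X :=
  Contr.of_retract i.hom i.inv i.hom_inv_id hY

theorem good_sg {k m : ℕ} (hm : m ≤ k) (h : PO Fr k m) : Good Fr k (sg Fr m) :=
  ⟨cof_sg (by exact_mod_cast hm), fun V Z g i b hV sq hc => h V hV g Z i b sq hc⟩

theorem Good.comp {k : ℕ} {A B D : M} {f : A ⟶ B} {g : B ⟶ D} (hf : Good Fr k f) (hg : Good Fr k g) :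
    Good Fr k (f ≫ g) := by
  refine ⟨hf.1.comp hg.1, fun V Z g₀ i b hV sq hc => ?_⟩
  have sq1 : IsPushout g₀ f (pushout.inl g₀ f) (pushout.inr g₀ f) := IsPushout.of_hasPushout _ _
  have hw : g₀ ≫ i = f ≫ g ≫ b := by rw [sq.w, Category.assoc]
  have sq2 : IsPushout (pushout.inr g₀ f) g (pushout.desc i (g ≫ b) hw) b := by
    refine IsPushout.of_left (h₁₁ := f) (h₁₂ := g) (v₁₁ := g₀) (v₁₂ := pushout.inr g₀ f)
      (v₁₃ := b) (h₂₁ := pushout.inl g₀ f) (h₂₂ := pushout.desc i (g ≫ b) hw) ?_ ?_ sq1.flip |>.flip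
    · rw [pushout.inl_desc]
      exact sq.flip
    · rw [pushout.inr_desc]
  exact hg.2 _ _ _ _ _ (hV.of_cof (hf.1.cobase sq1)) sq2 (hf.2 _ _ _ _ _ hV sq1 hc)

theorem Good.of_isIso {k : ℕ} {A B : M} (f : A ⟶ B) [IsIso f] : Good Fr k f := by
  refine ⟨Cof.of_isIso f, fun V Z g i b hV sq hc => ?_⟩
  have : IsIso i := sq.isIso_inl_of_isIso
  exact Contr.of_iso (asIso i).symm hc

theorem Good.cobase {k : ℕ} {A B A' B' : M} {f : A ⟶ B} {g : A ⟶ A'} {f' : A' ⟶ B'} {g' : B ⟶ B'}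
    (sq : IsPushout g f f' g') (hf : Good Fr k f) : Good Fr k f' :=
  ⟨hf.1.cobase sq, fun V Z g₀ i b hV sq' hc =>
    hf.2 V Z (g ≫ g₀) i (g' ≫ b) hV (sq.paste_horiz sq') hc⟩

theorem Good.contr {k : ℕ} {A B : M} {f : A ⟶ B} (hf : Good Fr k f) (hA : Cofibrant Fr k A)
    (hc : Contr Fr k A) : Contr Fr k B :=
  hf.2 A B (𝟙 A) f (𝟙 B) hA (IsPushout.of_id_fst) hc

end Crest.Agent.R248
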