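import Crest.Agent.R248.PathExists
import Crest.Agent.R248.Good

/-! Boundary adjunction for path objects; `k₀` is invertible in the low range; cofibrancy of the
members of a cylinder sequence. -/

set_option autoImplicit false

namespace Crest.Agent.R248

open CategoryTheory CategoryTheory.Limits Opposite
open Crest.GeometryTopology.Coherator

universe v w

variable {M : Type w} [Category.{v} M] [HasPushouts M] [HasInitial M] {Fr : Shape ⥤ M}

/-- maps `bd i ⟶ P X` correspond to maps `B i ⟶ X` -/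
theorem PathOn.exists_adj {C : CylSeq Fr} (T : PathOn C) (i : ℕ) {X : M}
    (u : bd Fr i ⟶ T.P.obj X) :
    ∃ û : C.B i ⟶ X, (∀ g : glob Fr i ⟶ T.P.obj X, bdι Fr i ≫ g = u ↔ C.δ i ≫ T.e i X g = û) ∧
      C.k₀ i ≫ û = u ≫ T.ev₀.app X ∧ C.k₁ i ≫ û = u ≫ T.ev₁.app X := by
  induction i with
  | zero =>
    exact ⟨C.init.to X, fun g => ⟨fun _ => C.init.hom_ext _ _, fun _ => (bdInit Fr).hom_ext _ _⟩,
      (bdInit Fr).hom_ext _ _, (bdInit Fr).hom_ext _ _⟩
  | succ i ih =>
    obtain ⟨û', h', -, -⟩ := ih (bdι Fr i ≫ bdInl Fr i ≫ u)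
    have e1 : C.δ i ≫ T.e i X (bdInl Fr i ≫ u) = û' := (h' _).1 rfl
    have e2 : C.δ i ≫ T.e i X (bdInr Fr i ≫ u) = û' := (h' _).1 (by
      rw [← Category.assoc, ← (bd_sq Fr i).w, Category.assoc])
    refine ⟨(C.sq i).desc (T.e i X (bdInl Fr i ≫ u)) (T.e i X (bdInr Fr i ≫ u)) (e1.trans e2.symm),
      ?_, ?_, ?_⟩
    · intro g
      constructor
      · intro hg
        apply (C.sq i).hom_ext
        · rw [(C.sq i).inl_desc, ← hg, ← Category.assoc (bdInl Fr i), bdInl_bdι, T.e_s]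
          rw [CylSeq.s, Category.assoc]
        · rw [(C.sq i).inr_desc, ← hg, ← Category.assoc (bdInr Fr i), bdInr_bdι, T.e_t]
          rw [CylSeq.t, Category.assoc]
      · intro hg
        apply (bd_sq Fr i).hom_ext
        · apply (T.e i X).injective
          rw [← Category.assoc, bdInl_bdι, T.e_s, CylSeq.s, Category.assoc, hg,
            (C.sq i).inl_desc]
        · apply (T.e i X).injective
          rw [← Category.assoc, bdInr_bdι, T.e_t, CylSeq.t, Category.assoc, hg,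
            (C.sq i).inr_desc]
    · apply (bd_sq Fr i).hom_ext
      · rw [← Category.assoc, C.inl_k₀, Category.assoc, (C.sq i).inl_desc, ← T.e_ev₀,
          Category.assoc]
      · rw [← Category.assoc, C.inr_k₀, Category.assoc, (C.sq i).inr_desc, ← T.e_ev₀,
          Category.assoc]
    · apply (bd_sq Fr i).hom_ext
      · rw [← Category.assoc, C.inl_k₁, Category.assoc, (C.sq i).inl_desc, ← T.e_ev₁,
          Category.assoc]
      · rw [← Category.assoc, C.inr_k₁, Category.assoc, (C.sq i).inr_desc, ← T.e_ev₁,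
          Category.assoc]

/-- parallel cells of the path object correspond to parallel cylinders -/
theorem PathOn.parallel_iff {C : CylSeq Fr} (T : PathOn C) (i : ℕ) {X : M}
    (p q : glob Fr i ⟶ T.P.obj X) :
    bdι Fr i ≫ p = bdι Fr i ≫ q ↔ C.δ i ≫ T.e i X p = C.δ i ≫ T.e i X q := by
  obtain ⟨û, h, -, -⟩ := T.exists_adj i (bdι Fr i ≫ q)
  rw [h p, (h q).1 rfl]

namespace CylSeq

variable (C : CylSeq Fr)

/-- if nothing moves below `j` then the boundaries in dimension `j` coincide -/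
theorem isIso_k₀ (j : ℕ) (low : ∀ i, i < j → C.Low i) :
    IsIso (C.k₀ j) ∧ C.k₁ j = C.k₀ j := by
  induction j with
  | zero =>
    have : C.k₀ 0 = ((bdInit Fr).uniqueUpToIso C.init).hom := (bdInit Fr).hom_ext _ _
    refine ⟨?_, (bdInit Fr).hom_ext _ _⟩
    rw [this]
    infer_instance
  | succ j ih =>
    obtain ⟨hk, hk'⟩ := ih (fun i hi => low i (by omega))
    obtain ⟨hi, hi'⟩ := low j (by omega)
    refine ⟨?_, ?_⟩
    · have h2 : IsPushout (bdι Fr j) (bdι Fr j) (C.i₀ j ≫ C.inl j) (C.i₀ j ≫ C.inr j) :=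
        (C.sq j).of_iso' (asIso (C.k₀ j)) (asIso (C.i₀ j)) (asIso (C.i₀ j)) (Iso.refl _)
          (C.k₀_δ j) (C.k₀_δ j) (by simp) (by simp)
      have h3 : C.k₀ (j + 1) = ((bd_sq Fr j).isoIsPushout _ _ h2).hom := by
        apply (bd_sq Fr j).hom_ext
        · rw [C.inl_k₀, IsPushout.inl_isoIsPushout_hom]
        · rw [C.inr_k₀, IsPushout.inr_isoIsPushout_hom]
      rw [h3]
      infer_instance
    · apply (bd_sq Fr j).hom_ext
      · rw [C.inl_k₀, C.inl_k₁, hi']
      · rw [C.inr_k₀, C.inr_k₁, hi']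

theorem isIso_oD_of_low (j : ℕ) (low : ∀ i, i < j → C.Low i) : IsIso (C.oD j) := by
  have := (C.isIso_k₀ j low).1
  exact (C.sqO j).flip.isIso_inl_of_isIso

/-- `δ j` is a cofibration -/
theorem cof_δ {n : ℕ} {κ lev : ℕ∞} (hC : C.IsCyl n κ) (j : ℕ) (hj : (j : ℕ∞) ≤ lev + 1)
    (hj' : (n : ℕ∞) ≤ j → (j : ℕ∞) ≤ κ → (j : ℕ∞) ≤ lev) : Cof Fr lev (C.δ j) := by
  rcases lt_or_ge j n with hjn | hjn
  · have hk := (C.isIso_k₀ j (fun i hi => hC.low i (by omega))).1
    have h : C.δ j = inv (C.k₀ j) ≫ bdι Fr j ≫ C.i₀ j := by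
      rw [← C.k₀_δ, IsIso.inv_hom_id_assoc]
    rw [h]
    have := (hC.low j hjn).1
    exact (Cof.of_isIso _).comp ((cof_bdι hj).comp (Cof.of_isIso _))
  · rw [← C.oB_q]
    refine (Cof.cobase (C.sqO j) (cof_bdι hj)).comp ?_
    by_cases hκ : (j : ℕ∞) ≤ κ
    · have hm : C.Mid j := by
        rcases hjn.lt_or_eq with h | h
        · exact hC.mid j h hκ
        · subst h
          exact ⟨C.oD n, hC.bot hκ⟩
      obtain ⟨w, -, θ, hsq, -⟩ := hm
      exact Cof.cobase hsq (cof_sg (hj' (by exact_mod_cast hjn) hκ))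
    · have hh : IsPushout (C.k₁ j ≫ C.oB j) (bdι Fr j) (C.q j) (C.i₁ j) :=
        hC.high j (not_le.mp hκ)
      exact Cof.cobase hh (cof_bdι hj)

theorem cofibrant_B {n : ℕ} {κ lev : ℕ∞} (hC : C.IsCyl n κ) (j : ℕ) (hj : (j : ℕ∞) ≤ lev + 1) :
    Cofibrant Fr lev (C.B j) := by
  induction j with
  | zero =>
    have : IsIso (initial.to (C.B 0)) :=
      (initialIsInitial.uniqueUpToIso C.init).isIso_hom
    exact Cof.of_isIso _
  | succ j ih =>
    have h1 : (j : ℕ∞) ≤ lev := by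
      have h2 : (j : ℕ∞) + 1 ≤ lev + 1 := by exact_mod_cast hj
      exact (ENat.add_le_add_iff_right (by simp)).1 h2
    have hδ : Cof Fr lev (C.δ j) := C.cof_δ hC j (h1.trans le_self_add) (fun _ _ => h1)
    exact ((ih (h1.trans le_self_add)).of_cof hδ).of_cof (Cof.cobase (C.sq j) hδ)

end CylSeq

end Crest.Agent.R248
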