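import Crest.Agent.R248.Core

/-! TASK Calc: coherator calculus in a `Setting`. -/

set_option autoImplicit false

namespace Crest.Agent.R248

open CategoryTheory CategoryTheory.Limits Opposite
open Crest.GeometryTopology.Coherator

universe v w

variable {M : Type w} [Category.{v} M] [HasPushouts M] [HasInitial M] {Fr : Shape ⥤ M}

/-- equality on the boundary in positive dimension, in terms of the two faces -/
theorem bdι_succ_ext {j : ℕ} {X : M} {u v : glob Fr (j + 1) ⟶ X}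
    (h0 : sg Fr j ≫ u = sg Fr j ≫ v) (h1 : tg Fr j ≫ u = tg Fr j ≫ v) :
    bdι Fr (j + 1) ≫ u = bdι Fr (j + 1) ≫ v := by
  apply (bd_sq Fr j).hom_ext
  · rw [← Category.assoc, ← Category.assoc, bdInl_bdι, h0]
  · rw [← Category.assoc, ← Category.assoc, bdInr_bdι, h1]

theorem hinge_globe {a b : ℕ} (hb : b < a) :
    (Shape.globe a).hinge (b := b) hb = Shape.faceMap hb true := by
  show GlobPsh.globeRepFace hb true ≫ 𝟙 _ = GlobPsh.globeRepFace hb true
  rw [Category.comp_id]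

/-- filling a pair of parallel cells that factor through the free model on a shape -/
theorem Setting.step (S : Setting Fr) {k : ℕ} (T : Shape) (hT : T.dim ≤ k + 1) {X : M}
    (x : Fr.obj T ⟶ X) (u v : glob Fr k ⟶ Fr.obj T) (h : bdι Fr k ≫ u = bdι Fr k ≫ v) :
    Step Fr (u ≫ x) (v ≫ x) := by
  obtain ⟨w, h1, h2⟩ := S.fill k T hT u v h
  exact ⟨w ≫ x, by rw [← Category.assoc, h1], by rw [← Category.assoc, h2]⟩

theorem dim_globe (n : ℕ) : (Shape.globe n).dim = n := rfl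

/-- the shape `D_a ⨿_{D_b} D_h` -/
abbrev sh2 (a b h : ℕ) (hb : b < a) (hh : b < h) : Shape := (Shape.globe a).glue b h hb hh

theorem dim_sh2 (a b h : ℕ) (hb : b < a) (hh : b < h) : (sh2 a b h hb hh).dim = max a h := rfl

theorem sq_sh2 (S : Setting Fr) {a b h : ℕ} (hb : b < a) (hh : b < h) :
    IsPushout (Fr.map (Shape.faceMap hb true)) (Fr.map (Shape.faceMap hh false))
      (Fr.map ((Shape.globe a).inLeft b h hb hh)) (Fr.map ((Shape.globe a).inRight b h hb hh)) := by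
  have := S.sums (Shape.globe a) b h hb hh
  rwa [hinge_globe] at this

/-- a unit operation -/
theorem exists_unit (S : Setting Fr) (n : ℕ) :
    ∃ e : glob Fr (n + 1) ⟶ glob Fr n, sg Fr n ≫ e = 𝟙 _ ∧ tg Fr n ≫ e = 𝟙 _ :=
  S.fill n (Shape.globe n) (Nat.le_succ n) (𝟙 _) (𝟙 _) rfl

/-- an inversion operation -/
theorem exists_inv (S : Setting Fr) (n : ℕ) :
    ∃ e : glob Fr (n + 1) ⟶ glob Fr (n + 1), sg Fr n ≫ e = tg Fr n ∧ tg Fr n ≫ e = sg Fr n :=
  S.fill n (Shape.globe (n + 1)) le_rfl (tg Fr n) (sg Fr n) (bdι_sg Fr n).symm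

theorem Step.refl (S : Setting Fr) {j : ℕ} {X : M} (u : glob Fr j ⟶ X) : Step Fr u u := by
  obtain ⟨e, h1, h2⟩ := exists_unit S j
  exact ⟨e ≫ u, by rw [← Category.assoc, h1, Category.id_comp],
    by rw [← Category.assoc, h2, Category.id_comp]⟩

theorem Step.symm (S : Setting Fr) {j : ℕ} {X : M} {u v : glob Fr j ⟶ X} (h : Step Fr u v) :
    Step Fr v u := by
  obtain ⟨e, h1, h2⟩ := exists_inv S j
  obtain ⟨w, rfl, rfl⟩ := h
  exact ⟨e ≫ w, by rw [← Category.assoc, h1], by rw [← Category.assoc, h2]⟩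

/-- a binary composition operation -/
theorem exists_compOp (S : Setting Fr) (n : ℕ) :
    ∃ c : glob Fr (n + 1) ⟶ Fr.obj (sh2 (n + 1) n (n + 1) (Nat.lt_succ_self n) (Nat.lt_succ_self n)),
      sg Fr n ≫ c = sg Fr n ≫ Fr.map ((Shape.globe (n + 1)).inLeft n (n + 1) (Nat.lt_succ_self n)
        (Nat.lt_succ_self n)) ∧
      tg Fr n ≫ c = tg Fr n ≫ Fr.map ((Shape.globe (n + 1)).inRight n (n + 1) (Nat.lt_succ_self n)
        (Nat.lt_succ_self n)) := by
  have hsq := sq_sh2 S (Nat.lt_succ_self n) (Nat.lt_succ_self n)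
  apply S.fill n
  · rw [dim_sh2]; exact le_of_eq (max_self _)
  · have hw : tg Fr n ≫ _ = sg Fr n ≫ _ := hsq.w
    rw [← Category.assoc, bdι_sg, Category.assoc, hw, ← Category.assoc, bdι_sg, Category.assoc]

theorem Step.trans (S : Setting Fr) {j : ℕ} {X : M} {u v x : glob Fr j ⟶ X} (h : Step Fr u v)
    (h' : Step Fr v x) : Step Fr u x := by
  obtain ⟨c, h1, h2⟩ := exists_compOp S j
  obtain ⟨w, rfl, hw⟩ := h
  obtain ⟨w', hw', rfl⟩ := h'
  have hsq := sq_sh2 S (Nat.lt_succ_self j) (Nat.lt_succ_self j)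
  have e : Fr.map (Shape.faceMap (Nat.lt_succ_self j) true) ≫ w =
      Fr.map (Shape.faceMap (Nat.lt_succ_self j) false) ≫ w' := hw.trans hw'.symm
  refine ⟨c ≫ hsq.desc w w' e, ?_, ?_⟩
  · rw [← Category.assoc, h1, Category.assoc, hsq.inl_desc]
  · rw [← Category.assoc, h2, Category.assoc, hsq.inr_desc]

omit [HasPushouts M] [HasInitial M] in
theorem Step.comp {j : ℕ} {X Y : M} {u v : glob Fr j ⟶ X} (h : Step Fr u v) (f : X ⟶ Y) :
    Step Fr (u ≫ f) (v ≫ f) := by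
  obtain ⟨w, h1, h2⟩ := h
  exact ⟨w ≫ f, by rw [← Category.assoc, h1], by rw [← Category.assoc, h2]⟩

theorem Step.parallel {j : ℕ} {X : M} {u v : glob Fr j ⟶ X} (h : Step Fr u v) :
    bdι Fr j ≫ u = bdι Fr j ≫ v := by
  obtain ⟨w, rfl, rfl⟩ := h
  rw [← Category.assoc, ← Category.assoc, bdι_sg]

/-- `CompData`: a chosen composition operation -/
structure CompOp (Fr : Shape ⥤ M) (n : ℕ) where
  op : glob Fr (n + 1) ⟶
    Fr.obj (sh2 (n + 1) n (n + 1) (Nat.lt_succ_self n) (Nat.lt_succ_self n))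
  sq : IsPushout (tg Fr n) (sg Fr n)
    (Fr.map ((Shape.globe (n + 1)).inLeft n (n + 1) (Nat.lt_succ_self n) (Nat.lt_succ_self n)))
    (Fr.map ((Shape.globe (n + 1)).inRight n (n + 1) (Nat.lt_succ_self n) (Nat.lt_succ_self n)))
  src : sg Fr n ≫ op = sg Fr n ≫ Fr.map ((Shape.globe (n + 1)).inLeft n (n + 1)
    (Nat.lt_succ_self n) (Nat.lt_succ_self n))
  tgt : tg Fr n ≫ op = tg Fr n ≫ Fr.map ((Shape.globe (n + 1)).inRight n (n + 1)
    (Nat.lt_succ_self n) (Nat.lt_succ_self n))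

namespace CompOp

omit [HasPushouts M] [HasInitial M]

variable {n : ℕ} (c : CompOp Fr n)

/-- composition of cells -/
noncomputable def ap {X : M} (l g : glob Fr (n + 1) ⟶ X) (h : tg Fr n ≫ l = sg Fr n ≫ g) :
    glob Fr (n + 1) ⟶ X := c.op ≫ c.sq.desc l g h

theorem sg_ap {X : M} (l g : glob Fr (n + 1) ⟶ X) (h : tg Fr n ≫ l = sg Fr n ≫ g) :
    sg Fr n ≫ c.ap l g h = sg Fr n ≫ l := by
  unfold ap
  rw [← Category.assoc, c.src, Category.assoc, c.sq.inl_desc]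

theorem tg_ap {X : M} (l g : glob Fr (n + 1) ⟶ X) (h : tg Fr n ≫ l = sg Fr n ≫ g) :
    tg Fr n ≫ c.ap l g h = tg Fr n ≫ g := by
  unfold ap
  rw [← Category.assoc, c.tgt, Category.assoc, c.sq.inr_desc]

theorem ap_comp {X Y : M} (l g : glob Fr (n + 1) ⟶ X) (h : tg Fr n ≫ l = sg Fr n ≫ g)
    (f : X ⟶ Y) : c.ap l g h ≫ f =
      c.ap (l ≫ f) (g ≫ f) (by rw [← Category.assoc, h, Category.assoc]) := by
  unfold ap
  rw [Category.assoc]
  congr 1
  apply c.sq.hom_ext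
  · rw [← Category.assoc, c.sq.inl_desc, c.sq.inl_desc]
  · rw [← Category.assoc, c.sq.inr_desc, c.sq.inr_desc]

end CompOp

theorem nonempty_compOp (S : Setting Fr) (n : ℕ) : Nonempty (CompOp Fr n) := by
  obtain ⟨c, h1, h2⟩ := exists_compOp S n
  exact ⟨⟨c, sq_sh2 S _ _, h1, h2⟩⟩

theorem hinge_glue (T : Shape) (b h b' : ℕ) (hb : b < T.last) (hh : b < h) (hb' : b' < h) :
    (T.glue b h hb hh).hinge (b := b') hb' = Shape.faceMap hb' true ≫ T.inRight b h hb hh := rfl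

/-- left whiskering: `a ~ a'` implies `b ∘ a ~ b ∘ a'` -/
theorem CompOp.whiskL (S : Setting Fr) {n : ℕ} (c : CompOp Fr n) {X : M}
    {a a' b : glob Fr (n + 1) ⟶ X} (h : tg Fr n ≫ a = sg Fr n ≫ b)
    (h' : tg Fr n ≫ a' = sg Fr n ≫ b) (hs : Step Fr a a') : Step Fr (c.ap a b h) (c.ap a' b h') := by
  obtain ⟨α, rfl, rfl⟩ := hs
  have hn : n < n + 2 := by omega
  have hsq := sq_sh2 S (a := n + 2) (h := n + 1) hn (Nat.lt_succ_self n)
  have e2 : Fr.map (Shape.faceMap hn true) = tg Fr n ≫ sg Fr (n + 1) := by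
    unfold sg tg Shape.σ Shape.τ
    rw [← Fr.map_comp, faceMap_comp]
  have e2' : Fr.map (Shape.faceMap hn true) = tg Fr n ≫ tg Fr (n + 1) := by
    rw [e2, tg_sg]
  set L := Fr.map ((Shape.globe (n + 2)).inLeft n (n + 1) hn (Nat.lt_succ_self n)) with hL
  set R := Fr.map ((Shape.globe (n + 2)).inRight n (n + 1) hn (Nat.lt_succ_self n)) with hR
  have w1 : tg Fr n ≫ (sg Fr (n + 1) ≫ L) = sg Fr n ≫ R := by
    rw [← Category.assoc, ← e2]; exact hsq.w
  have w2 : tg Fr n ≫ (tg Fr (n + 1) ≫ L) = sg Fr n ≫ R := by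
    rw [← Category.assoc, ← e2']; exact hsq.w
  have e : Fr.map (Shape.faceMap hn true) ≫ α =
      Fr.map (Shape.faceMap (Nat.lt_succ_self n) false) ≫ b := by
    rw [e2, Category.assoc]; exact h
  have key := S.step (k := n + 1) (sh2 (n + 2) n (n + 1) hn (Nat.lt_succ_self n))
    (by rw [dim_sh2]; omega) (hsq.desc α b e)
    (c.ap (sg Fr (n + 1) ≫ L) R w1) (c.ap (tg Fr (n + 1) ≫ L) R w2)
    (by
      apply bdι_succ_ext
      · rw [c.sg_ap, c.sg_ap, ← Category.assoc, ← Category.assoc, sg_sg]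
      · rw [c.tg_ap, c.tg_ap])
  rw [c.ap_comp, c.ap_comp] at key
  convert key using 2
  · rw [Category.assoc, hsq.inl_desc]
  · exact (hsq.inr_desc _ _ _).symm
  · rw [Category.assoc, hsq.inl_desc]
  · exact (hsq.inr_desc _ _ _).symm

/-- associativity up to a cell -/
theorem CompOp.assoc (S : Setting Fr) {n : ℕ} (c : CompOp Fr n) {X : M}
    {a b d : glob Fr (n + 1) ⟶ X} (h : tg Fr n ≫ a = sg Fr n ≫ b)
    (h' : tg Fr n ≫ b = sg Fr n ≫ d) :
    Step Fr (c.ap (c.ap a b h) d (by rw [c.tg_ap, h']))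
      (c.ap a (c.ap b d h') (by rw [c.sg_ap, h])) := by
  have hn : n < n + 1 := Nat.lt_succ_self n
  set T := sh2 (n + 1) n (n + 1) hn hn with hT
  have hsq : IsPushout (Fr.map (T.hinge hn)) (Fr.map (Shape.faceMap hn false))
      (Fr.map (T.inLeft n (n + 1) hn hn)) (Fr.map (T.inRight n (n + 1) hn hn)) :=
    S.sums T n (n + 1) hn hn
  rw [show T.hinge (b := n) hn = Shape.faceMap hn true ≫ (Shape.globe (n + 1)).inRight n (n + 1) hn hn
    from rfl, Fr.map_comp] at hsq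
  set L0 := Fr.map ((Shape.globe (n + 1)).inLeft n (n + 1) hn hn) with hL0
  set R0 := Fr.map ((Shape.globe (n + 1)).inRight n (n + 1) hn hn) with hR0
  set L := Fr.map (T.inLeft n (n + 1) hn hn) with hL
  set R := Fr.map (T.inRight n (n + 1) hn hn) with hR
  have w0 : tg Fr n ≫ (L0 ≫ L) = sg Fr n ≫ (R0 ≫ L) := by
    rw [← Category.assoc, ← Category.assoc, c.sq.w]
  have w1 : tg Fr n ≫ (R0 ≫ L) = sg Fr n ≫ R := by
    rw [← Category.assoc]; exact hsq.w
  have e : (Fr.map (Shape.faceMap hn true) ≫ R0) ≫ c.sq.desc a b h =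
      Fr.map (Shape.faceMap hn false) ≫ d := by
    rw [Category.assoc, c.sq.inr_desc]; exact h'
  have key := S.step (k := n + 1) (T.glue n (n + 1) hn hn)
    (by show max (max (n+1) (n+1)) (n+1) ≤ n + 1 + 1; omega) (hsq.desc (c.sq.desc a b h) d e)
    (c.ap (c.ap (L0 ≫ L) (R0 ≫ L) w0) R (by rw [c.tg_ap, w1]))
    (c.ap (L0 ≫ L) (c.ap (R0 ≫ L) R w1) (by rw [c.sg_ap, w0]))
    (by
      apply bdι_succ_ext
      · rw [c.sg_ap, c.sg_ap, c.sg_ap]
      · rw [c.tg_ap, c.tg_ap, c.tg_ap])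
  have eL : (L0 ≫ L) ≫ hsq.desc (c.sq.desc a b h) d e = a := by
    rw [Category.assoc, hsq.inl_desc, c.sq.inl_desc]
  have eM : (R0 ≫ L) ≫ hsq.desc (c.sq.desc a b h) d e = b := by
    rw [Category.assoc, hsq.inl_desc, c.sq.inr_desc]
  have eR : R ≫ hsq.desc (c.sq.desc a b h) d e = d := hsq.inr_desc _ _ _
  simp only [c.ap_comp, eL, eM, eR] at key
  exact key

/-- a fixed binary composition operation `D_{n+1} ⟶ Fr (D_{n+1} ⨿_{D_n} D_{n+1})`, as a cell of any `X`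
containing composable `l : x → y`, `g : y → z`, natural in `X` -/
theorem exists_comp (S : Setting Fr) (n : ℕ) :
    ∃ (c : ∀ {X : M} (l g : glob Fr (n + 1) ⟶ X), tg Fr n ≫ l = sg Fr n ≫ g →
        (glob Fr (n + 1) ⟶ X)),
      (∀ {X : M} (l g : glob Fr (n + 1) ⟶ X) (h : tg Fr n ≫ l = sg Fr n ≫ g),
        sg Fr n ≫ c l g h = sg Fr n ≫ l ∧ tg Fr n ≫ c l g h = tg Fr n ≫ g) ∧
      (∀ {X Y : M} (l g : glob Fr (n + 1) ⟶ X) (h : tg Fr n ≫ l = sg Fr n ≫ g) (f : X ⟶ Y),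
        c l g h ≫ f = c (l ≫ f) (g ≫ f) (by rw [← Category.assoc, h, Category.assoc])) ∧
      -- "division": for `l : x → x'` and `f : x → y` there is `g : x' → y` with `g ∘ l ~ f`
      (∀ {X : M} (l f : glob Fr (n + 1) ⟶ X), sg Fr n ≫ l = sg Fr n ≫ f →
        ∃ (g : glob Fr (n + 1) ⟶ X) (h : tg Fr n ≫ l = sg Fr n ≫ g),
          tg Fr n ≫ g = tg Fr n ≫ f ∧ Step Fr (c l g h) f) := by
  obtain ⟨c⟩ := nonempty_compOp S n
  refine ⟨fun l g h => c.ap l g h, fun l g h => ⟨c.sg_ap l g h, c.tg_ap l g h⟩,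
    fun l g h f => c.ap_comp l g h f, ?_⟩
  intro X l f hlf
  obtain ⟨iv, hi1, hi2⟩ := exists_inv S n
  obtain ⟨e, he1, he2⟩ := exists_unit S n
  have w1 : tg Fr n ≫ (iv ≫ l) = sg Fr n ≫ f := by rw [← Category.assoc, hi2, hlf]
  have w2 : tg Fr n ≫ l = sg Fr n ≫ (iv ≫ l) := by rw [← Category.assoc, hi1]
  refine ⟨c.ap (iv ≫ l) f w1, by rw [c.sg_ap, w2], c.tg_ap _ _ _, ?_⟩
  -- associativity
  have s1 := (c.assoc S w2 w1).symm S
  refine s1.trans S ?_
  -- inverse law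
  have w3 : tg Fr n ≫ 𝟙 (glob Fr (n + 1)) = sg Fr n ≫ iv := by rw [Category.comp_id, hi1]
  have s2 := S.step (k := n + 1) (Shape.globe (n + 1)) (by rw [dim_globe]; omega) l
    (c.ap (𝟙 _) iv w3) (e ≫ sg Fr n) (by
      apply bdι_succ_ext
      · rw [c.sg_ap, Category.comp_id, ← Category.assoc, he1, Category.id_comp]
      · rw [c.tg_ap, hi2, ← Category.assoc, he2, Category.id_comp])
  rw [c.ap_comp] at s2
  simp only [Category.id_comp] at s2
  have w4 : tg Fr n ≫ ((e ≫ sg Fr n) ≫ l) = sg Fr n ≫ f := by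
    rw [← Category.assoc, ← Category.assoc, he2, Category.id_comp, hlf]
  refine (c.whiskL S (b := f) _ w4 s2).trans S ?_
  -- unit law
  have w5 : tg Fr n ≫ (e ≫ sg Fr n) = sg Fr n ≫ 𝟙 (glob Fr (n + 1)) := by
    rw [← Category.assoc, he2, Category.id_comp, Category.comp_id]
  have s3 := S.step (k := n + 1) (Shape.globe (n + 1)) (by rw [dim_globe]; omega) f
    (c.ap (e ≫ sg Fr n) (𝟙 _) w5) (𝟙 _) (by
      apply bdι_succ_ext
      · rw [c.sg_ap, Category.comp_id, ← Category.assoc, he1, Category.id_comp]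
      · rw [c.tg_ap])
  rw [c.ap_comp] at s3
  simp only [Category.id_comp] at s3
  convert s3 using 2
  rw [Category.assoc, Category.assoc, hlf]

end Crest.Agent.R248
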