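import Crest.Agent.R248.Core

/-!
# R248: colimits in the category of models of a globular theory

`GlobModel C` is equivalent to the full subcategory of presheaves on `C.Ob` which are local with
respect to a small family of maps between finitely presentable presheaves; hence it is reflective,
and has all colimits (and limits).
-/

set_option autoImplicit false

open CategoryTheory CategoryTheory.Limits Opposite Crest.GeometryTopology.Coherator

universe u

namespace Crest.Agent.R248

open GlobTheory

variable {C : GlobTheory.{u}}

/-- The index set of the designated gluing squares. -/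
structure Sq : Type where
  S : Shape
  b : ℕ
  h : ℕ
  hb : b < S.last
  hh : b < h

/-- The comparison map of presheaves for a designated gluing square. -/
noncomputable def sqMap (C : GlobTheory.{u}) (q : Sq) :
    pushout (yoneda.map (C.incl.map (q.S.hinge q.hb)))
      (yoneda.map (C.incl.map (Shape.faceMap q.hh false))) ⟶
      yoneda.obj (C.incl.obj (q.S.glue q.b q.h q.hb q.hh)) :=
  pushout.desc (yoneda.map (C.incl.map (q.S.inLeft q.b q.h q.hb q.hh)))
    (yoneda.map (C.incl.map (q.S.inRight q.b q.h q.hb q.hh)))
    (by
      simp only [← Functor.map_comp (yoneda : C.Ob ⥤ _)]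
      exact congrArg (fun f => yoneda.map f) (C.respectsSums q.S q.b q.h q.hb q.hh).w)

/-- The family of comparison maps. -/
def sqW (C : GlobTheory.{u}) : MorphismProperty (C.Obᵒᵖ ⥤ Type u) :=
  MorphismProperty.ofHoms (fun q : Sq => sqMap C q)

/-- Local objects are exactly the models. -/
theorem isLocal_sqW_iff (P : C.Obᵒᵖ ⥤ Type u) :
    (sqW C).isLocal P ↔ ∀ (S : Shape) (b h : ℕ) (hb : b < S.last) (hh : b < h),
    IsPullback (P.map (C.incl.map (S.inLeft b h hb hh)).op)
      (P.map (C.incl.map (S.inRight b h hb hh)).op)
      (P.map (C.incl.map (S.hinge hb)).op)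
      (P.map (C.incl.map (Shape.faceMap hh false)).op) := by
  constructor
  · intro H S b h hb hh
    rw [Types.isPullback_iff]
    have Hq := H (sqMap C ⟨S, b, h, hb, hh⟩) (MorphismProperty.ofHoms_iff _ _ |>.2 ⟨_, rfl⟩)
    refine ⟨?_, ?_, ?_⟩
    · rw [← P.map_comp, ← P.map_comp, ← op_comp, ← op_comp,
        (C.respectsSums S b h hb hh).w]
    · rintro x y ⟨h1, h2⟩
      apply yonedaEquiv.symm.injective
      apply Hq.1
      apply pushout.hom_ext
      · simp only [sqMap, pushout.inl_desc_assoc]
        rw [yonedaEquiv_symm_naturality_left, yonedaEquiv_symm_naturality_left]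
        exact congrArg _ h1
      · simp only [sqMap, pushout.inr_desc_assoc]
        rw [yonedaEquiv_symm_naturality_left, yonedaEquiv_symm_naturality_left]
        exact congrArg _ h2
    · intro x y hxy
      obtain ⟨g, hg⟩ := Hq.2 (pushout.desc (yonedaEquiv.symm x) (yonedaEquiv.symm y) (by
        rw [yonedaEquiv_symm_naturality_left, yonedaEquiv_symm_naturality_left]
        exact congrArg _ hxy))
      refine ⟨yonedaEquiv g, ?_, ?_⟩
      · have := congrArg (fun k => pushout.inl _ _ ≫ k) hg
        simp only [sqMap, pushout.inl_desc_assoc, pushout.inl_desc] at this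
        rw [yonedaEquiv_naturality, this, Equiv.apply_symm_apply]
      · have := congrArg (fun k => pushout.inr _ _ ≫ k) hg
        simp only [sqMap, pushout.inr_desc_assoc, pushout.inr_desc] at this
        rw [yonedaEquiv_naturality, this, Equiv.apply_symm_apply]
  · intro H X Y f hf
    obtain ⟨⟨S, b, h, hb, hh⟩⟩ := hf
    have Hq := H S b h hb hh
    rw [Types.isPullback_iff] at Hq
    obtain ⟨-, h2, h3⟩ := Hq
    constructor
    · intro g g' hgg
      apply yonedaEquiv.injective
      apply h2
      constructor
      · have := congrArg (fun k => pushout.inl _ _ ≫ k) hgg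
        simp only [sqMap, pushout.inl_desc_assoc] at this
        rw [yonedaEquiv_naturality, yonedaEquiv_naturality, this]
      · have := congrArg (fun k => pushout.inr _ _ ≫ k) hgg
        simp only [sqMap, pushout.inr_desc_assoc] at this
        rw [yonedaEquiv_naturality, yonedaEquiv_naturality, this]
    · intro g
      obtain ⟨x, hx1, hx2⟩ := h3 (yonedaEquiv (pushout.inl _ _ ≫ g))
        (yonedaEquiv (pushout.inr _ _ ≫ g)) (by
          rw [yonedaEquiv_naturality, yonedaEquiv_naturality, pushout.condition_assoc])
      refine ⟨yonedaEquiv.symm x, ?_⟩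
      apply pushout.hom_ext
      · simp only [sqMap, pushout.inl_desc_assoc]
        rw [yonedaEquiv_symm_naturality_left, hx1, Equiv.symm_apply_apply]
      · simp only [sqMap, pushout.inr_desc_assoc]
        rw [yonedaEquiv_symm_naturality_left, hx2, Equiv.symm_apply_apply]

instance : MorphismProperty.IsSmall.{u} (sqW C) := by
  unfold sqW
  have : Small.{u} Sq := small_zero _
  exact MorphismProperty.isSmall_ofHoms _

instance (κ : Cardinal.{u}) [Fact κ.IsRegular] (X : C.Ob) :
    IsCardinalPresentable (yoneda.obj X : C.Obᵒᵖ ⥤ Type u) κ where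
  preservesColimitOfShape J _ _ := by
    let e : (coyoneda.obj (op (yoneda.obj X : C.Obᵒᵖ ⥤ Type u))) ≅
        (evaluation _ _).obj (op X) :=
      NatIso.ofComponents (fun P ↦ Equiv.toIso yonedaEquiv)
    exact preservesColimitsOfShape_of_natIso e.symm

attribute [local instance] Cardinal.fact_isRegular_aleph0

theorem sqW_presentable ⦃X Y : C.Obᵒᵖ ⥤ Type u⦄ (f : X ⟶ Y) (hf : sqW C f) :
    IsCardinalPresentable X Cardinal.aleph0.{u} ∧
      IsCardinalPresentable Y Cardinal.aleph0.{u} := by
  obtain ⟨q⟩ := hf
  refine ⟨?_, inferInstance⟩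
  have : ∀ k, IsCardinalPresentable ((span (yoneda.map (C.incl.map (q.S.hinge q.hb)))
      (yoneda.map (C.incl.map (Shape.faceMap q.hh false)))).obj k) Cardinal.aleph0.{u} := by
    rintro (_ | _ | _) <;> · dsimp; infer_instance
  refine isCardinalPresentable_of_isColimit' _ (colimit.isColimit (span
    (yoneda.map (C.incl.map (q.S.hinge q.hb)))
      (yoneda.map (C.incl.map (Shape.faceMap q.hh false))))) Cardinal.aleph0.{u} ?_
  rw [hasCardinalLT_aleph0_iff]
  infer_instance

instance : (sqW C).isLocal.ι.IsRightAdjoint :=
  MorphismProperty.isRightAdjoint_ι_isLocal (sqW C) Cardinal.aleph0.{u} sqW_presentable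

/-- The equivalence between models and local presheaves. -/
noncomputable def modelEquiv (C : GlobTheory.{u}) :
    GlobModel C ≌ (sqW C).isLocal.FullSubcategory where
  functor :=
    { obj X := ⟨X.functor, (isLocal_sqW_iff _).2 X.sums⟩
      map f := ObjectProperty.homMk f
      map_id X := rfl
      map_comp f g := rfl }
  inverse :=
    { obj X := ⟨X.obj, (isLocal_sqW_iff _).1 X.property⟩
      map f := f.hom
      map_id X := rfl
      map_comp f g := rfl }
  unitIso := Iso.refl _
  counitIso := Iso.refl _

instance : HasColimitsOfSize.{u, u} (sqW C).isLocal.FullSubcategory :=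
  letI : Reflective (sqW C).isLocal.ι := ⟨_, Adjunction.ofIsRightAdjoint _⟩
  hasColimits_of_reflective (sqW C).isLocal.ι

instance hasColimits_globModel (C : GlobTheory.{u}) : HasColimitsOfSize.{u, u} (GlobModel C) :=
  Adjunction.has_colimits_of_equivalence (modelEquiv C).functor

instance instHasColimits0 : HasColimitsOfSize.{0, 0} (GlobModel C) :=
  hasColimitsOfSizeShrink.{0, 0, u, u} (GlobModel C)

instance : HasLimitsOfSize.{u, u} (sqW C).isLocal.FullSubcategory :=
  letI : Reflective (sqW C).isLocal.ι := ⟨_, Adjunction.ofIsRightAdjoint _⟩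
  hasLimits_of_reflective (sqW C).isLocal.ι

instance instHasLimits : HasLimitsOfSize.{u, u} (GlobModel C) :=
  Adjunction.has_limits_of_equivalence (modelEquiv C).functor

instance instHasLimits0 : HasLimitsOfSize.{0, 0} (GlobModel C) :=
  hasLimitsOfSizeShrink.{0, 0, u, u} (GlobModel C)

instance : HasFiniteColimits (GlobModel C) := inferInstance

end Crest.Agent.R248
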