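import Crest.Agent.R248.Core
import Crest.Agent.R248.Segal
import Crest.Agent.R248.Calc

/-! Column lemma (helper270): every shape cell `c : globe n ⟶ S` is `Step`-connected to a shape cell `u`
such that `S ∪_u D_{n+1}` is again a shape.  Main statement: `exists_column`. -/

set_option autoImplicit false

namespace Crest.Agent.R248

open CategoryTheory CategoryTheory.Limits Opposite
open Crest.GeometryTopology.Coherator Crest.GeometryTopology.Coherator.GlobPsh

universe v w

namespace Column

/-- the shape of a pasting scheme -/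
abbrev sh {m : ℕ} (P : Pasting m) : Shape := ⟨m, P⟩

/-- the last globe as a map of shapes -/
noncomputable def apx {m : ℕ} (P : Pasting m) : Shape.globe m ⟶ sh P :=
  (P.build.2 : globeRep m ⟶ (sh P).psh)

/-- the target face of the last globe -/
noncomputable def hng {m : ℕ} (P : Pasting m) {b : ℕ} (hb : b < m) : Shape.globe b ⟶ sh P :=
  (sh P).hinge hb

/-- left inclusion -/
noncomputable def inL {m : ℕ} (P : Pasting m) (b h : ℕ) (hb : b < m) (hh : b < h) :
    sh P ⟶ sh (.glue P b h hb hh) :=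
  (sh P).inLeft b h hb hh

/-- right inclusion -/
noncomputable def inR {m : ℕ} (P : Pasting m) (b h : ℕ) (hb : b < m) (hh : b < h) :
    Shape.globe h ⟶ sh (.glue P b h hb hh) :=
  (sh P).inRight b h hb hh

/-- gluing square in `Shape`, as a commutative square -/
theorem hng_inL {m : ℕ} (P : Pasting m) (b h : ℕ) (hb : b < m) (hh : b < h) :
    hng P hb ≫ inL P b h hb hh = Shape.faceMap hh false ≫ inR P b h hb hh :=
  Segal.hinge_inLeft (sh P) b h hb hh

theorem exists_desc {m : ℕ} (P : Pasting m) (b h : ℕ) (hb : b < m) (hh : b < h) {T : Shape}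
    (f : sh P ⟶ T) (g : Shape.globe h ⟶ T) (hfg : hng P hb ≫ f = Shape.faceMap hh false ≫ g) :
    ∃ k : sh (.glue P b h hb hh) ⟶ T, inL P b h hb hh ≫ k = f ∧ inR P b h hb hh ≫ k = g := by
  have hpo := Segal.isPushout_psh (sh P) b h hb hh
  exact ⟨hpo.desc (f : (sh P).psh ⟶ T.psh) (g : globeRep h ⟶ T.psh) hfg,
    hpo.inl_desc _ _ _, hpo.inr_desc _ _ _⟩

theorem factor {m : ℕ} (P : Pasting m) (b h : ℕ) (hb : b < m) (hh : b < h) (i : ℕ)
    (g : Shape.globe i ⟶ sh (.glue P b h hb hh)) :
    (∃ g' : Shape.globe i ⟶ sh P, g' ≫ inL P b h hb hh = g) ∨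
    (∃ g' : Shape.globe i ⟶ Shape.globe h, g' ≫ inR P b h hb hh = g) :=
  Segal.globe_glue_factor (sh P) b h hb hh i g

theorem hng_eq {m : ℕ} (P : Pasting m) {b : ℕ} (hb : b < m) :
    hng P hb = Shape.faceMap hb true ≫ apx P := rfl

theorem apx_glue {m : ℕ} (P : Pasting m) (b h : ℕ) (hb : b < m) (hh : b < h) :
    apx (.glue P b h hb hh) = inR P b h hb hh := rfl

theorem apx_single (m : ℕ) : apx (.single m) = 𝟙 (Shape.globe m) := rfl

/-- lower faces of the hinge -/
theorem face_hng {m : ℕ} (P : Pasting m) {a b : ℕ} (ha : a < b) (hb : b < m) (β : Bool) :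
    Shape.faceMap ha β ≫ hng P hb = Shape.faceMap (ha.trans hb) β ≫ apx P := by
  rw [hng_eq, ← Category.assoc, faceMap_comp]

variable {M : Type w} [Category.{v} M] {Fr : Shape ⥤ M}

theorem sums_map (hF : Sums Fr) {m : ℕ} (P : Pasting m) (b h : ℕ) (hb : b < m) (hh : b < h) :
    IsPushout (Fr.map (hng P hb)) (Fr.map (Shape.faceMap hh false))
      (Fr.map (inL P b h hb hh)) (Fr.map (inR P b h hb hh)) :=
  hF (sh P) b h hb hh

variable [HasPushouts M] [HasInitial M]

/-- extension of a shape by an `(n+1)`-globe at an `n`-cell connected to `c` -/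
structure Ext1 (Fr : Shape ⥤ M) {m m' : ℕ} (P : Pasting m) (P' : Pasting m') (n : ℕ)
    (c : Shape.globe n ⟶ sh P) (ι : sh P ⟶ sh P') : Prop where
  dim_le : P'.dim ≤ max P.dim (n + 1)
  ex : ∃ (u : Shape.globe n ⟶ sh P) (w : Shape.globe (n + 1) ⟶ sh P'),
    Step Fr (Fr.map u) (Fr.map c) ∧ IsPushout (Fr.map u) (sg Fr n) (Fr.map ι) (Fr.map w)

theorem ext_glue (hF : Sums Fr) {m m' : ℕ} {P : Pasting m} {P' : Pasting m'} {n : ℕ}
    {c : Shape.globe n ⟶ sh P} {ι : sh P ⟶ sh P'} (hE : Ext1 Fr P P' n c ι) {b h : ℕ}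
    (hb : b < m) (hb' : b < m') (hh : b < h)
    (hι : hng P hb ≫ ι = hng P' hb') :
    ∃ ι' : sh (.glue P b h hb hh) ⟶ sh (.glue P' b h hb' hh),
      apx (.glue P b h hb hh) ≫ ι' = apx (.glue P' b h hb' hh) ∧
      Ext1 Fr (.glue P b h hb hh) (.glue P' b h hb' hh) n
        (c ≫ inL P b h hb hh) ι' := by
  obtain ⟨ι', h1, h2⟩ := exists_desc P b h hb hh (ι ≫ inL P' b h hb' hh)
    (inR P' b h hb' hh) (by
      rw [← Category.assoc, hι]
      exact hng_inL P' b h hb' hh)
  refine ⟨ι', h2, ?_⟩
  obtain ⟨hd, u, w, hs, hpo⟩ := hE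
  refine ⟨?_, u ≫ inL P b h hb hh, w ≫ inL P' b h hb' hh, ?_, ?_⟩
  · show max P'.dim h ≤ max (max P.dim h) (n + 1)
    omega
  · rw [Fr.map_comp, Fr.map_comp]
    exact hs.comp _
  · have key : IsPushout (Fr.map (inL P b h hb hh)) (Fr.map ι) (Fr.map ι')
        (Fr.map (inL P' b h hb' hh)) := by
      have hl := sums_map hF P b h hb hh
      have ho := sums_map hF P' b h hb' hh
      have ho' : IsPushout (Fr.map (hng P hb) ≫ Fr.map ι) (Fr.map (Shape.faceMap hh false))
          (Fr.map (inL P' b h hb' hh))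
          (Fr.map (inR P b h hb hh) ≫ Fr.map ι') := by
        rw [← Fr.map_comp, hι, ← Fr.map_comp, h2]
        exact ho
      exact (IsPushout.of_left ho' (by
        rw [← Fr.map_comp, ← Fr.map_comp, h1]) hl).flip
    rw [Fr.map_comp, Fr.map_comp]
    exact IsPushout.paste_horiz hpo key

omit [HasPushouts M] [HasInitial M] in
theorem step_faces {n h : ℕ} (hn : n < h) :
    Step Fr (Fr.map (Shape.faceMap hn false)) (Fr.map (Shape.faceMap hn true)) := by
  rcases Nat.lt_or_ge (n + 1) h with h1 | h1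
  · refine ⟨Fr.map (Shape.faceMap h1 true), ?_, ?_⟩
    · rw [← Fr.map_comp]
      exact congrArg _ (faceMap_comp _ _ _ _)
    · rw [← Fr.map_comp]
      exact congrArg _ (faceMap_comp _ _ _ _)
  · obtain rfl : h = n + 1 := by omega
    exact ⟨𝟙 _, Category.comp_id _, Category.comp_id _⟩

omit [HasPushouts M] [HasInitial M] in
theorem ext_hng (hF : Sums Fr) {m n : ℕ} (P : Pasting m) (hn : n < m) (c : Shape.globe n ⟶ sh P)
    (hc : Step Fr (Fr.map (hng P hn)) (Fr.map c)) :
    Ext1 Fr P (.glue P n (n + 1) hn (Nat.lt_succ_self n)) n c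
      (inL P n (n + 1) hn (Nat.lt_succ_self n)) :=
  ⟨by show max P.dim (n + 1) ≤ max P.dim (n + 1); exact le_rfl,
    hng P hn, inR P n (n + 1) hn (Nat.lt_succ_self n), hc, sums_map hF P n (n + 1) hn _⟩

omit [HasPushouts M] [HasInitial M] in
theorem ext_apx (hF : Sums Fr) {n : ℕ} (P : Pasting n) (c : Shape.globe n ⟶ sh P)
    (hc : Step Fr (Fr.map (apx P)) (Fr.map c)) :
    ∃ (P' : Pasting (n + 1)) (ι : sh P ⟶ sh P'), apx P ≫ ι = Shape.σ n ≫ apx P' ∧
      Ext1 Fr P P' n c ι := by
  cases P with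
  | single =>
    refine ⟨.single (n + 1), Shape.σ n, ?_, ?_, apx _, apx _, hc, ?_⟩
    · rw [apx_single, apx_single]
      exact (Category.id_comp _).trans (Category.comp_id _).symm
    · show n + 1 ≤ max n (n + 1)
      omega
    · have key : IsPushout (Fr.map (𝟙 (Shape.globe n))) (Fr.map (Shape.σ n))
          (Fr.map (Shape.σ n)) (Fr.map (𝟙 (Shape.globe (n + 1)))) := by
        rw [Fr.map_id, Fr.map_id]
        exact IsPushout.of_horiz_isIso ⟨by rw [Category.id_comp, Category.comp_id]⟩
      exact key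
  | glue P0 b _ hb hh =>
    have hh' : b < n + 1 := hh.trans (Nat.lt_succ_self n)
    have hff : (Shape.faceMap hh' false : Shape.globe b ⟶ Shape.globe (n + 1)) =
        Shape.faceMap hh false ≫ Shape.σ n := (faceMap_comp _ _ _ _).symm
    obtain ⟨ι, h1, h2⟩ := exists_desc P0 b n hb hh (inL P0 b (n + 1) hb hh')
      (Shape.σ n ≫ inR P0 b (n + 1) hb hh') (by
        rw [hng_inL, hff, Category.assoc])
    refine ⟨.glue P0 b (n + 1) hb hh', ι, h2, ?_, apx _, apx _, hc, ?_⟩
    · show max P0.dim (n + 1) ≤ max (max P0.dim n) (n + 1)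
      omega
    · have hl := (sums_map hF P0 b n hb hh).flip
      have ho := (sums_map hF P0 b (n + 1) hb hh').flip
      have ho' : IsPushout (Fr.map (Shape.faceMap hh false) ≫ Fr.map (Shape.σ n))
          (Fr.map (hng P0 hb)) (Fr.map (inR P0 b (n + 1) hb hh'))
          (Fr.map (inL P0 b n hb hh) ≫ Fr.map ι) := by
        rw [← Fr.map_comp, ← Fr.map_comp, h1, ← hff]
        exact ho
      exact (IsPushout.of_left ho' (by
        rw [← Fr.map_comp, ← Fr.map_comp]; exact congrArg Fr.map h2.symm) hl).flip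

/-- identity or target face -/
inductive LF : ∀ {n m : ℕ}, (Shape.globe n ⟶ Shape.globe m) → Prop
  | id (n : ℕ) : LF (𝟙 (Shape.globe n))
  | face {n m : ℕ} (h : n < m) : LF (Shape.faceMap h true)

/-- `c` is connected to the target face of the last globe -/
def ConnA (Fr : Shape ⥤ M) {m : ℕ} (P : Pasting m) {n : ℕ} (c : Shape.globe n ⟶ sh P) : Prop :=
  ∃ k : Shape.globe n ⟶ Shape.globe m, LF k ∧ Step Fr (Fr.map (k ≫ apx P)) (Fr.map c)

/-- `P` can be extended at a cell connected to `c`, without changing the last globe -/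
def ConnB (Fr : Shape ⥤ M) {m : ℕ} (P : Pasting m) {n : ℕ} (c : Shape.globe n ⟶ sh P) : Prop :=
  ∃ (P' : Pasting m) (ι : sh P ⟶ sh P'), apx P ≫ ι = apx P' ∧ Ext1 Fr P P' n c ι

theorem connA_apx (S : Setting Fr) {m : ℕ} (P : Pasting m) {n : ℕ}
    (g : Shape.globe n ⟶ Shape.globe m) : ConnA Fr P (g ≫ apx P) := by
  rcases Segal.globe_globe_cases n m g with ⟨h, hg⟩ | ⟨h, β, hg⟩
  · subst h
    have hg' : g = 𝟙 _ := hg
    subst hg'
    exact ⟨𝟙 _, LF.id _, Step.refl S _⟩
  · subst hg
    refine ⟨Shape.faceMap h true, LF.face h, ?_⟩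
    cases β with
    | true => exact Step.refl S _
    | false =>
      rw [Fr.map_comp, Fr.map_comp]
      exact (Step.symm S (step_faces h)).comp _

theorem dichotomy (S : Setting Fr) {m : ℕ} (P : Pasting m) {n : ℕ} (c : Shape.globe n ⟶ sh P) :
    ConnA Fr P c ∨ ConnB Fr P c := by
  induction P with
  | single h =>
    left
    have e : (c : Shape.globe n ⟶ Shape.globe h) ≫ apx (.single h) = c := Category.comp_id _
    exact e ▸ connA_apx S (.single h) (c : Shape.globe n ⟶ Shape.globe h)
  | glue P b h hb hh ih =>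
    rcases factor P b h hb hh n c with ⟨g, rfl⟩ | ⟨g, rfl⟩
    · rcases ih g with ⟨k, hk, hs⟩ | ⟨P', ι, hι, hE⟩
      · cases hk with
        | id =>
          -- `n = last P`, so `b < n`
          right
          obtain ⟨P', ι, hι, hE⟩ := ext_apx S.sums P g (by rwa [Category.id_comp] at hs)
          have hb' : b < n + 1 := hb.trans (Nat.lt_succ_self n)
          obtain ⟨ι', h1, h2⟩ := ext_glue S.sums hE hb hb' hh (by
            rw [hng_eq, Category.assoc, hι, hng_eq, ← Category.assoc]
            congr 1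
            exact faceMap_comp _ _ _ _)
          exact ⟨_, ι', h1, h2⟩
        | face hn =>
          rcases Nat.lt_or_ge b n with hbn | hbn
          · -- extend `P` by gluing
            right
            have hE := ext_hng S.sums P hn g hs
            have hb' : b < n + 1 := hbn.trans (Nat.lt_succ_self n)
            obtain ⟨ι', h1, h2⟩ := ext_glue S.sums hE hb hb' hh (by
              have e1 : (hng P hb : Shape.globe b ⟶ sh P) = Shape.faceMap hbn true ≫ hng P hn := by
                rw [face_hng]; rfl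
              rw [e1, Category.assoc, hng_inL, ← Category.assoc, faceMap_comp]
              rfl)
            exact ⟨_, ι', h1, h2⟩
          · left
            have hnh : n < h := lt_of_le_of_lt hbn hh
            refine ⟨Shape.faceMap hnh true, LF.face hnh, ?_⟩
            have hs' : Step Fr (Fr.map (hng P hn ≫ inL P b h hb hh))
                (Fr.map (g ≫ inL P b h hb hh)) := by
              rw [Fr.map_comp, Fr.map_comp]
              exact hs.comp _
            refine Step.trans S ?_ hs'
            rcases Nat.eq_or_lt_of_le hbn with hbn' | hbn'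
            · subst hbn'
              rw [hng_inL, Fr.map_comp, Fr.map_comp]
              exact (Step.symm S (step_faces hnh)).comp _
            · have e1 : (hng P hn : Shape.globe n ⟶ sh P) = Shape.faceMap hbn' true ≫ hng P hb := by
                rw [face_hng]; rfl
              rw [e1, Category.assoc, hng_inL, ← Category.assoc, faceMap_comp]
              exact Step.refl S _
      · right
        obtain ⟨ι', h1, h2⟩ := ext_glue S.sums hE hb hb hh (by
          rw [hng_eq, hng_eq, Category.assoc, hι])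
        exact ⟨_, ι', h1, h2⟩
    · left
      exact connA_apx S (.glue P b h hb hh) g

end Column

variable {M : Type w} [Category.{v} M] [HasPushouts M] [HasInitial M] {Fr : Shape ⥤ M}

open Column in
/-- **Column lemma.** Every shape cell `c` is connected to a shape cell `u` at which the shape can be
extended by an `(n+1)`-globe within shapes. -/
theorem exists_column (S : Setting Fr) (W : Shape) {n : ℕ} (c : Shape.globe n ⟶ W) :
    ∃ (W' : Shape) (u : Shape.globe n ⟶ W) (ι : W ⟶ W') (w : Shape.globe (n + 1) ⟶ W'),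
      W'.dim ≤ max W.dim (n + 1) ∧ Step Fr (Fr.map u) (Fr.map c) ∧
      IsPushout (Fr.map u) (sg Fr n) (Fr.map ι) (Fr.map w) := by
  obtain ⟨m, P⟩ := W
  have key : ∃ (m' : ℕ) (P' : Pasting m') (ι : sh P ⟶ sh P'), Ext1 Fr P P' n c ι := by
    rcases dichotomy S P c with ⟨k, hk, hs⟩ | ⟨P', ι, -, hE⟩
    · cases hk with
      | id =>
        obtain ⟨P', ι, hι, hE⟩ := ext_apx S.sums P c (by rwa [Category.id_comp] at hs)
        exact ⟨_, P', ι, hE⟩
      | face hn => exact ⟨_, _, _, ext_hng S.sums P hn c hs⟩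
    · exact ⟨_, P', ι, hE⟩
  obtain ⟨m', P', ι, hd, u, w, h1, h2⟩ := key
  exact ⟨sh P', u, ι, w, hd, h1, h2⟩

end Crest.Agent.R248
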