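import Mathlib
import Crest.Prelude.Def_GlobularCoherator

/-!
# R248 core definitions (result 248, statement S0382)

Everything happens in a category `M` equipped with a functor `Fr : Shape ⥤ M` ("free models").
-/

set_option autoImplicit false

namespace Crest.Agent.R248

open CategoryTheory CategoryTheory.Limits Opposite
open Crest.GeometryTopology.Coherator

universe v w

section Basic

variable {M : Type w} [Category.{v} M]

/-- `G` sends the designated gluing squares to pushouts. -/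
def Sums (G : Shape ⥤ M) : Prop :=
  ∀ (S : Shape) (b h : ℕ) (hb : b < S.last) (hh : b < h),
    IsPushout (G.map (S.hinge hb)) (G.map (Shape.faceMap hh false))
      (G.map (S.inLeft b h hb hh)) (G.map (S.inRight b h hb hh))

/-- the value on the `j`-globe -/
abbrev glob (G : Shape ⥤ M) (j : ℕ) : M := G.obj (Shape.globe j)

/-- source face -/
noncomputable abbrev sg (G : Shape ⥤ M) (j : ℕ) : glob G j ⟶ glob G (j + 1) := G.map (Shape.σ j)

/-- target face -/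
noncomputable abbrev tg (G : Shape ⥤ M) (j : ℕ) : glob G j ⟶ glob G (j + 1) := G.map (Shape.τ j)

end Basic

/-- faces of globes compose by their first factor -/
theorem faceMap_comp {m n k : ℕ} (h : m < n) (h' : n < k) (b b' : Bool) :
    (Shape.faceMap h b ≫ Shape.faceMap h' b' : Shape.globe m ⟶ Shape.globe k) =
      Shape.faceMap (h.trans h') b := by
  exact (yoneda.map_comp (GlobeObj.faceArrow h b) (GlobeObj.faceArrow h' b')).symm

section Basic2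

variable {M : Type w} [Category.{v} M]

theorem sg_sg (G : Shape ⥤ M) (j : ℕ) : sg G j ≫ sg G (j + 1) = sg G j ≫ tg G (j + 1) := by
  unfold sg tg
  rw [← G.map_comp, ← G.map_comp]
  unfold Shape.σ Shape.τ
  rw [faceMap_comp, faceMap_comp]

theorem tg_sg (G : Shape ⥤ M) (j : ℕ) : tg G j ≫ sg G (j + 1) = tg G j ≫ tg G (j + 1) := by
  unfold sg tg
  rw [← G.map_comp, ← G.map_comp]
  unfold Shape.σ Shape.τ
  rw [faceMap_comp, faceMap_comp]

variable [HasPushouts M] [HasInitial M]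

/-- boundary of the `j`-th globe of `G`, with its inclusion -/
noncomputable def bdAux (G : Shape ⥤ M) : (j : ℕ) →
    { p : (Σ B : M, (B ⟶ glob G j)) // p.2 ≫ sg G j = p.2 ≫ tg G j }
  | 0 => ⟨⟨⊥_ M, initial.to _⟩, by simp⟩
  | j + 1 =>
    ⟨⟨pushout (bdAux G j).1.2 (bdAux G j).1.2, pushout.desc (sg G j) (tg G j) (bdAux G j).2⟩, by
      apply pushout.hom_ext
      · simp only [pushout.inl_desc_assoc]; exact sg_sg G j
      · simp only [pushout.inr_desc_assoc]; exact tg_sg G j⟩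

/-- boundary of the `j`-th globe of `G` -/
noncomputable def bd (G : Shape ⥤ M) (j : ℕ) : M := (bdAux G j).1.1

/-- the inclusion of the boundary -/
noncomputable def bdι (G : Shape ⥤ M) (j : ℕ) : bd G j ⟶ glob G j := (bdAux G j).1.2

theorem bdι_sg (G : Shape ⥤ M) (j : ℕ) : bdι G j ≫ sg G j = bdι G j ≫ tg G j := (bdAux G j).2

/-- left (source) copy of `glob G j` in `bd G (j+1)` -/
noncomputable def bdInl (G : Shape ⥤ M) (j : ℕ) : glob G j ⟶ bd G (j + 1) :=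
  pushout.inl (bdAux G j).1.2 (bdAux G j).1.2

/-- right (target) copy of `glob G j` in `bd G (j+1)` -/
noncomputable def bdInr (G : Shape ⥤ M) (j : ℕ) : glob G j ⟶ bd G (j + 1) :=
  pushout.inr (bdAux G j).1.2 (bdAux G j).1.2

/-- the boundary of the zeroth globe is initial -/
noncomputable def bdInit (G : Shape ⥤ M) : IsInitial (bd G 0) := initialIsInitial

theorem bd_sq (G : Shape ⥤ M) (j : ℕ) :
    IsPushout (bdι G j) (bdι G j) (bdInl G j) (bdInr G j) :=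
  IsPushout.of_hasPushout _ _

theorem bdInl_bdι (G : Shape ⥤ M) (j : ℕ) : bdInl G j ≫ bdι G (j + 1) = sg G j :=
  pushout.inl_desc _ _ _

theorem bdInr_bdι (G : Shape ⥤ M) (j : ℕ) : bdInr G j ≫ bdι G (j + 1) = tg G j :=
  pushout.inr_desc _ _ _

/-- two `j`-cells `u v : glob Fr j ⟶ X` are joined by a `(j+1)`-cell -/
def Step (Fr : Shape ⥤ M) {j : ℕ} {X : M} (u v : glob Fr j ⟶ X) : Prop :=
  ∃ w : glob Fr (j + 1) ⟶ X, sg Fr j ≫ w = u ∧ tg Fr j ≫ w = v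

/-- all parallel `k`-cells of `X` are joined by a `(k+1)`-cell -/
def Contr (Fr : Shape ⥤ M) (k : ℕ) (X : M) : Prop :=
  ∀ u v : glob Fr k ⟶ X, bdι Fr k ≫ u = bdι Fr k ≫ v → Step Fr u v

/-- the coherator property: free models on shapes of height `≤ j+1` are contractible in dim `j` -/
def Fill (Fr : Shape ⥤ M) : Prop :=
  ∀ (j : ℕ) (S : Shape), S.dim ≤ j + 1 → Contr Fr j (Fr.obj S)

/-- generating cofibrations in dimension `≤ κ+1` -/
inductive GenCof (Fr : Shape ⥤ M) (κ : ℕ∞) : MorphismProperty M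
  | mk (j : ℕ) (hj : (j : ℕ∞) ≤ κ + 1) : GenCof Fr κ (bdι Fr j)

/-- cofibrations of level `κ` -/
def Cof (Fr : Shape ⥤ M) (κ : ℕ∞) : MorphismProperty M := (GenCof Fr κ).rlp.llp

/-- cofibrant objects of level `κ` -/
def Cofibrant (Fr : Shape ⥤ M) (κ : ℕ∞) (X : M) : Prop := Cof Fr κ (initial.to X)

/-- pushing out along `D_m → D_{m+1}` (source) preserves contractibility in dimension `k`. -/
def PO (Fr : Shape ⥤ M) (k m : ℕ) : Prop :=
  ∀ (X : M), Cofibrant Fr k X → ∀ (a : glob Fr m ⟶ X) (Y : M) (i : X ⟶ Y)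
    (b : glob Fr (m + 1) ⟶ Y), IsPushout a (sg Fr m) i b → Contr Fr k X → Contr Fr k Y

/-- The setting: a category with a sum-preserving functor `Fr` satisfying the coherator axiom. -/
structure Setting (Fr : Shape ⥤ M) : Prop where
  sums : Sums Fr
  fill : Fill Fr

/-- The lifting condition on a "cylinder functor" `G` with two ends `ι₀ ι₁ : Fr ⟶ G` ensuring that it
carries a co-model structure compatible with the ends. -/
def Lifts (Fr G : Shape ⥤ M) (ι₀ ι₁ : Fr ⟶ G) : Prop :=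
  ∀ (j : ℕ) (S : Shape), S.dim ≤ j + 1 →
    ∀ (Φ Ψ : glob G j ⟶ G.obj S) (f g : glob Fr j ⟶ Fr.obj S),
      ι₀.app _ ≫ Φ = f ≫ ι₀.app S → ι₁.app _ ≫ Φ = f ≫ ι₁.app S →
      ι₀.app _ ≫ Ψ = g ≫ ι₀.app S → ι₁.app _ ≫ Ψ = g ≫ ι₁.app S →
      bdι G j ≫ Φ = bdι G j ≫ Ψ → bdι Fr j ≫ f = bdι Fr j ≫ g →
      ∀ ρ : glob Fr (j + 1) ⟶ Fr.obj S, sg Fr j ≫ ρ = f → tg Fr j ≫ ρ = g →
        ∃ R : glob G (j + 1) ⟶ G.obj S, sg G j ≫ R = Φ ∧ tg G j ≫ R = Ψ ∧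
          ι₀.app _ ≫ R = ρ ≫ ι₀.app S ∧ ι₁.app _ ≫ R = ρ ≫ ι₁.app S

/-- A path object functor corepresented by the cylinder functor `G`. -/
structure PathFun (Fr G : Shape ⥤ M) (ι₀ ι₁ : Fr ⟶ G) where
  P : M ⥤ M
  e : ∀ (S : Shape) (X : M), (Fr.obj S ⟶ P.obj X) ≃ (G.obj S ⟶ X)
  e_left : ∀ {S T : Shape} (f : S ⟶ T) {X : M} (g : Fr.obj T ⟶ P.obj X),
    e S X (Fr.map f ≫ g) = G.map f ≫ e T X g
  e_right : ∀ {S : Shape} {X Y : M} (g : Fr.obj S ⟶ P.obj X) (h : X ⟶ Y),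
    e S Y (g ≫ P.map h) = e S X g ≫ h
  ev₀ : P ⟶ 𝟭 M
  ev₁ : P ⟶ 𝟭 M
  e_ev₀ : ∀ {S : Shape} {X : M} (g : Fr.obj S ⟶ P.obj X), g ≫ ev₀.app X = ι₀.app S ≫ e S X g
  e_ev₁ : ∀ {S : Shape} {X : M} (g : Fr.obj S ⟶ P.obj X), g ≫ ev₁.app X = ι₁.app S ≫ e S X g

/-- The path axiom (provided by the tower of a coherator). -/
def HasPaths (Fr : Shape ⥤ M) : Prop :=
  ∀ (G : Shape ⥤ M), Sums G → ∀ (ι₀ ι₁ : Fr ⟶ G), Lifts Fr G ι₀ ι₁ →
    Nonempty (PathFun Fr G ι₀ ι₁)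

/-- A Reedy-presented coglobular object `A` with two ends `i₀ i₁ : Fr(globe j) ⟶ A j` ("cylinder
sequence").  `B j` is the boundary of `A j`, `O j = B j ∪_{bd Fr j, k₀} glob Fr j` the open box. -/
structure CylSeq (Fr : Shape ⥤ M) where
  A : ℕ → M
  B : ℕ → M
  O : ℕ → M
  δ : ∀ j, B j ⟶ A j
  inl : ∀ j, A j ⟶ B (j + 1)
  inr : ∀ j, A j ⟶ B (j + 1)
  init : IsInitial (B 0)
  sq : ∀ j, IsPushout (δ j) (δ j) (inl j) (inr j)
  i₀ : ∀ j, glob Fr j ⟶ A j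
  i₁ : ∀ j, glob Fr j ⟶ A j
  k₀ : ∀ j, bd Fr j ⟶ B j
  k₁ : ∀ j, bd Fr j ⟶ B j
  k₀_δ : ∀ j, k₀ j ≫ δ j = bdι Fr j ≫ i₀ j
  k₁_δ : ∀ j, k₁ j ≫ δ j = bdι Fr j ≫ i₁ j
  inl_k₀ : ∀ j, bdInl Fr j ≫ k₀ (j + 1) = i₀ j ≫ inl j
  inr_k₀ : ∀ j, bdInr Fr j ≫ k₀ (j + 1) = i₀ j ≫ inr j
  inl_k₁ : ∀ j, bdInl Fr j ≫ k₁ (j + 1) = i₁ j ≫ inl j
  inr_k₁ : ∀ j, bdInr Fr j ≫ k₁ (j + 1) = i₁ j ≫ inr j
  oB : ∀ j, B j ⟶ O j
  oD : ∀ j, glob Fr j ⟶ O j
  sqO : ∀ j, IsPushout (k₀ j) (bdι Fr j) (oB j) (oD j)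
  q : ∀ j, O j ⟶ A j
  oB_q : ∀ j, oB j ≫ q j = δ j
  oD_q : ∀ j, oD j ≫ q j = i₀ j

namespace CylSeq

variable {Fr : Shape ⥤ M} (C : CylSeq Fr)

/-- source face of the cylinder sequence -/
def s (j : ℕ) : C.A j ⟶ C.A (j + 1) := C.inl j ≫ C.δ (j + 1)

/-- target face of the cylinder sequence -/
def t (j : ℕ) : C.A j ⟶ C.A (j + 1) := C.inr j ≫ C.δ (j + 1)

/-- in dimension `j` nothing moves -/
def Low (j : ℕ) : Prop := IsIso (C.i₀ j) ∧ C.i₁ j = C.i₀ j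

/-- in dimension `j`, `A j` is obtained from the open box by attaching a `(j+1)`-cell along its source,
which is the chosen transport `w`; the other end is its target -/
def MidWith (j : ℕ) (w : glob Fr j ⟶ C.O j) : Prop :=
  bdι Fr j ≫ w = C.k₁ j ≫ C.oB j ∧
    ∃ θ : glob Fr (j + 1) ⟶ C.A j, IsPushout w (sg Fr j) (C.q j) θ ∧ tg Fr j ≫ θ = C.i₁ j

/-- see `MidWith` -/
def Mid (j : ℕ) : Prop := ∃ w, C.MidWith j w

/-- in dimension `j`, `A j` is just the box with both ends filled -/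
def High (j : ℕ) : Prop := IsPushout (C.k₁ j ≫ C.oB j) (bdι Fr j) (C.q j) (C.i₁ j)

/-- existence of a transport in dimension `j` -/
def TR (j : ℕ) : Prop := ∃ w : glob Fr j ⟶ C.O j, bdι Fr j ≫ w = C.k₁ j ≫ C.oB j

/-- `C` is an `n`-cylinder truncated above `κ` (`n = κ + 1` is allowed: then everything is `Low` below
`n` and `High` from `n` on) -/
structure IsCyl (n : ℕ) (κ : ℕ∞) : Prop where
  le : (n : ℕ∞) ≤ κ + 1
  low : ∀ j : ℕ, j < n → C.Low j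
  bot : (n : ℕ∞) ≤ κ → C.MidWith n (C.oD n)
  mid : ∀ j : ℕ, n < j → (j : ℕ∞) ≤ κ → C.Mid j
  high : ∀ j : ℕ, κ < (j : ℕ∞) → C.High j

end CylSeq

/-- A path object functor corepresented, on globes, by the cylinder sequence `C`. -/
structure PathOn {Fr : Shape ⥤ M} (C : CylSeq Fr) where
  P : M ⥤ M
  e : ∀ (j : ℕ) (X : M), (glob Fr j ⟶ P.obj X) ≃ (C.A j ⟶ X)
  e_s : ∀ {j : ℕ} {X : M} (g : glob Fr (j + 1) ⟶ P.obj X), e j X (sg Fr j ≫ g) = C.s j ≫ e (j + 1) X g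
  e_t : ∀ {j : ℕ} {X : M} (g : glob Fr (j + 1) ⟶ P.obj X), e j X (tg Fr j ≫ g) = C.t j ≫ e (j + 1) X g
  e_right : ∀ {j : ℕ} {X Y : M} (g : glob Fr j ⟶ P.obj X) (h : X ⟶ Y),
    e j Y (g ≫ P.map h) = e j X g ≫ h
  ev₀ : P ⟶ 𝟭 M
  ev₁ : P ⟶ 𝟭 M
  e_ev₀ : ∀ {j : ℕ} {X : M} (g : glob Fr j ⟶ P.obj X), g ≫ ev₀.app X = C.i₀ j ≫ e j X g
  e_ev₁ : ∀ {j : ℕ} {X : M} (g : glob Fr j ⟶ P.obj X), g ≫ ev₁.app X = C.i₁ j ≫ e j X g

end Basic2

end Crest.Agent.R248
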