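import Crest.Agent.R248.Core

/-! TASK CylBuild: recursive construction of the cylinder sequence. -/

set_option autoImplicit false

namespace Crest.Agent.R248

open CategoryTheory CategoryTheory.Limits Opposite
open Crest.GeometryTopology.Coherator

universe v w

variable {M : Type w} [Category.{v} M] [HasPushouts M] [HasInitial M]

namespace CylBuild

/-- boundary data in dimension `j` -/
structure Base (Fr : Shape ⥤ M) (j : ℕ) where
  B : M
  k₀ : bd Fr j ⟶ B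
  k₁ : bd Fr j ⟶ B

variable {Fr : Shape ⥤ M} {j : ℕ}

/-- open box -/
noncomputable def Base.O (b : Base Fr j) : M := pushout b.k₀ (bdι Fr j)

noncomputable def Base.oB (b : Base Fr j) : b.B ⟶ b.O := pushout.inl b.k₀ (bdι Fr j)

noncomputable def Base.oD (b : Base Fr j) : glob Fr j ⟶ b.O := pushout.inr b.k₀ (bdι Fr j)

theorem Base.sqO (b : Base Fr j) : IsPushout b.k₀ (bdι Fr j) b.oB b.oD :=
  IsPushout.of_hasPushout _ _

/-- filling data over boundary data -/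
structure Ext (b : Base Fr j) where
  A : M
  q : b.O ⟶ A
  i₁ : glob Fr j ⟶ A
  w : b.k₁ ≫ b.oB ≫ q = bdι Fr j ≫ i₁

namespace Ext

variable {b : Base Fr j} (e : Ext b)

noncomputable def δ : b.B ⟶ e.A := b.oB ≫ e.q

noncomputable def i₀ : glob Fr j ⟶ e.A := b.oD ≫ e.q

theorem k₀_δ : b.k₀ ≫ e.δ = bdι Fr j ≫ e.i₀ := by
  unfold δ i₀
  rw [← Category.assoc, ← Category.assoc, b.sqO.w]

theorem k₁_δ : b.k₁ ≫ e.δ = bdι Fr j ≫ e.i₁ := e.w

/-- the boundary data in the next dimension -/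
noncomputable def next : Base Fr (j + 1) where
  B := pushout e.δ e.δ
  k₀ := (bd_sq Fr j).desc (e.i₀ ≫ pushout.inl _ _) (e.i₀ ≫ pushout.inr _ _) (by
    rw [← Category.assoc, ← Category.assoc, ← e.k₀_δ, Category.assoc, Category.assoc,
      pushout.condition])
  k₁ := (bd_sq Fr j).desc (e.i₁ ≫ pushout.inl _ _) (e.i₁ ≫ pushout.inr _ _) (by
    rw [← Category.assoc, ← Category.assoc, ← e.k₁_δ, Category.assoc, Category.assoc,
      pushout.condition])

noncomputable def inl : e.A ⟶ e.next.B := pushout.inl e.δ e.δ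

noncomputable def inr : e.A ⟶ e.next.B := pushout.inr e.δ e.δ

theorem sq : IsPushout e.δ e.δ e.inl e.inr := IsPushout.of_hasPushout _ _

theorem inl_k₀ : bdInl Fr j ≫ e.next.k₀ = e.i₀ ≫ e.inl := (bd_sq Fr j).inl_desc _ _ _

theorem inr_k₀ : bdInr Fr j ≫ e.next.k₀ = e.i₀ ≫ e.inr := (bd_sq Fr j).inr_desc _ _ _

theorem inl_k₁ : bdInl Fr j ≫ e.next.k₁ = e.i₁ ≫ e.inl := (bd_sq Fr j).inl_desc _ _ _

theorem inr_k₁ : bdInr Fr j ≫ e.next.k₁ = e.i₁ ≫ e.inr := (bd_sq Fr j).inr_desc _ _ _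

/-- `Low` -/
def IsLow : Prop := IsIso e.q ∧ e.i₁ = e.i₀

/-- `MidWith` -/
def IsMidWith (w : glob Fr j ⟶ b.O) : Prop :=
  bdι Fr j ≫ w = b.k₁ ≫ b.oB ∧
    ∃ θ : glob Fr (j + 1) ⟶ e.A, IsPushout w (sg Fr j) e.q θ ∧ tg Fr j ≫ θ = e.i₁

/-- `High` -/
def IsHigh : Prop := IsPushout (b.k₁ ≫ b.oB) (bdι Fr j) e.q e.i₁

end Ext

/-- the trivial filling -/
noncomputable def extLow (b : Base Fr j) (h : b.k₀ = b.k₁) : Ext b where
  A := b.O
  q := 𝟙 _
  i₁ := b.oD
  w := by rw [Category.comp_id, ← h, b.sqO.w]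

theorem extLow_isLow (b : Base Fr j) (h : b.k₀ = b.k₁) : (extLow b h).IsLow := by
  refine ⟨?_, ?_⟩
  · change IsIso (𝟙 _)
    infer_instance
  · change b.oD = b.oD ≫ 𝟙 _
    rw [Category.comp_id]

/-- filling with a transport -/
noncomputable def extMid (b : Base Fr j) (w : glob Fr j ⟶ b.O)
    (h : bdι Fr j ≫ w = b.k₁ ≫ b.oB) : Ext b where
  A := pushout w (sg Fr j)
  q := pushout.inl _ _
  i₁ := tg Fr j ≫ pushout.inr _ _
  w := by
    rw [← Category.assoc, ← h, Category.assoc, pushout.condition, ← Category.assoc,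
      ← Category.assoc, bdι_sg]

theorem extMid_isMid (b : Base Fr j) (w : glob Fr j ⟶ b.O)
    (h : bdι Fr j ≫ w = b.k₁ ≫ b.oB) : (extMid b w h).IsMidWith w :=
  ⟨h, pushout.inr _ _, IsPushout.of_hasPushout _ _, rfl⟩

/-- the high filling -/
noncomputable def extHigh (b : Base Fr j) : Ext b where
  A := pushout (b.k₁ ≫ b.oB) (bdι Fr j)
  q := pushout.inl _ _
  i₁ := pushout.inr _ _
  w := by rw [← Category.assoc, pushout.condition]

theorem extHigh_isHigh (b : Base Fr j) : (extHigh b).IsHigh := IsPushout.of_hasPushout _ _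

theorem exists_ext (n : ℕ) (κ : ℕ∞) (j : ℕ) (b : Base Fr j) :
    ∃ e : Ext b, (j < n → b.k₀ = b.k₁ → e.IsLow) ∧
      (j = n → (j : ℕ∞) ≤ κ → b.k₀ = b.k₁ → e.IsMidWith b.oD) ∧
      (n < j → (j : ℕ∞) ≤ κ → (∃ w : glob Fr j ⟶ b.O, bdι Fr j ≫ w = b.k₁ ≫ b.oB) →
        ∃ w, e.IsMidWith w) ∧
      (n ≤ j → κ < (j : ℕ∞) → e.IsHigh) := by
  classical
  by_cases h : b.k₀ = b.k₁
  · rcases lt_trichotomy j n with hj | hj | hj
    · refine ⟨extLow b h, fun _ _ => extLow_isLow b h, fun h' => by omega, fun h' => by omega,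
        fun h' => by omega⟩
    · by_cases hκ : (j : ℕ∞) ≤ κ
      · have hw : bdι Fr j ≫ b.oD = b.k₁ ≫ b.oB := by rw [← h, b.sqO.w]
        exact ⟨extMid b b.oD hw, fun h' => by omega, fun _ _ _ => extMid_isMid b _ hw,
          fun h' => by omega, fun _ h' => absurd hκ (not_le.2 h')⟩
      · exact ⟨extHigh b, fun h' => by omega, fun _ h' => absurd h' hκ, fun _ h' => absurd h' hκ,
            fun _ _ => extHigh_isHigh b⟩
    · by_cases hκ : (j : ℕ∞) ≤ κ
      · by_cases hw : ∃ w : glob Fr j ⟶ b.O, bdι Fr j ≫ w = b.k₁ ≫ b.oB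
        · obtain ⟨w, hw⟩ := hw
          exact ⟨extMid b w hw, fun h' => by omega, fun h' => by omega,
            fun _ _ _ => ⟨w, extMid_isMid b w hw⟩, fun _ h' => absurd hκ (not_le.2 h')⟩
        · exact ⟨extHigh b, fun h' => by omega, fun h' => by omega, fun _ _ h' => absurd h' hw,
            fun _ _ => extHigh_isHigh b⟩
      · exact ⟨extHigh b, fun h' => by omega, fun h' => by omega, fun _ h' => absurd h' hκ,
            fun _ _ => extHigh_isHigh b⟩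
  · by_cases hκ : (j : ℕ∞) ≤ κ
    · by_cases hw : ∃ w : glob Fr j ⟶ b.O, bdι Fr j ≫ w = b.k₁ ≫ b.oB
      · obtain ⟨w, hw⟩ := hw
        exact ⟨extMid b w hw, fun _ h' => absurd h' h, fun _ _ h' => absurd h' h,
          fun _ _ _ => ⟨w, extMid_isMid b w hw⟩, fun _ h' => absurd hκ (not_le.2 h')⟩
      · exact ⟨extHigh b, fun _ h' => absurd h' h, fun _ _ h' => absurd h' h,
          fun _ _ h' => absurd h' hw, fun _ _ => extHigh_isHigh b⟩
    · exact ⟨extHigh b, fun _ h' => absurd h' h, fun _ _ h' => absurd h' h,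
          fun _ h' => absurd h' hκ, fun _ _ => extHigh_isHigh b⟩

/-- the chosen filling -/
noncomputable def ext (n : ℕ) (κ : ℕ∞) (j : ℕ) (b : Base Fr j) : Ext b := (exists_ext n κ j b).choose

/-- the boundary data in all dimensions -/
noncomputable def base (Fr : Shape ⥤ M) (n : ℕ) (κ : ℕ∞) : (j : ℕ) → Base Fr j
  | 0 => ⟨bd Fr 0, 𝟙 _, 𝟙 _⟩
  | j + 1 => (ext n κ j (base Fr n κ j)).next

/-- the filling in all dimensions -/
noncomputable def fil (Fr : Shape ⥤ M) (n : ℕ) (κ : ℕ∞) (j : ℕ) : Ext (base Fr n κ j) :=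
  ext n κ j (base Fr n κ j)

/-- the cylinder sequence -/
noncomputable def seq (Fr : Shape ⥤ M) (n : ℕ) (κ : ℕ∞) : CylSeq Fr where
  A j := (fil Fr n κ j).A
  B j := (base Fr n κ j).B
  O j := (base Fr n κ j).O
  δ j := (fil Fr n κ j).δ
  inl j := (fil Fr n κ j).inl
  inr j := (fil Fr n κ j).inr
  init := bdInit Fr
  sq j := (fil Fr n κ j).sq
  i₀ j := (fil Fr n κ j).i₀
  i₁ j := (fil Fr n κ j).i₁
  k₀ j := (base Fr n κ j).k₀
  k₁ j := (base Fr n κ j).k₁
  k₀_δ j := (fil Fr n κ j).k₀_δ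
  k₁_δ j := (fil Fr n κ j).k₁_δ
  inl_k₀ j := (fil Fr n κ j).inl_k₀
  inr_k₀ j := (fil Fr n κ j).inr_k₀
  inl_k₁ j := (fil Fr n κ j).inl_k₁
  inr_k₁ j := (fil Fr n κ j).inr_k₁
  oB j := (base Fr n κ j).oB
  oD j := (base Fr n κ j).oD
  sqO j := (base Fr n κ j).sqO
  q j := (fil Fr n κ j).q
  oB_q _ := rfl
  oD_q _ := rfl

theorem low_aux (n : ℕ) (κ : ℕ∞) (j : ℕ) (hj : j ≤ n) :
    (base Fr n κ j).k₀ = (base Fr n κ j).k₁ ∧ IsIso (base Fr n κ j).k₀ := by
  induction j with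
  | zero => exact ⟨rfl, inferInstanceAs (IsIso (𝟙 (bd Fr 0)))⟩
  | succ j ih =>
    obtain ⟨hk, hiso⟩ := ih (by omega)
    have hlow : (fil Fr n κ j).IsLow :=
      (exists_ext n κ j (base Fr n κ j)).choose_spec.1 (by omega) hk
    have hq := hlow.1
    have hi₀ : IsIso (fil Fr n κ j).i₀ := by
      have : IsIso (base Fr n κ j).oD := (base Fr n κ j).sqO.flip.isIso_inl_of_isIso
      unfold Ext.i₀
      infer_instance
    refine ⟨?_, ?_⟩
    · apply (bd_sq Fr j).hom_ext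
      · change _ ≫ (fil Fr n κ j).next.k₀ = _ ≫ (fil Fr n κ j).next.k₁
        rw [Ext.inl_k₀, Ext.inl_k₁, hlow.2]
      · change _ ≫ (fil Fr n κ j).next.k₀ = _ ≫ (fil Fr n κ j).next.k₁
        rw [Ext.inr_k₀, Ext.inr_k₁, hlow.2]
    · change IsIso (fil Fr n κ j).next.k₀
      have h2 : IsPushout (bdι Fr j) (bdι Fr j) ((fil Fr n κ j).i₀ ≫ (fil Fr n κ j).inl)
          ((fil Fr n κ j).i₀ ≫ (fil Fr n κ j).inr) :=
        (fil Fr n κ j).sq.of_iso' (asIso (base Fr n κ j).k₀) (asIso (fil Fr n κ j).i₀)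
          (asIso (fil Fr n κ j).i₀) (Iso.refl _) (fil Fr n κ j).k₀_δ (fil Fr n κ j).k₀_δ
          (by simp) (by simp)
      have h3 : (fil Fr n κ j).next.k₀ = ((bd_sq Fr j).isoIsPushout _ _ h2).hom := by
        apply (bd_sq Fr j).hom_ext
        · rw [Ext.inl_k₀, IsPushout.inl_isoIsPushout_hom]
        · rw [Ext.inr_k₀, IsPushout.inr_isoIsPushout_hom]
      rw [h3]
      infer_instance

end CylBuild

open CylBuild in
theorem exists_cylSeq (Fr : Shape ⥤ M) (n : ℕ) (κ : ℕ∞) (hn : (n : ℕ∞) ≤ κ + 1) :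
    ∃ C : CylSeq Fr, (∀ j : ℕ, j < n → C.Low j) ∧ ((n : ℕ∞) ≤ κ → C.MidWith n (C.oD n)) ∧
      (∀ j : ℕ, n < j → (j : ℕ∞) ≤ κ → C.TR j → C.Mid j) ∧
      (∀ j : ℕ, κ < (j : ℕ∞) → C.High j) := by
  have spec : ∀ j, _ := fun j => (exists_ext n κ j (base Fr n κ j)).choose_spec
  refine ⟨seq Fr n κ, ?_, ?_, ?_, ?_⟩
  · intro j hj
    obtain ⟨hk, hiso⟩ := low_aux (Fr := Fr) n κ j hj.le
    have hlow : (fil Fr n κ j).IsLow := (spec j).1 hj hk
    refine ⟨?_, hlow.2⟩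
    have hq := hlow.1
    have : IsIso (base Fr n κ j).oD := (base Fr n κ j).sqO.flip.isIso_inl_of_isIso
    change IsIso (fil Fr n κ j).i₀
    unfold Ext.i₀
    infer_instance
  · intro hnκ
    obtain ⟨hk, -⟩ := low_aux (Fr := Fr) n κ n le_rfl
    exact (spec n).2.1 rfl hnκ hk
  · intro j hj hκ hT
    exact (spec j).2.2.1 hj hκ hT
  · intro j hj
    have hnj : n ≤ j := by
      have h1 : κ + 1 ≤ (j : ℕ∞) := Order.add_one_le_of_lt hj
      exact_mod_cast hn.trans h1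
    exact (spec j).2.2.2 hnj hj

/-- Existence of `n`-cylinders truncated above `κ`, given the existence of transports. -/
theorem exists_isCyl_of_TR (Fr : Shape ⥤ M) (n : ℕ) (κ : ℕ∞) (hn : (n : ℕ∞) ≤ κ + 1)
    (H : ∀ (C : CylSeq Fr) (j : ℕ), n < j → (j : ℕ∞) ≤ κ →
      (∀ i : ℕ, i < n → C.Low i) → C.MidWith n (C.oD n) →
      (∀ i : ℕ, n < i → i < j → C.Mid i) → C.TR j) :
    ∃ C : CylSeq Fr, C.IsCyl n κ := by
  obtain ⟨C, low, bot, mid, high⟩ := exists_cylSeq Fr n κ hn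
  refine ⟨C, hn, low, bot, ?_, high⟩
  intro j
  induction j using Nat.strong_induction_on with
  | _ j ih =>
    intro hj hκ
    have hnκ : (n : ℕ∞) ≤ κ := le_trans (by exact_mod_cast hj.le) hκ
    exact mid j hj hκ (H C j hj hκ low (bot hnκ) (fun i hi hij =>
      ih i hij hi (le_trans (by exact_mod_cast hij.le) hκ)))

end Crest.Agent.R248
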