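import Crest.Agent.R248.CylWhisk
import Crest.Agent.R248.Column
import Crest.Agent.R248.CylBuild

/-! CylContr (helper598): contractibility of open boxes, existence of transports. -/

set_option autoImplicit false

namespace Crest.Agent.R248

open CategoryTheory CategoryTheory.Limits Opposite
open Crest.GeometryTopology.Coherator

universe v w

variable {M : Type w} [Category.{v} M] [HasPushouts M] [HasInitial M] {Fr : Shape ⥤ M}

theorem columnProp (S : Setting Fr) : ColumnProp Fr := by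
  intro W n c
  obtain ⟨W', u, ι, w, h1, h2, h3⟩ := exists_column S W c
  exact ⟨W', u, ι, Fr.map w, h1, h2, h3⟩

theorem Wh.contr (S : Setting Fr) {k n : ℕ} (hn : n + 1 ≤ k) (hPO : ∀ m, n < m → PO Fr k m)
    {W : Shape} (hW : W.dim ≤ k + 1) {Z : M} {r : Fr.obj W ⟶ Z}
    (hr : Wh Fr k n W (𝟙 _) r) : Contr Fr k Z := by
  obtain ⟨N, hr⟩ := hr
  exact Whisk.contr S (columnProp S) hn (fun m hm _ => hPO m hm) N W hW (𝟙 _) r
    (Good.of_isIso _) hr

namespace CylSeq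

variable (C : CylSeq Fr)

theorem contr_O (S : Setting Fr) {n : ℕ} (low : ∀ j, j < n → C.Low j) (bot : C.MidWith n (C.oD n))
    {k i : ℕ} (hi : n < i) (hik : i ≤ k + 1) (hnk : n + 1 ≤ k) (mid : ∀ j, n < j → j < i → C.Mid j)
    (hPO : ∀ m, n < m → PO Fr k m) : Contr Fr k (C.O i) := by
  obtain ⟨m, rfl⟩ : ∃ m, i = m + 1 := ⟨i - 1, by omega⟩
  exact Wh.contr S hnk hPO (W := Shape.globe (m + 1)) (by rw [dim_globe]; exact hik)
    (C.wh_oD (m := m) S low bot (fun j hj hjm => mid j hj (by omega)) hPO hik le_rfl)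

/-- a transport from a joining cell -/
theorem tr_of_step {i : ℕ}
    (h : Step Fr (C.i₁ i ≫ C.inl i ≫ C.oB (i + 1)) (C.i₁ i ≫ C.inr i ≫ C.oB (i + 1))) :
    C.TR (i + 1) := by
  obtain ⟨w, h1, h2⟩ := h
  refine ⟨w, ?_⟩
  apply (bd_sq Fr i).hom_ext
  · rw [← Category.assoc, bdInl_bdι, h1, ← Category.assoc (bdInl Fr i), C.inl_k₁, Category.assoc]
  · rw [← Category.assoc, bdInr_bdι, h2, ← Category.assoc (bdInr Fr i), C.inr_k₁, Category.assoc]

theorem i₀_inl_oB (i : ℕ) : C.i₀ i ≫ C.inl i ≫ C.oB (i + 1) = sg Fr i ≫ C.oD (i + 1) := by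
  rw [← Category.assoc, ← C.inl_k₀, Category.assoc, (C.sqO (i + 1)).w, ← Category.assoc, bdInl_bdι]

theorem i₀_inr_oB (i : ℕ) : C.i₀ i ≫ C.inr i ≫ C.oB (i + 1) = tg Fr i ≫ C.oD (i + 1) := by
  rw [← Category.assoc, ← C.inr_k₀, Category.assoc, (C.sqO (i + 1)).w, ← Category.assoc, bdInr_bdι]

/-- the transport in dimension `n+1` -/
theorem tr_succ (S : Setting Fr) {n : ℕ} (bot : C.MidWith n (C.oD n)) : C.TR (n + 1) := by
  apply C.tr_of_step
  obtain ⟨-, θ, sq, hθ⟩ := bot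
  have h0 : Step Fr (C.i₀ n) (C.i₁ n) := ⟨θ, by rw [← sq.w, C.oD_q], hθ⟩
  have h1 := h0.comp (C.inl n ≫ C.oB (n + 1))
  have h2 := h0.comp (C.inr n ≫ C.oB (n + 1))
  rw [C.i₀_inl_oB] at h1
  rw [C.i₀_inr_oB] at h2
  exact ((h1.symm S).trans S ⟨C.oD (n + 1), rfl, rfl⟩).trans S h2

theorem tr_of (S : Setting Fr) {n : ℕ} (low : ∀ j, j < n → C.Low j) (bot : C.MidWith n (C.oD n))
    {j : ℕ} (hj : n < j) (mid : ∀ i, n < i → i < j → C.Mid i)
    (hPO : ∀ m, n < m → PO Fr (j - 1) m) : C.TR j := by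
  obtain ⟨i, rfl⟩ : ∃ i, j = i + 1 := ⟨j - 1, by omega⟩
  rcases Nat.lt_succ_iff_lt_or_eq.mp hj with h | rfl
  · have hc : Contr Fr i (C.O (i + 1)) :=
      C.contr_O S low bot hj le_rfl h mid (by simpa using hPO)
    apply C.tr_of_step
    apply hc
    have e : C.δ i ≫ C.inl i ≫ C.oB (i + 1) = C.δ i ≫ C.inr i ≫ C.oB (i + 1) := by
      rw [← Category.assoc, (C.sq i).w, Category.assoc]
    rw [← Category.assoc, ← C.k₁_δ, ← Category.assoc (bdι Fr i), ← C.k₁_δ, Category.assoc,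
      Category.assoc, e]
  · exact C.tr_succ S bot

end CylSeq

theorem exists_isCyl (S : Setting Fr) (n : ℕ) (κ : ℕ∞) (hn : (n : ℕ∞) ≤ κ + 1)
    (hPO : ∀ k m : ℕ, n ≤ k → (k : ℕ∞) ≤ κ → n < m → PO Fr k m) :
    ∃ C : CylSeq Fr, C.IsCyl n κ := by
  refine exists_isCyl_of_TR Fr n κ hn fun C j hj hjκ low bot mid => ?_
  refine C.tr_of S low bot hj mid fun m hm => hPO (j - 1) m (by omega) ?_ hm
  exact le_trans (by exact_mod_cast Nat.sub_le j 1) hjκ

end Crest.Agent.R248
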