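import Crest.Agent.R248.Whisker

/-! Whisker decomposition of cylinders (helper598). -/

set_option autoImplicit false

namespace Crest.Agent.R248

open CategoryTheory CategoryTheory.Limits Opposite
open Crest.GeometryTopology.Coherator

universe v w

variable {M : Type w} [Category.{v} M] [HasPushouts M] [HasInitial M] {Fr : Shape ⥤ M}

namespace CylSeq

variable (C : CylSeq Fr)

theorem sg_i₀ (j : ℕ) : sg Fr j ≫ C.i₀ (j + 1) = C.i₀ j ≫ C.s j := by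
  rw [← bdInl_bdι, Category.assoc, ← C.k₀_δ, ← Category.assoc, C.inl_k₀, Category.assoc]
  rfl

theorem tg_i₀ (j : ℕ) : tg Fr j ≫ C.i₀ (j + 1) = C.i₀ j ≫ C.t j := by
  rw [← bdInr_bdι, Category.assoc, ← C.k₀_δ, ← Category.assoc, C.inr_k₀, Category.assoc]
  rfl

/-- The open box in dimension `h+1` is obtained from `P = A h ∪_{D_h} D_{h+1}` by pushing out the
inclusion `q h : O h ⟶ A h`. -/
theorem exists_box (h : ℕ) {P : M} {x : C.A h ⟶ P} {y : glob Fr (h + 1) ⟶ P}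
    (sqP : IsPushout (C.i₀ h) (sg Fr h) x y) :
    ∃ (ψ : C.O h ⟶ P) (χ : P ⟶ C.O (h + 1)), IsPushout ψ (C.q h) χ (C.inr h ≫ C.oB (h + 1)) ∧
      C.oD h ≫ ψ = tg Fr h ≫ y ∧ y ≫ χ = C.oD (h + 1) ∧ x ≫ χ = C.inl h ≫ C.oB (h + 1) := by
  have hψ : C.k₀ h ≫ (C.δ h ≫ x) = bdι Fr h ≫ (tg Fr h ≫ y) := by
    rw [← Category.assoc, C.k₀_δ, Category.assoc, sqP.w, ← Category.assoc, ← Category.assoc, bdι_sg]
  have hχ : C.i₀ h ≫ (C.inl h ≫ C.oB (h + 1)) = sg Fr h ≫ C.oD (h + 1) := by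
    rw [← Category.assoc, ← C.inl_k₀, Category.assoc, (C.sqO (h + 1)).w, ← Category.assoc, bdInl_bdι]
  let ψ : C.O h ⟶ P := (C.sqO h).desc (C.δ h ≫ x) (tg Fr h ≫ y) hψ
  have hψB : C.oB h ≫ ψ = C.δ h ≫ x := (C.sqO h).inl_desc _ _ _
  have hψD : C.oD h ≫ ψ = tg Fr h ≫ y := (C.sqO h).inr_desc _ _ _
  let χ : P ⟶ C.O (h + 1) := sqP.desc (C.inl h ≫ C.oB (h + 1)) (C.oD (h + 1)) hχ
  have hχx : x ≫ χ = C.inl h ≫ C.oB (h + 1) := sqP.inl_desc _ _ _
  have hχy : y ≫ χ = C.oD (h + 1) := sqP.inr_desc _ _ _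
  have hw : ψ ≫ χ = C.q h ≫ (C.inr h ≫ C.oB (h + 1)) := by
    apply (C.sqO h).hom_ext
    · rw [← Category.assoc, hψB, Category.assoc, hχx, ← Category.assoc (C.oB h), C.oB_q,
        ← Category.assoc, (C.sq h).w, Category.assoc]
    · rw [← Category.assoc, hψD, Category.assoc, hχy, ← Category.assoc (C.oD h), C.oD_q,
        ← Category.assoc (C.i₀ h), ← C.inr_k₀, Category.assoc, (C.sqO (h + 1)).w, ← Category.assoc,
        bdInr_bdι]
  have key : ∀ (Z : M) (α : P ⟶ Z) (β : C.A h ⟶ Z), ψ ≫ α = C.q h ≫ β →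
      ∃ γ : C.O (h + 1) ⟶ Z, χ ≫ γ = α ∧ (C.inr h ≫ C.oB (h + 1)) ≫ γ = β := by
    intro Z α β hαβ
    have hB : C.δ h ≫ (x ≫ α) = C.δ h ≫ β := by
      have := congrArg (fun t => C.oB h ≫ t) hαβ
      rwa [← Category.assoc, hψB, ← Category.assoc (C.oB h), C.oB_q, Category.assoc] at this
    have hD : tg Fr h ≫ (y ≫ α) = C.i₀ h ≫ β := by
      have := congrArg (fun t => C.oD h ≫ t) hαβ
      rwa [← Category.assoc, hψD, ← Category.assoc (C.oD h), C.oD_q, Category.assoc] at this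
    let γB : C.B (h + 1) ⟶ Z := (C.sq h).desc (x ≫ α) β hB
    have hγ1 : C.inl h ≫ γB = x ≫ α := (C.sq h).inl_desc _ _ _
    have hγ2 : C.inr h ≫ γB = β := (C.sq h).inr_desc _ _ _
    have hO : C.k₀ (h + 1) ≫ γB = bdι Fr (h + 1) ≫ (y ≫ α) := by
      apply (bd_sq Fr h).hom_ext
      · rw [← Category.assoc, C.inl_k₀, Category.assoc, hγ1, ← Category.assoc (C.i₀ h), sqP.w,
          ← Category.assoc (bdInl Fr h), bdInl_bdι, Category.assoc]
      · rw [← Category.assoc, C.inr_k₀, Category.assoc, hγ2,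
          ← Category.assoc (bdInr Fr h), bdInr_bdι, hD]
    let γ : C.O (h + 1) ⟶ Z := (C.sqO (h + 1)).desc γB (y ≫ α) hO
    have e1 : C.oB (h + 1) ≫ γ = γB := (C.sqO (h + 1)).inl_desc _ _ _
    have e2 : C.oD (h + 1) ≫ γ = y ≫ α := (C.sqO (h + 1)).inr_desc _ _ _
    refine ⟨γ, ?_, ?_⟩
    · apply sqP.hom_ext
      · rw [← Category.assoc, hχx, Category.assoc, e1, hγ1]
      · rw [← Category.assoc, hχy, e2]
    · rw [Category.assoc, e1, hγ2]
  have uniq : ∀ (Z : M) (γ γ' : C.O (h + 1) ⟶ Z), χ ≫ γ = χ ≫ γ' →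
      (C.inr h ≫ C.oB (h + 1)) ≫ γ = (C.inr h ≫ C.oB (h + 1)) ≫ γ' → γ = γ' := by
    intro Z γ γ' h1 h2
    apply (C.sqO (h + 1)).hom_ext
    · apply (C.sq h).hom_ext
      · have := congrArg (fun t => x ≫ t) h1
        rwa [← Category.assoc, ← Category.assoc, hχx, Category.assoc, Category.assoc] at this
      · simpa only [Category.assoc] using h2
    · have := congrArg (fun t => y ≫ t) h1
      rwa [← Category.assoc, ← Category.assoc, hχy] at this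
  refine ⟨ψ, χ, IsPushout.of_isColimit' ⟨hw⟩ (PushoutCocone.IsColimit.mk _
    (fun s => (key _ s.inl s.inr s.condition).choose)
    (fun s => (key _ s.inl s.inr s.condition).choose_spec.1)
    (fun s => (key _ s.inl s.inr s.condition).choose_spec.2)
    (fun s m h1 h2 => uniq _ _ _
      (h1.trans (key _ s.inl s.inr s.condition).choose_spec.1.symm)
      (h2.trans (key _ s.inl s.inr s.condition).choose_spec.2.symm))),
    hψD, hχy, hχx⟩


end CylSeq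

/-- existential version of `Whisk` -/
def Wh (Fr : Shape ⥤ M) (k n : ℕ) (W : Shape) {A Z : M} (f : Fr.obj W ⟶ A) (r : A ⟶ Z) : Prop :=
  ∃ N, Whisk Fr k n W N f r

namespace Wh

variable {k n : ℕ} {W : Shape}

theorem good {A Z : M} (f : Fr.obj W ⟶ A) {g : A ⟶ Z} (hg : Good Fr k g) : Wh Fr k n W f g :=
  ⟨0, .nil f g hg⟩

theorem iso {A Z : M} (f : Fr.obj W ⟶ A) (g : A ⟶ Z) [IsIso g] : Wh Fr k n W f g :=
  good f (Good.of_isIso g)

theorem comp {A A₁ Z : M} {f : Fr.obj W ⟶ A} {r : A ⟶ A₁}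
    (hr : Wh Fr k n W f r) {r' : A₁ ⟶ Z} (hr' : Wh Fr k n W (f ≫ r) r') :
    Wh Fr k n W f (r ≫ r') := by
  obtain ⟨N, h⟩ := hr
  obtain ⟨N', h'⟩ := hr'
  exact ⟨N + N', h.comp h'⟩

theorem cobase {A Z A' Z' : M} {f : Fr.obj W ⟶ A} {r : A ⟶ Z}
    (hr : Wh Fr k n W f r) {h : A ⟶ A'} {r' : A' ⟶ Z'} {h' : Z ⟶ Z'}
    (sq : IsPushout h r r' h') : Wh Fr k n W (f ≫ h) r' := by
  obtain ⟨N, hr⟩ := hr
  exact ⟨N, hr.cobase h r' h' sq⟩

theorem reshape {A Z : M} {f : Fr.obj W ⟶ A} {r : A ⟶ Z}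
    (hr : Wh Fr k n W f r) {W' : Shape} (ι : W ⟶ W') (f' : Fr.obj W' ⟶ A)
    (hf : Fr.map ι ≫ f' = f) : Wh Fr k n W' f' r := by
  obtain ⟨N, hr⟩ := hr
  exact ⟨N, hr.reshape ι f' hf⟩

/-- one whisker -/
theorem whisker (S : Setting Fr) {A Z : M} (f : Fr.obj W ⟶ A) (c : Shape.globe n ⟶ W)
    {a : glob Fr n ⟶ A} (ha : Fr.map c ≫ f = a) {j : A ⟶ Z} {b : glob Fr (n + 1) ⟶ Z}
    (sq : IsPushout a (sg Fr n) j b) : Wh Fr k n W f j := by
  refine ⟨0 + 1, ?_⟩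
  have := Whisk.cons (k := k) (N := 0) f (𝟙 A) (Good.of_isIso _) c a
    (by rw [Category.comp_id, ha]; exact Step.refl S a) j b sq (𝟙 Z) (.nil _ _ (Good.of_isIso _))
  rwa [Category.id_comp, Category.comp_id] at this

end Wh

namespace CylSeq

variable (C : CylSeq Fr)

theorem isIso_oD (j : ℕ) (low : ∀ i, i < j → C.Low i) : IsIso (C.oD j) := by
  induction j with
  | zero =>
    have : IsIso (C.k₀ 0) := by
      have e : C.k₀ 0 = ((bdInit Fr).uniqueUpToIso C.init).hom := (bdInit Fr).hom_ext _ _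
      rw [e]; infer_instance
    exact (C.sqO 0).isIso_inr_of_isIso
  | succ j ih =>
    have h1 : IsIso (C.oD j) := ih fun i hi => low i (by omega)
    have h2 : IsIso (C.i₀ j) := (low j (by omega)).1
    have h3 : IsIso (C.q j) := by
      have : IsIso (C.oD j ≫ C.q j) := by rw [C.oD_q]; exact h2
      exact IsIso.of_isIso_comp_left (C.oD j) (C.q j)
    have sqP : IsPushout (C.i₀ j) (sg Fr j) (pushout.inl (C.i₀ j) (sg Fr j))
      (pushout.inr (C.i₀ j) (sg Fr j)) := IsPushout.of_hasPushout _ _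
    obtain ⟨ψ, χ, sqB, -, hy, -⟩ := C.exists_box j sqP
    have h4 : IsIso χ := sqB.isIso_inl_of_isIso
    have h5 : IsIso (pushout.inr (C.i₀ j) (sg Fr j)) := sqP.isIso_inr_of_isIso
    rw [← hy]
    infer_instance

theorem isIso_q (j : ℕ) (low : ∀ i, i ≤ j → C.Low i) : IsIso (C.q j) := by
  have h1 : IsIso (C.oD j) := C.isIso_oD j fun i hi => low i hi.le
  have h2 : IsIso (C.i₀ j) := (low j le_rfl).1
  have : IsIso (C.oD j ≫ C.q j) := by rw [C.oD_q]; exact h2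
  exact IsIso.of_isIso_comp_left (C.oD j) (C.q j)

variable {n m k : ℕ}

/-- `O j ⟶ A j` -/
theorem wh_q (S : Setting Fr) (low : ∀ j, j < n → C.Low j) (bot : C.MidWith n (C.oD n))
    (mid : ∀ j, n < j → j ≤ m → C.Mid j) (hPO : ∀ m, n < m → PO Fr k m)
    {j : ℕ} (hj : j ≤ k) (hjm : j ≤ m) :
    Wh Fr k n (Shape.globe j) (C.oD j) (C.q j) := by
  rcases lt_trichotomy j n with h | h | h
  · have := C.isIso_q j fun i hi => low i (by omega)
    exact Wh.iso _ _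
  · subst h
    obtain ⟨-, θ, sq, -⟩ := bot
    exact Wh.whisker S (C.oD j) (𝟙 _) (by rw [Fr.map_id, Category.id_comp]) sq
  · obtain ⟨w, -, θ, sq, -⟩ := mid j h hjm
    exact Wh.good _ (Good.cobase sq (good_sg hj (hPO j h)))

/-- `P = A h ∪ D_{h+1} ⟶ O (h+1)` -/
theorem wh_box (S : Setting Fr) (low : ∀ j, j < n → C.Low j) (bot : C.MidWith n (C.oD n))
    (mid : ∀ j, n < j → j ≤ m → C.Mid j) (hPO : ∀ m, n < m → PO Fr k m)
    {h : ℕ} (hh : h ≤ k) (hhm : h ≤ m) {P : M} {x : C.A h ⟶ P} {y : glob Fr (h + 1) ⟶ P}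
    (sqP : IsPushout (C.i₀ h) (sg Fr h) x y) :
    ∃ χ : P ⟶ C.O (h + 1), y ≫ χ = C.oD (h + 1) ∧ x ≫ χ = C.inl h ≫ C.oB (h + 1) ∧
      Wh Fr k n (Shape.globe (h + 1)) y χ := by
  obtain ⟨ψ, χ, sqB, hψ, hy, hx⟩ := C.exists_box h sqP
  refine ⟨χ, hy, hx, ?_⟩
  rcases lt_trichotomy h n with hn | hn | hn
  · have := C.isIso_q h fun i hi => low i (by omega)
    have : IsIso χ := sqB.isIso_inl_of_isIso
    exact Wh.iso _ _
  · subst hn
    obtain ⟨-, θ, sq, -⟩ := bot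
    exact Wh.whisker S y (Shape.τ h) hψ.symm (sq.paste_horiz sqB)
  · obtain ⟨w, -, θ, sq, -⟩ := mid h hn hhm
    exact Wh.good _ (Good.cobase sqB (Good.cobase sq (good_sg hh (hPO h hn))))

/-- `P = A h ∪ D_{h+1} ⟶ A (h+1)` -/
theorem wh_step (S : Setting Fr) (low : ∀ j, j < n → C.Low j) (bot : C.MidWith n (C.oD n))
    (mid : ∀ j, n < j → j ≤ m → C.Mid j) (hPO : ∀ m, n < m → PO Fr k m)
    {h : ℕ} (hh : h + 1 ≤ k) (hhm : h + 1 ≤ m) {P : M} {x : C.A h ⟶ P} {y : glob Fr (h + 1) ⟶ P}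
    (sqP : IsPushout (C.i₀ h) (sg Fr h) x y) :
    ∃ ρ : P ⟶ C.A (h + 1), y ≫ ρ = C.i₀ (h + 1) ∧ x ≫ ρ = C.s h ∧
      Wh Fr k n (Shape.globe (h + 1)) y ρ := by
  obtain ⟨χ, hy, hx, hχ⟩ := C.wh_box S low bot mid hPO (h := h) (by omega) (by omega) sqP
  refine ⟨χ ≫ C.q (h + 1), ?_, ?_, hχ.comp ?_⟩
  · rw [← Category.assoc, hy, C.oD_q]
  · rw [← Category.assoc, hx, Category.assoc, C.oB_q]; rfl
  · rw [hy]
    exact C.wh_q S low bot mid hPO hh hhm

/-- `D_h ⟶ A h` -/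
theorem wh_i₀ (S : Setting Fr) (low : ∀ j, j < n → C.Low j) (bot : C.MidWith n (C.oD n))
    (mid : ∀ j, n < j → j ≤ m → C.Mid j) (hPO : ∀ m, n < m → PO Fr k m)
    {h : ℕ} (hh : h ≤ k) (hhm : h ≤ m) :
    Wh Fr k n (Shape.globe h) (𝟙 (glob Fr h)) (C.i₀ h) := by
  induction h with
  | zero =>
    have : IsIso (C.oD 0) := C.isIso_oD 0 (fun i hi => absurd hi (Nat.not_lt_zero i))
    rw [← C.oD_q]
    refine (Wh.iso _ _).comp ?_
    rw [Category.id_comp]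
    exact C.wh_q S low bot mid hPO hh hhm
  | succ h ih =>
    have sqP : IsPushout (C.i₀ h) (sg Fr h) (pushout.inl (C.i₀ h) (sg Fr h))
      (pushout.inr (C.i₀ h) (sg Fr h)) := IsPushout.of_hasPushout _ _
    obtain ⟨ρ, hy, -, hρ⟩ := C.wh_step S low bot mid hPO hh hhm sqP
    rw [← hy]
    have h1 := (ih (by omega) (by omega)).cobase sqP.flip
    have h2 := h1.reshape (Shape.σ h) (𝟙 _) (by rw [Category.comp_id, Category.id_comp])
    refine h2.comp ?_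
    rwa [Category.id_comp]

/-- `D_h ⟶ O h` -/
theorem wh_oD (S : Setting Fr) (low : ∀ j, j < n → C.Low j) (bot : C.MidWith n (C.oD n))
    (mid : ∀ j, n < j → j ≤ m → C.Mid j) (hPO : ∀ m, n < m → PO Fr k m)
    {h : ℕ} (hh : h ≤ k + 1) (hhm : h ≤ m + 1) :
    Wh Fr k n (Shape.globe h) (𝟙 (glob Fr h)) (C.oD h) := by
  cases h with
  | zero =>
    have : IsIso (C.oD 0) := C.isIso_oD 0 (fun i hi => absurd hi (Nat.not_lt_zero i))
    exact Wh.iso _ _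
  | succ h =>
    have sqP : IsPushout (C.i₀ h) (sg Fr h) (pushout.inl (C.i₀ h) (sg Fr h))
      (pushout.inr (C.i₀ h) (sg Fr h)) := IsPushout.of_hasPushout _ _
    obtain ⟨χ, hy, -, hχ⟩ := C.wh_box S low bot mid hPO (h := h) (by omega) (by omega) sqP
    rw [← hy]
    have h1 := (C.wh_i₀ S low bot mid hPO (h := h) (by omega) (by omega)).cobase sqP.flip
    have h2 := h1.reshape (Shape.σ h) (𝟙 _) (by rw [Category.comp_id, Category.id_comp])
    refine h2.comp ?_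
    rwa [Category.id_comp]

end CylSeq

end Crest.Agent.R248
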