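import Crest.Agent.R248.Core

/-! TASK Ext: every coglobular object extends to a sum-preserving functor on shapes.
Route: turn `(A, s, t)` into a functor `GlobeObj ⥤ M`; take the left Kan extension along (ulift) Yoneda
(`Presheaf.uliftYonedaAdjunction`, precomposed with whiskering by `uliftFunctor` to fix universes);
restrict to shapes; it preserves the pushout squares defining `Pasting.build`. -/

set_option autoImplicit false

namespace Crest.Agent.R248

open CategoryTheory CategoryTheory.Limits Opposite
open Crest.GeometryTopology.Coherator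

universe v w

variable {M : Type w} [Category.{v} M]

section Coglob

variable (A : ℕ → M) (s t : ∀ j, A j ⟶ A (j + 1))

/-- iterated faces of a coglobular object -/
def itFace (b : Bool) (m : ℕ) : (n : ℕ) → m < n → (A m ⟶ A n)
  | 0, h => absurd h (Nat.not_lt_zero m)
  | k + 1, h =>
    if e : m = k then
      (eqToHom (by rw [e]) : A m ⟶ A k) ≫ (if b then t k else s k)
    else
      itFace b m k (by omega) ≫ s k

theorem itFace_succ_self (b : Bool) (k : ℕ) :
    itFace A s t b k (k + 1) (Nat.lt_succ_self k) = if b then t k else s k := by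
  rw [itFace, dif_pos rfl, eqToHom_refl, Category.id_comp]

theorem itFace_succ_of_lt (b : Bool) {m k : ℕ} (h : m < k) :
    itFace A s t b m (k + 1) (Nat.lt_succ_of_lt h) = itFace A s t b m k h ≫ s k := by
  rw [itFace, dif_neg (by omega)]

variable (hs : ∀ j, s j ≫ s (j + 1) = s j ≫ t (j + 1))
  (ht : ∀ j, t j ≫ s (j + 1) = t j ≫ t (j + 1))

include hs ht

theorem itFace_comp_t (b : Bool) {m : ℕ} :
    ∀ {k : ℕ} (h : m < k), itFace A s t b m k h ≫ s k = itFace A s t b m k h ≫ t k
  | 0, h => absurd h (Nat.not_lt_zero m)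
  | k + 1, h => by
    rcases Nat.lt_succ_iff_lt_or_eq.mp h with h' | rfl
    · rw [itFace_succ_of_lt A s t b h', Category.assoc, Category.assoc, hs]
    · rw [itFace_succ_self]
      cases b
      · exact hs m
      · exact ht m

theorem itFace_comp (b b' : Bool) {m n : ℕ} (h : m < n) :
    ∀ {k : ℕ} (h' : n < k),
      itFace A s t b m n h ≫ itFace A s t b' n k h' = itFace A s t b m k (h.trans h')
  | 0, h' => absurd h' (Nat.not_lt_zero n)
  | k + 1, h' => by
    rcases Nat.lt_succ_iff_lt_or_eq.mp h' with h'' | rfl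
    · rw [itFace_succ_of_lt A s t b' h'', ← Category.assoc, itFace_comp b b' h h'',
        ← itFace_succ_of_lt A s t b (h.trans h'')]
    · rw [itFace_succ_self, itFace_succ_of_lt A s t b h]
      cases b'
      · rfl
      · exact (itFace_comp_t A s t hs ht b h).symm

omit hs ht in
/-- the action of an arrow of globes -/
def arrowMap : {m n : ℕ} → GlobeObj.Arrow m n → (A m ⟶ A n)
  | _, _, .refl _ => 𝟙 _
  | _, _, .pole h b => itFace A s t b _ _ h

/-- a coglobular object as a functor on `GlobeObj` -/
def cogl : GlobeObj ⥤ M where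
  obj g := A g.dim
  map {a b} f := arrowMap A s t (m := a.dim) (n := b.dim) f
  map_id a := rfl
  map_comp {a b c} f g := by
    rcases a with ⟨a⟩
    rcases b with ⟨b⟩
    rcases c with ⟨c⟩
    change arrowMap A s t (GlobeObj.Arrow.seq f g) = arrowMap A s t f ≫ arrowMap A s t g
    change GlobeObj.Arrow a b at f
    change GlobeObj.Arrow b c at g
    cases f with
    | refl => exact (Category.id_comp _).symm
    | pole h u =>
      cases g with
      | refl => exact (Category.comp_id _).symm
      | pole h' u' => exact (itFace_comp A s t hs ht u u' h h').symm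

end Coglob

/-- the inclusion of shapes in presheaves on globes -/
noncomputable def shapePsh : Shape ⥤ GlobPsh.{0} where
  obj S := S.psh
  map f := f
  map_id _ := rfl
  map_comp _ _ := rfl

theorem sums_shapePsh : Sums shapePsh := fun S b h hb hh =>
  IsPushout.of_hasPushout (GlobPsh.globeRepFace hb true ≫ S.apex) (GlobPsh.globeRepFace hh false)

theorem exists_ext [HasColimitsOfSize.{v, v} M] (A : ℕ → M) (s t : ∀ j, A j ⟶ A (j + 1))
    (hs : ∀ j, s j ≫ s (j + 1) = s j ≫ t (j + 1)) (ht : ∀ j, t j ≫ s (j + 1) = t j ≫ t (j + 1)) :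
    ∃ (G : Shape ⥤ M) (φ : ∀ j, glob G j ≅ A j), Sums G ∧
      (∀ j, sg G j ≫ (φ (j + 1)).hom = (φ j).hom ≫ s j) ∧
      (∀ j, tg G j ≫ (φ (j + 1)).hom = (φ j).hom ≫ t j) := by
  haveI : HasColimitsOfSize.{0, v} M := hasColimitsOfSizeShrink.{0, v, v, v} M
  let A' : GlobeObj ⥤ M := cogl A s t hs ht
  let U : GlobPsh.{0} ⥤ (GlobeObjᵒᵖ ⥤ Type v) :=
    (Functor.whiskeringRight _ _ _).obj uliftFunctor.{v}
  let L : (GlobeObjᵒᵖ ⥤ Type v) ⥤ M := uliftYoneda.{v}.leftKanExtension A'
  haveI : PreservesColimitsOfSize.{0, 0} L :=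
    Presheaf.preservesColimitsOfSize_leftKanExtension.{0} A'
  let e : (yoneda ⋙ U) ⋙ L ≅ A' := Presheaf.isExtensionAlongULiftYoneda.{0} A'
  refine ⟨shapePsh ⋙ U ⋙ L, fun j => e.app (GlobeObj.mk j), ?_, ?_, ?_⟩
  · intro S b h hb hh
    exact (sums_shapePsh S b h hb hh).map (U ⋙ L)
  · intro j
    have h1 := e.hom.naturality (GlobeObj.σ j)
    have h2 : A'.map (GlobeObj.σ j) = s j := itFace_succ_self A s t false j
    rw [h2] at h1
    exact h1
  · intro j
    have h1 := e.hom.naturality (GlobeObj.τ j)
    have h2 : A'.map (GlobeObj.τ j) = t j := itFace_succ_self A s t true j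
    rw [h2] at h1
    exact h1

end Crest.Agent.R248
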