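import Crest.Prelude.Def_GlobularCoherator

/-!
Row 248 (S0382). Lifting of cells against maps of models, sections over cellular models,
universal property (in terms of cells) of the pushout along the source inclusion.
-/

set_option autoImplicit false

open CategoryTheory CategoryTheory.Limits Opposite

universe u

namespace Crest.Agent.R248

open Crest.GeometryTopology.Coherator
open Crest.GeometryTopology.Coherator.GlobTheory
open Crest.GeometryTopology.Coherator.GlobTheory.GlobModel

variable {C : GlobTheory.{u}}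

/-- Cell lifting property ("trivial fibration"). -/
def CellLift {P X : C.GlobModel} (p : P ⟶ X) : Prop :=
  ∀ (n : ℕ) (s : P.cells.Sphere n) (x : X.cells.cell n),
    X.cells.bdry n x = (cellsMap p).sphere n s →
      ∃ z : P.cells.cell n, P.cells.bdry n z = s ∧ (cellsMap p).app n z = x

theorem cellsMap_comp_app {X Y Z : C.GlobModel} (f : X ⟶ Y) (g : Y ⟶ Z) (n : ℕ)
    (x : X.cells.cell n) :
    (cellsMap (f ≫ g)).app n x = (cellsMap g).app n ((cellsMap f).app n x) := rfl

theorem cellsMap_id_app {X : C.GlobModel} (n : ℕ) (x : X.cells.cell n) :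
    (cellsMap (𝟙 X)).app n x = x := rfl

theorem sphere_comp {X Y Z : C.GlobModel} (f : X ⟶ Y) (g : Y ⟶ Z) (n : ℕ)
    (s : X.cells.Sphere n) :
    (cellsMap (f ≫ g)).sphere n s = (cellsMap g).sphere n ((cellsMap f).sphere n s) := by
  cases n with
  | zero => rfl
  | succ n => rfl

theorem bdry_map {X Y : C.GlobModel} (f : X ⟶ Y) (n : ℕ) (x : X.cells.cell n) :
    Y.cells.bdry n ((cellsMap f).app n x) = (cellsMap f).sphere n (X.cells.bdry n x) := by
  cases n with
  | zero => rfl
  | succ n =>
    apply Subtype.ext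
    apply Prod.ext
    · exact ((cellsMap f).app_src n x).symm
    · exact ((cellsMap f).app_tgt n x).symm

theorem hasLiftingProperty_of_isAttaching {X Y : C.GlobModel} {f : X ⟶ Y} (hf : IsAttaching f)
    {P Z : C.GlobModel} (p : P ⟶ Z) (hp : CellLift p) : HasLiftingProperty f p where
  sq_hasLift {g k} sq := by
    have hw : g ≫ p = f ≫ k := sq.w
    have h1 : ∀ i, ∃ z : P.cells.cell (hf.dimOf i),
        P.cells.bdry _ z = (cellsMap g).sphere _ (hf.sphere i) ∧
        (cellsMap p).app _ z = (cellsMap k).app _ (hf.newCell i) := by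
      intro i
      apply hp
      rw [bdry_map, hf.newCell_bdry, ← sphere_comp, ← sphere_comp, hw]
    choose z hz1 hz2 using h1
    obtain ⟨h, ⟨hh1, hh2⟩, -⟩ := hf.universal P g z hz1
    obtain ⟨h', -, hu⟩ := hf.universal Z (g ≫ p) (fun i => (cellsMap p).app _ (z i)) (by
      intro i
      rw [bdry_map, hz1, sphere_comp])
    refine ⟨⟨⟨h, hh1, ?_⟩⟩⟩
    have e1 : h ≫ p = h' := hu _ ⟨by rw [← Category.assoc, hh1], by
      intro i
      rw [cellsMap_comp_app, hh2]⟩
    have e2 : k = h' := hu _ ⟨hw.symm, by
      intro i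
      rw [hz2]⟩
    rw [e1, e2]

/-- A cellular model has a section along every map with the cell lifting property. -/
theorem exists_section_of_cellLift {X : C.GlobModel} (hX : X.IsCellularModel) {P : C.GlobModel}
    (p : P ⟶ X) (hp : CellLift p) : ∃ s : X ⟶ P, s ≫ p = 𝟙 X := by
  obtain ⟨c⟩ := hX
  let _ := c.linOrd
  let _ := c.bot
  let _ := c.succ
  have _ := c.wf
  have hl : HasLiftingProperty (c.chain.incl.app ⊥) p :=
    HasLiftingProperty.transfiniteComposition.hasLiftingProperty_ι_app_bot
      (hc := c.chain.isColimit)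
      (fun j hj => hasLiftingProperty_of_isAttaching (c.attach j hj) p hp)
  have hini : IsInitial (c.chain.F.obj ⊥) := c.startIsInitial.ofIso c.chain.isoBot.symm
  have sq : CommSq (hini.to P) (c.chain.incl.app ⊥) p (𝟙 X) := ⟨hini.hom_ext _ _⟩
  obtain ⟨⟨l⟩⟩ := hl.sq_hasLift sq
  exact ⟨l.l, l.fac_right⟩


/-! ### Maps out of disks -/

/-- The cell named by a map from a disk. -/
noncomputable def diskCell {X : C.GlobModel} {n : ℕ} (a : diskModel C n ⟶ X) : X.cells.cell n :=
  yonedaEquiv (a : (diskModel C n).functor ⟶ X.functor)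

/-- The map from a disk naming a cell. -/
noncomputable def diskMap {X : C.GlobModel} {n : ℕ} (x : X.cells.cell n) : diskModel C n ⟶ X :=
  (yonedaEquiv.symm (x : X.functor.obj (op (⟨Shape.globe n⟩ : C.Ob))) :
    (diskModel C n).functor ⟶ X.functor)

theorem diskCell_diskMap {X : C.GlobModel} {n : ℕ} (x : X.cells.cell n) :
    diskCell (diskMap x) = x :=
  yonedaEquiv.apply_symm_apply _

theorem diskMap_diskCell {X : C.GlobModel} {n : ℕ} (a : diskModel C n ⟶ X) :
    diskMap (diskCell a) = a :=
  yonedaEquiv.symm_apply_apply _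

theorem diskCell_injective {X : C.GlobModel} {n : ℕ} {a b : diskModel C n ⟶ X}
    (h : diskCell a = diskCell b) : a = b := by
  rw [← diskMap_diskCell a, h, diskMap_diskCell]

theorem diskCell_comp {X Y : C.GlobModel} {n : ℕ} (a : diskModel C n ⟶ X) (f : X ⟶ Y) :
    diskCell (a ≫ f) = (cellsMap f).app n (diskCell a) :=
  yonedaEquiv_comp _ _

theorem src_diskCell {X : C.GlobModel} {n : ℕ} (b : diskModel C (n + 1) ⟶ X) :
    X.cells.src n (diskCell b) = diskCell (sourceIncl C n ≫ b) :=
  yonedaEquiv_naturality (b : (diskModel C (n + 1)).functor ⟶ X.functor)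
    (C.incl.map (Shape.σ n))

/-! ### Actions and units -/

theorem act_seq (X : C.GlobModel) {R S T : Shape} (f : C.arr R S) (g : C.arr S T)
    (t : X.functor.obj (op (⟨T⟩ : C.Ob))) :
    X.act (C.seq f g) t = X.act f (X.act g t) := by
  have := X.functor.map_comp (Quiver.Hom.op (X := (⟨S⟩ : C.Ob)) (Y := (⟨T⟩ : C.Ob)) g)
    (Quiver.Hom.op (X := (⟨R⟩ : C.Ob)) (Y := (⟨S⟩ : C.Ob)) f)
  exact types_congr_hom this t

theorem act_one (X : C.GlobModel) {S : Shape} (t : X.functor.obj (op (⟨S⟩ : C.Ob))) :
    X.act (C.one S) t = t :=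
  types_congr_hom (X.functor.map_id (op (⟨S⟩ : C.Ob))) t

theorem src_eq_act (X : C.GlobModel) (n : ℕ) (x : X.cells.cell (n + 1)) :
    X.cells.src n x = X.act (C.ofShape (Shape.σ n)) x := rfl

theorem tgt_eq_act (X : C.GlobModel) (n : ℕ) (x : X.cells.cell (n + 1)) :
    X.cells.tgt n x = X.act (C.ofShape (Shape.τ n)) x := rfl

theorem src_unitCell (X : C.GlobModel) (e : C.UnitChoice) (n : ℕ) (x : X.cells.cell n) :
    X.cells.src n (X.unitCell e n x) = x := by
  exact (act_seq X (C.ofShape (Shape.σ n)) (e.unit n) x).symm.trans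
    ((congrArg (fun o => X.act o x) (e.src_unit n)).trans (act_one X x))

theorem tgt_unitCell (X : C.GlobModel) (e : C.UnitChoice) (n : ℕ) (x : X.cells.cell n) :
    X.cells.tgt n (X.unitCell e n x) = x := by
  exact (act_seq X (C.ofShape (Shape.τ n)) (e.unit n) x).symm.trans
    ((congrArg (fun o => X.act o x) (e.tgt_unit n)).trans (act_one X x))

theorem map_act {X Y : C.GlobModel} (f : X ⟶ Y) {S T : Shape} (o : C.arr S T)
    (t : X.functor.obj (op (⟨T⟩ : C.Ob))) :
    f.app (op (⟨S⟩ : C.Ob)) (X.act o t) = Y.act o (f.app (op (⟨T⟩ : C.Ob)) t) :=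
  types_congr_hom (f.naturality
    (Quiver.Hom.op (X := (⟨S⟩ : C.Ob)) (Y := (⟨T⟩ : C.Ob)) o)) t

theorem map_unitCell {X Y : C.GlobModel} (f : X ⟶ Y) (e : C.UnitChoice) (n : ℕ)
    (x : X.cells.cell n) :
    (cellsMap f).app (n + 1) (X.unitCell e n x) = Y.unitCell e n ((cellsMap f).app n x) :=
  map_act f (e.unit n) x

theorem map_basePoint {X Y : C.GlobModel} (f : X ⟶ Y) (e : C.UnitChoice) (x : X.cells.cell 0)
    (n : ℕ) :
    (cellsMap f).app n (X.basePoint e x n) = Y.basePoint e ((cellsMap f).app 0 x) n := by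
  induction n with
  | zero => rfl
  | succ n ih =>
    show (cellsMap f).app (n + 1) (X.unitCell e n (X.basePoint e x n)) =
      Y.unitCell e n (Y.basePoint e ((cellsMap f).app 0 x) n)
    rw [map_unitCell, ih]

theorem src_basePoint (X : C.GlobModel) (e : C.UnitChoice) (x : X.cells.cell 0) (n : ℕ) :
    X.cells.src n (X.basePoint e x (n + 1)) = X.basePoint e x n := src_unitCell X e n _

theorem tgt_basePoint (X : C.GlobModel) (e : C.UnitChoice) (x : X.cells.cell 0) (n : ℕ) :
    X.cells.tgt n (X.basePoint e x (n + 1)) = X.basePoint e x n := tgt_unitCell X e n _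

/-! ### The pushout along the source inclusion, in terms of cells -/

section Pushout

variable {X Y : C.GlobModel} {n : ℕ} {a : diskModel C n ⟶ X} {i : X ⟶ Y}
  {b : diskModel C (n + 1) ⟶ Y}

theorem src_new (sq : IsPushout a (sourceIncl C n) i b) :
    Y.cells.src n (diskCell b) = (cellsMap i).app n (diskCell a) := by
  rw [src_diskCell, ← sq.w, diskCell_comp]

/-- Maps out of the pushout. -/
theorem exists_desc (sq : IsPushout a (sourceIncl C n) i b) {Z : C.GlobModel} (g : X ⟶ Z)
    (z : Z.cells.cell (n + 1)) (hz : Z.cells.src n z = (cellsMap g).app n (diskCell a)) :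
    ∃ h : Y ⟶ Z, i ≫ h = g ∧ (cellsMap h).app (n + 1) (diskCell b) = z := by
  have hw : a ≫ g = sourceIncl C n ≫ diskMap z := by
    apply diskCell_injective
    rw [diskCell_comp, ← src_diskCell, diskCell_diskMap, hz]
  refine ⟨sq.desc g (diskMap z) hw, sq.inl_desc _ _ _, ?_⟩
  rw [← diskCell_comp, sq.inr_desc, diskCell_diskMap]

theorem hom_ext_pushout (sq : IsPushout a (sourceIncl C n) i b) {Z : C.GlobModel}
    {h h' : Y ⟶ Z} (h1 : i ≫ h = i ≫ h')
    (h2 : (cellsMap h).app (n + 1) (diskCell b) = (cellsMap h').app (n + 1) (diskCell b)) :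
    h = h' := by
  apply sq.hom_ext h1
  apply diskCell_injective
  rw [diskCell_comp, diskCell_comp, h2]

/-- The retraction `r : Y ⟶ X` sending the new cell to the unit on `a`. -/
theorem exists_retraction (e : C.UnitChoice) (sq : IsPushout a (sourceIncl C n) i b) :
    ∃ r : Y ⟶ X, i ≫ r = 𝟙 X ∧
      (cellsMap r).app (n + 1) (diskCell b) = X.unitCell e n (diskCell a) := by
  apply exists_desc sq
  rw [cellsMap_id_app, src_unitCell]

/-- Reduction of the weak equivalence statement to a statement about parallel cells with the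
same image under the retraction. -/
theorem isWeakEquiv_of_retraction (e : C.UnitChoice) (i : X ⟶ Y) (r : Y ⟶ X) (hr : i ≫ r = 𝟙 X)
    (H : ∀ (k : ℕ) (u v : Y.cells.cell k), Y.cells.AreParallel k u v →
      (cellsMap r).app k u = (cellsMap r).app k v → Y.cells.Step k u v) :
    IsWeakEquiv e i := by
  have hri : ∀ (k : ℕ) (x : X.cells.cell k), (cellsMap r).app k ((cellsMap i).app k x) = x := by
    intro k x
    rw [← cellsMap_comp_app, hr, cellsMap_id_app]
  constructor
  · constructor
    · intro p q hpq
      have h := congrArg (componentsMap r) hpq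
      induction p using Quot.ind with
      | mk p =>
        induction q using Quot.ind with
        | mk q =>
          have h' : Quot.mk (X.cells.Step 0) ((cellsMap r).app 0 ((cellsMap i).app 0 p)) =
            Quot.mk (X.cells.Step 0) ((cellsMap r).app 0 ((cellsMap i).app 0 q)) := h
          rw [hri, hri] at h'
          exact h'
    · intro q
      induction q using Quot.ind with
      | mk q =>
        refine ⟨Quot.mk _ ((cellsMap r).app 0 q), ?_⟩
        exact Quot.sound (H 0 _ _ trivial (hri 0 _))
  · intro x n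
    -- the retraction on loops
    have hbase : ∀ k, (cellsMap r).app k (Y.basePoint e ((cellsMap i).app 0 x) k) =
        X.basePoint e x k := by
      intro k
      rw [map_basePoint, hri]
    let ρ : Y.LoopsAt e ((cellsMap i).app 0 x) n → X.LoopsAt e x n := fun w =>
      ⟨(cellsMap r).app (n + 1) w.1, by rw [← (cellsMap r).app_src, w.2.1, hbase],
        by rw [← (cellsMap r).app_tgt, w.2.2, hbase]⟩
    let R : Y.HomotopyClasses e ((cellsMap i).app 0 x) n → X.HomotopyClasses e x n :=
      Quot.map ρ (by
        rintro w w' ⟨c, hs, ht⟩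
        exact ⟨(cellsMap r).app (n + 2) c, by rw [← (cellsMap r).app_src, hs],
          by rw [← (cellsMap r).app_tgt, ht]⟩)
    constructor
    · apply Function.LeftInverse.injective (g := R)
      intro p
      induction p using Quot.ind with
      | mk p =>
        apply congrArg (Quot.mk _)
        apply Subtype.ext
        exact hri _ _
    · intro q
      induction q using Quot.ind with
      | mk q =>
        refine ⟨Quot.mk _ (ρ q), ?_⟩
        apply Quot.sound
        apply H (n + 1)
        · constructor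
          · rw [q.2.1]
            exact (loopsMap i e x n (ρ q)).2.1
          · rw [q.2.2]
            exact (loopsMap i e x n (ρ q)).2.2
        · exact hri _ _

end Pushout

end Crest.Agent.R248
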