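import Mathlib
import Crest.Prelude.Def_GlobularCoherator

/-!
# The section lemma

If `C` has a tower and `π : E → C` is a map of globular theories along which fillers of admissible
pairs lift, then `π` has a section.
-/

set_option autoImplicit false

namespace Crest.Agent.R248

open CategoryTheory CategoryTheory.Limits Opposite
open Crest.GeometryTopology.Coherator
open Crest.GeometryTopology.Coherator.GlobTheory

universe u

variable {C D : GlobTheory.{u}}

/-- A theory map preserves parallelism of operations. -/
lemma OpsParallel.map (F : TheoryMap C D) {S : Shape} :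
    ∀ {n : ℕ} {f g : C.arr (Shape.globe n) S}, C.OpsParallel n f g →
      D.OpsParallel n (F.map f) (F.map g)
  | 0, _, _, _ => trivial
  | n + 1, f, g, h => by
      refine ⟨?_, ?_⟩
      · rw [← F.map_ofShape, ← F.map_seq, ← F.map_seq, h.1]
      · rw [← F.map_ofShape, ← F.map_seq, ← F.map_seq, h.2]

/-- The image of an admissible pair along a theory map. -/
def mapAdmissible (F : TheoryMap C D) (p : C.Admissible) : D.Admissible where
  n := p.n
  shape := p.shape
  dim_le := p.dim_le
  lower := F.map p.lower
  upper := F.map p.upper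
  parallel := OpsParallel.map F p.parallel

/-- The section lemma: if every filler in `C` of the image of an admissible pair of `E` lifts to a
filler in `E`, and `C` has a tower, then `π : E → C` has a section. -/
theorem exists_section {E C : GlobTheory.{u}} (hC : Nonempty C.Tower) (π : TheoryMap E C)
    (h : ∀ (p : E.Admissible) (z : C.arr (Shape.globe (p.n + 1)) p.shape),
      IsFillerAlong π p z →
      ∃ z' : E.arr (Shape.globe (p.n + 1)) p.shape,
        IsFillerAlong (TheoryMap.id E) p z' ∧ π.map z' = z) :
    ∃ s : TheoryMap C E, s.comp π = TheoryMap.id C := by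
  classical
  obtain ⟨T⟩ := hC
  -- partial sections: theory maps `G : stage r → E` over `C`
  have step : ∀ (r : ℕ) (G : TheoryMap (T.stage r) E), G.comp π = T.toEnd r →
      ∃ G' : TheoryMap (T.stage (r + 1)) E, G'.comp π = T.toEnd (r + 1) ∧
        (T.next r).comp G' = G := by
    intro r G hG
    have hfill : ∀ g : T.gen r, ∃ w : E.arr (Shape.globe ((T.prob r g).n + 1)) (T.prob r g).shape,
        IsFillerAlong G (T.prob r g) w ∧ π.map w = (T.toEnd (r + 1)).map (T.fill r g) := by
      intro g
      obtain ⟨z', hz', hz''⟩ := h (mapAdmissible G (T.prob r g))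
        ((T.toEnd (r + 1)).map (T.fill r g)) (by
          have h0 := (T.free r).1 g
          have e1 : ∀ {S S' : Shape} (f : (T.stage r).arr S S'),
              π.map (G.map f) = (T.toEnd (r + 1)).map ((T.next r).map f) := by
            intro S S' f
            have : (G.comp π).map f = ((T.next r).comp (T.toEnd (r + 1))).map f := by
              rw [hG, T.toEnd_comm r]
            exact this
          refine ⟨?_, ?_⟩
          · show C.seq (C.ofShape (Shape.σ _)) _ = π.map (G.map (T.prob r g).lower)
            rw [e1, ← h0.1, (T.toEnd (r + 1)).map_seq, (T.toEnd (r + 1)).map_ofShape]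
            rfl
          · show C.seq (C.ofShape (Shape.τ _)) _ = π.map (G.map (T.prob r g).upper)
            rw [e1, ← h0.2, (T.toEnd (r + 1)).map_seq, (T.toEnd (r + 1)).map_ofShape]
            rfl)
      exact ⟨z', hz', hz''⟩
    choose w hw hw' using hfill
    obtain ⟨G', ⟨hG'1, hG'2⟩, -⟩ := (T.free r).2 E G w hw
    refine ⟨G', ?_, hG'1⟩
    -- uniqueness for maps to `C`
    have hfc : ∀ g, IsFillerAlong (T.toEnd r) (T.prob r g)
        ((T.toEnd (r + 1)).map (T.fill r g)) := by
      intro g
      have h0 := (T.free r).1 g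
      have e2 : ∀ {S S' : Shape} (f : (T.stage r).arr S S'),
          (T.toEnd r).map f = (T.toEnd (r + 1)).map ((T.next r).map f) := by
        intro S S' f
        rw [← T.toEnd_comm r]; rfl
      refine ⟨?_, ?_⟩
      · rw [e2, ← h0.1, (T.toEnd (r + 1)).map_seq, (T.toEnd (r + 1)).map_ofShape]
      · rw [e2, ← h0.2, (T.toEnd (r + 1)).map_seq, (T.toEnd (r + 1)).map_ofShape]
    refine ((T.free r).2 C (T.toEnd r) (fun g => (T.toEnd (r + 1)).map (T.fill r g)) hfc).unique
      ⟨?_, ?_⟩ ⟨T.toEnd_comm r, fun g => rfl⟩
    · rw [← hG, ← hG'1]; rfl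
    · intro g
      show π.map (G'.map (T.fill r g)) = _
      rw [hG'2 g, hw' g]
  -- the compatible family
  obtain ⟨u0⟩ := T.stage_zero E
  obtain ⟨v0⟩ := T.stage_zero C
  let base : {G : TheoryMap (T.stage 0) E // G.comp π = T.toEnd 0} :=
    ⟨u0.default, by rw [v0.uniq (T.toEnd 0)]; exact v0.uniq _⟩
  let fam : (r : ℕ) → {G : TheoryMap (T.stage r) E // G.comp π = T.toEnd r} := fun r =>
    Nat.rec base (fun r G => ⟨(step r G.1 G.2).choose, (step r G.1 G.2).choose_spec.1⟩) r
  have hfam : ∀ r, (T.next r).comp (fam (r + 1)).1 = (fam r).1 := fun r =>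
    (step r (fam r).1 (fam r).2).choose_spec.2
  obtain ⟨s, hs, -⟩ := T.colim E (fun r => (fam r).1) hfam
  refine ⟨s, ?_⟩
  refine (T.colim C T.toEnd T.toEnd_comm).unique (fun r => ?_) (fun r => ?_)
  · have h1 := (fam r).2
    rw [← hs r] at h1
    exact h1
  · rfl

end Crest.Agent.R248
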