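import Crest.Agent.R248.Free
import Crest.Agent.R248.Section

/-! TASK Paths: the path functor `P X = (S ↦ Hom (G S) X)` attached to a cylinder functor with lifts.
Build the globular theory `E` over `C` with `E.arr S T` = pairs `(Φ : G.obj S ⟶ G.obj T, f : C.arr S T)`
compatible with `ι₀ ι₁` (`f` is turned into a map `FrM S ⟶ FrM T` by Yoneda), apply
`exists_section`, and define `(P X).functor.obj (op ⟨S⟩) = (G.obj S ⟶ X)`. -/

set_option autoImplicit false

namespace Crest.Agent.R248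

open CategoryTheory CategoryTheory.Limits Opposite
open Crest.GeometryTopology.Coherator

universe u

namespace Paths

section

variable (C : GlobTheory.{u})

/-- an operation as a map between free models -/
noncomputable def frArr {S T : Shape} (f : C.arr S T) : (FrM C).obj S ⟶ (FrM C).obj T :=
  (yoneda.map (show (⟨S⟩ : C.Ob) ⟶ (⟨T⟩ : C.Ob) from f) :
    (GlobTheory.GlobModel.freeOn C S).functor ⟶ (GlobTheory.GlobModel.freeOn C T).functor)

theorem frArr_one (S : Shape) : frArr C (C.one S) = 𝟙 ((FrM C).obj S) := by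
  exact yoneda.map_id (⟨S⟩ : C.Ob)

theorem frArr_seq {S T U : Shape} (f : C.arr S T) (g : C.arr T U) :
    frArr C (C.seq f g) = frArr C f ≫ frArr C g := by
  exact yoneda.map_comp (show (⟨S⟩ : C.Ob) ⟶ (⟨T⟩ : C.Ob) from f)
    (show (⟨T⟩ : C.Ob) ⟶ (⟨U⟩ : C.Ob) from g)

theorem frArr_ofShape {S T : Shape} (f : S ⟶ T) : frArr C (C.ofShape f) = (FrM C).map f := rfl

end

section

variable {C : GlobTheory.{u}} (G : Shape ⥤ GlobTheory.GlobModel C) (ι₀ ι₁ : FrM C ⟶ G)

/-- arrows of the theory of cylinder maps -/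
def EArr (S T : Shape) : Type u :=
  { p : (G.obj S ⟶ G.obj T) × C.arr S T //
    ι₀.app S ≫ p.1 = frArr C p.2 ≫ ι₀.app T ∧ ι₁.app S ≫ p.1 = frArr C p.2 ≫ ι₁.app T }

theorem EArr.ext {S T : Shape} {p q : EArr G ι₀ ι₁ S T} (h1 : p.1.1 = q.1.1) (h2 : p.1.2 = q.1.2) :
    p = q := Subtype.ext (Prod.ext h1 h2)

/-- the pre-theory of cylinder maps -/
noncomputable def EPre : PreTheory.{u} where
  arr := EArr G ι₀ ι₁
  one S := ⟨(𝟙 _, C.one S), by
    constructor
    · change ι₀.app S ≫ 𝟙 _ = frArr C (C.one S) ≫ _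
      rw [frArr_one, Category.id_comp, Category.comp_id]
    · change ι₁.app S ≫ 𝟙 _ = frArr C (C.one S) ≫ _
      rw [frArr_one, Category.id_comp, Category.comp_id]⟩
  seq f g := ⟨(f.1.1 ≫ g.1.1, C.seq f.1.2 g.1.2), by
    constructor
    · change ι₀.app _ ≫ f.1.1 ≫ g.1.1 = frArr C (C.seq f.1.2 g.1.2) ≫ _
      rw [frArr_seq, Category.assoc, ← g.2.1, ← Category.assoc, f.2.1, Category.assoc]
    · change ι₁.app _ ≫ f.1.1 ≫ g.1.1 = frArr C (C.seq f.1.2 g.1.2) ≫ _
      rw [frArr_seq, Category.assoc, ← g.2.2, ← Category.assoc, f.2.2, Category.assoc]⟩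
  one_seq f := EArr.ext _ _ _ (Category.id_comp _) (C.one_seq _)
  seq_one f := EArr.ext _ _ _ (Category.comp_id _) (C.seq_one _)
  seq_assoc f g h := EArr.ext _ _ _ (Category.assoc _ _ _) (C.seq_assoc _ _ _)
  ofShape f := ⟨(G.map f, C.ofShape f), by
    constructor
    · change ι₀.app _ ≫ G.map f = frArr C (C.ofShape f) ≫ _
      rw [frArr_ofShape, ι₀.naturality]
    · change ι₁.app _ ≫ G.map f = frArr C (C.ofShape f) ≫ _
      rw [frArr_ofShape, ι₁.naturality]⟩
  ofShape_id S := EArr.ext _ _ _ (G.map_id S) (C.ofShape_id S)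
  ofShape_comp f g := EArr.ext _ _ _ (G.map_comp f g) (C.ofShape_comp f g)

theorem hom_ext_glue {M : Type*} [Category M] {G : Shape ⥤ M} (hG : Sums G) (S : Shape) (b h : ℕ)
    (hb : b < S.last) (hh : b < h) {X : M} {u v : G.obj (S.glue b h hb hh) ⟶ X}
    (h1 : G.map (S.inLeft b h hb hh) ≫ u = G.map (S.inLeft b h hb hh) ≫ v)
    (h2 : G.map (S.inRight b h hb hh) ≫ u = G.map (S.inRight b h hb hh) ≫ v) : u = v :=
  (hG S b h hb hh).hom_ext h1 h2

/-- elementary form of `RespectsSums`, existence -/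
theorem glue_exists (C : GlobTheory.{u}) (S T : Shape) (b h : ℕ) (hb : b < S.last) (hh : b < h)
    (f : C.arr S T) (g : C.arr (Shape.globe h) T)
    (e : C.seq (C.ofShape (S.hinge hb)) f = C.seq (C.ofShape (Shape.faceMap hh false)) g) :
    ∃ k : C.arr (S.glue b h hb hh) T, C.seq (C.ofShape (S.inLeft b h hb hh)) k = f ∧
      C.seq (C.ofShape (S.inRight b h hb hh)) k = g := by
  have hC := C.respectsSums S b h hb hh
  exact ⟨hC.desc (W := (⟨T⟩ : C.Ob)) f g e, hC.inl_desc (W := (⟨T⟩ : C.Ob)) f g e,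
    hC.inr_desc (W := (⟨T⟩ : C.Ob)) f g e⟩

/-- elementary form of `RespectsSums`, uniqueness -/
theorem glue_unique (C : GlobTheory.{u}) (S T : Shape) (b h : ℕ) (hb : b < S.last) (hh : b < h)
    (k k' : C.arr (S.glue b h hb hh) T)
    (h1 : C.seq (C.ofShape (S.inLeft b h hb hh)) k = C.seq (C.ofShape (S.inLeft b h hb hh)) k')
    (h2 : C.seq (C.ofShape (S.inRight b h hb hh)) k = C.seq (C.ofShape (S.inRight b h hb hh)) k') :
    k = k' := by
  have hC := C.respectsSums S b h hb hh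
  exact hC.hom_ext (W := (⟨T⟩ : C.Ob)) h1 h2

/-- elementary criterion for `RespectsSums` -/
theorem respectsSums_of (E : PreTheory.{u})
    (hw : ∀ (S : Shape) (b h : ℕ) (hb : b < S.last) (hh : b < h),
      E.seq (E.ofShape (S.hinge hb)) (E.ofShape (S.inLeft b h hb hh)) =
        E.seq (E.ofShape (Shape.faceMap hh false)) (E.ofShape (S.inRight b h hb hh)))
    (hex : ∀ (S T : Shape) (b h : ℕ) (hb : b < S.last) (hh : b < h)
      (f : E.arr S T) (g : E.arr (Shape.globe h) T),
      E.seq (E.ofShape (S.hinge hb)) f = E.seq (E.ofShape (Shape.faceMap hh false)) g →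
      ∃ k : E.arr (S.glue b h hb hh) T, E.seq (E.ofShape (S.inLeft b h hb hh)) k = f ∧
        E.seq (E.ofShape (S.inRight b h hb hh)) k = g)
    (hun : ∀ (S T : Shape) (b h : ℕ) (hb : b < S.last) (hh : b < h)
      (k k' : E.arr (S.glue b h hb hh) T),
      E.seq (E.ofShape (S.inLeft b h hb hh)) k = E.seq (E.ofShape (S.inLeft b h hb hh)) k' →
      E.seq (E.ofShape (S.inRight b h hb hh)) k = E.seq (E.ofShape (S.inRight b h hb hh)) k' →
      k = k') : E.RespectsSums := by
  intro S b h hb hh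
  have H : ∀ s : PushoutCocone (E.incl.map (S.hinge hb)) (E.incl.map (Shape.faceMap hh false)),
      ∃ k : E.incl.obj (S.glue b h hb hh) ⟶ s.pt, E.incl.map (S.inLeft b h hb hh) ≫ k = s.inl ∧
        E.incl.map (S.inRight b h hb hh) ≫ k = s.inr := by
    intro s
    exact hex S s.pt.shape b h hb hh s.inl s.inr s.condition
  refine ⟨⟨hw S b h hb hh⟩, ⟨PushoutCocone.IsColimit.mk _ (fun s => (H s).choose)
    (fun s => (H s).choose_spec.1) (fun s => (H s).choose_spec.2) ?_⟩⟩
  intro s m h1 h2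
  exact hun S s.pt.shape b h hb hh _ _ (h1.trans (H s).choose_spec.1.symm)
    (h2.trans (H s).choose_spec.2.symm)

theorem EPre_sums (hG : Sums G) : (EPre G ι₀ ι₁).RespectsSums := by
  have hF := sums_FrM C
  refine respectsSums_of _ ?_ ?_ ?_
  · intro S b h hb hh
    refine EArr.ext _ _ _ ?_ ?_
    · exact (hG S b h hb hh).w
    · exact (C.respectsSums S b h hb hh).w
  · intro S T b h hb hh f g e
    have e1 : G.map (S.hinge hb) ≫ f.1.1 = G.map (Shape.faceMap hh false) ≫ g.1.1 :=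
      congrArg (fun z : EArr G ι₀ ι₁ (Shape.globe b) T => z.1.1) e
    have e2 : C.seq (C.ofShape (S.hinge hb)) f.1.2 =
        C.seq (C.ofShape (Shape.faceMap hh false)) g.1.2 :=
      congrArg (fun z : EArr G ι₀ ι₁ (Shape.globe b) T => z.1.2) e
    obtain ⟨k, hk1, hk2⟩ := glue_exists C S T b h hb hh f.1.2 g.1.2 e2
    have key : ∀ ι : FrM C ⟶ G, (ι.app S ≫ f.1.1 = frArr C f.1.2 ≫ ι.app T) →
        (ι.app _ ≫ g.1.1 = frArr C g.1.2 ≫ ι.app T) →
        ι.app (S.glue b h hb hh) ≫ (hG S b h hb hh).desc _ _ e1 = frArr C k ≫ ι.app T := by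
      intro ι h1 h2
      refine hom_ext_glue hF S b h hb hh ?_ ?_
      · rw [← Category.assoc, ← Category.assoc, ι.naturality, ← frArr_ofShape, ← frArr_seq, hk1,
          Category.assoc, (hG S b h hb hh).inl_desc _ _ e1, h1]
      · rw [← Category.assoc, ← Category.assoc, ι.naturality, ← frArr_ofShape, ← frArr_seq, hk2,
          Category.assoc, (hG S b h hb hh).inr_desc _ _ e1, h2]
    exact ⟨⟨((hG S b h hb hh).desc _ _ e1, k), key ι₀ f.2.1 g.2.1, key ι₁ f.2.2 g.2.2⟩,
      EArr.ext _ _ _ ((hG S b h hb hh).inl_desc _ _ _) hk1,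
      EArr.ext _ _ _ ((hG S b h hb hh).inr_desc _ _ _) hk2⟩
  · intro S T b h hb hh k k' h1 h2
    refine EArr.ext _ _ _ ?_ ?_
    · exact (hG S b h hb hh).hom_ext
        (congrArg (fun z : EArr G ι₀ ι₁ S T => z.1.1) h1)
        (congrArg (fun z : EArr G ι₀ ι₁ (Shape.globe h) T => z.1.1) h2)
    · exact glue_unique C S T b h hb hh _ _
        (congrArg (fun z : EArr G ι₀ ι₁ S T => z.1.2) h1)
        (congrArg (fun z : EArr G ι₀ ι₁ (Shape.globe h) T => z.1.2) h2)

/-- the theory of cylinder maps -/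
noncomputable def ETh (hG : Sums G) : GlobTheory.{u} where
  toPreTheory := EPre G ι₀ ι₁
  respectsSums := EPre_sums G ι₀ ι₁ hG

/-- the projection to `C` -/
noncomputable def proj (hG : Sums G) : GlobTheory.TheoryMap (ETh G ι₀ ι₁ hG) C where
  map f := f.1.2
  map_one _ := rfl
  map_seq _ _ := rfl
  map_ofShape _ := rfl

theorem bd_ext_zero {M : Type*} [Category M] [HasPushouts M] [HasInitial M] (G : Shape ⥤ M) {X : M}
    (u v : glob G 0 ⟶ X) : bdι G 0 ≫ u = bdι G 0 ≫ v := (bdInit G).hom_ext _ _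

theorem bd_ext_succ {M : Type*} [Category M] [HasPushouts M] [HasInitial M] (G : Shape ⥤ M) {X : M}
    (j : ℕ) (u v : glob G (j + 1) ⟶ X) (hs : sg G j ≫ u = sg G j ≫ v)
    (ht : tg G j ≫ u = tg G j ≫ v) : bdι G (j + 1) ≫ u = bdι G (j + 1) ≫ v := by
  refine (bd_sq G j).hom_ext ?_ ?_
  · rw [← Category.assoc, ← Category.assoc, bdInl_bdι, hs]
  · rw [← Category.assoc, ← Category.assoc, bdInr_bdι, ht]

theorem lift (hG : Sums G) (hL : Lifts (FrM C) G ι₀ ι₁) (p : (ETh G ι₀ ι₁ hG).Admissible)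
    (z : C.arr (Shape.globe (p.n + 1)) p.shape)
    (hz : GlobTheory.IsFillerAlong (proj G ι₀ ι₁ hG) p z) :
    ∃ z' : (ETh G ι₀ ι₁ hG).arr (Shape.globe (p.n + 1)) p.shape,
      GlobTheory.IsFillerAlong (GlobTheory.TheoryMap.id _) p z' ∧ (proj G ι₀ ι₁ hG).map z' = z := by
  obtain ⟨n, S, hdim, lo, up, hpar⟩ := p
  obtain ⟨⟨Φ, f⟩, hf0, hf1⟩ := lo
  obtain ⟨⟨Ψ, g⟩, hg0, hg1⟩ := up
  obtain ⟨hz0, hz1⟩ := hz
  change C.arr (Shape.globe (n + 1)) S at z
  change C.seq (C.ofShape (Shape.σ n)) z = f at hz0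
  change C.seq (C.ofShape (Shape.τ n)) z = g at hz1
  dsimp only at hf0 hf1 hg0 hg1
  have hpar' : bdι G n ≫ Φ = bdι G n ≫ Ψ ∧
      bdι (FrM C) n ≫ frArr C f = bdι (FrM C) n ≫ frArr C g := by
    cases n with
    | zero => exact ⟨bd_ext_zero _ _ _, bd_ext_zero _ _ _⟩
    | succ n =>
      obtain ⟨h1, h2⟩ := hpar
      constructor
      · refine bd_ext_succ G n _ _ ?_ ?_
        · exact congrArg (fun z : EArr G ι₀ ι₁ (Shape.globe n) S => z.1.1) h1
        · exact congrArg (fun z : EArr G ι₀ ι₁ (Shape.globe n) S => z.1.1) h2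
      · refine bd_ext_succ (FrM C) n _ _ ?_ ?_
        · have := congrArg (fun z : EArr G ι₀ ι₁ (Shape.globe n) S => frArr C z.1.2) h1
          change frArr C (C.seq (C.ofShape (Shape.σ n)) f) =
            frArr C (C.seq (C.ofShape (Shape.σ n)) g) at this
          rwa [frArr_seq, frArr_seq] at this
        · have := congrArg (fun z : EArr G ι₀ ι₁ (Shape.globe n) S => frArr C z.1.2) h2
          change frArr C (C.seq (C.ofShape (Shape.τ n)) f) =
            frArr C (C.seq (C.ofShape (Shape.τ n)) g) at this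
          rwa [frArr_seq, frArr_seq] at this
  obtain ⟨R, hR0, hR1, hR2, hR3⟩ := hL n S hdim Φ Ψ (frArr C f) (frArr C g) hf0 hf1 hg0 hg1
    hpar'.1 hpar'.2 (frArr C z) (by rw [← hz0, frArr_seq]; rfl) (by rw [← hz1, frArr_seq]; rfl)
  refine ⟨⟨(R, z), hR2, hR3⟩, ⟨?_, ?_⟩, rfl⟩
  · exact EArr.ext _ _ _ hR0 hz0
  · exact EArr.ext _ _ _ hR1 hz1

section Section

variable {G ι₀ ι₁}
variable {hG : Sums G} (s : GlobTheory.TheoryMap C (ETh G ι₀ ι₁ hG))
  (hs : s.comp (proj G ι₀ ι₁ hG) = GlobTheory.TheoryMap.id C)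

/-- the operation on cylinders attached to an operation -/
def cyl {S T : Shape} (f : C.arr S T) : G.obj S ⟶ G.obj T := (s.map f).1.1

theorem cyl_one (S : Shape) : cyl s (C.one S) = 𝟙 (G.obj S) := by
  unfold cyl
  rw [s.map_one]
  rfl

theorem cyl_seq {S T U : Shape} (f : C.arr S T) (g : C.arr T U) :
    cyl s (C.seq f g) = cyl s f ≫ cyl s g := by
  unfold cyl
  rw [s.map_seq]
  rfl

theorem cyl_ofShape {S T : Shape} (f : S ⟶ T) : cyl s (C.ofShape f) = G.map f := by
  unfold cyl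
  rw [s.map_ofShape]
  rfl

include hs in
theorem cyl_snd {S T : Shape} (f : C.arr S T) : (s.map f).1.2 = f := by
  have := congrArg (fun F : GlobTheory.TheoryMap C C => F.map f) hs
  exact this

include hs in
theorem cyl_ι₀ {S T : Shape} (f : C.arr S T) : ι₀.app S ≫ cyl s f = frArr C f ≫ ι₀.app T := by
  have := (s.map f).2.1
  rw [cyl_snd s hs] at this
  exact this

include hs in
theorem cyl_ι₁ {S T : Shape} (f : C.arr S T) : ι₁.app S ≫ cyl s f = frArr C f ≫ ι₁.app T := by
  have := (s.map f).2.2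
  rw [cyl_snd s hs] at this
  exact this

/-- the functor on `C` of cylinders -/
noncomputable def cylF : C.Ob ⥤ GlobTheory.GlobModel C where
  obj S := G.obj S.shape
  map {S T} f := cyl s (show C.arr S.shape T.shape from f)
  map_id S := cyl_one s S.shape
  map_comp _ _ := cyl_seq s _ _

theorem cylF_incl {S T : Shape} (f : S ⟶ T) :
    (cylF s).map (C.incl.map f) = G.map f := cyl_ofShape s f

/-- the path object -/
noncomputable def pathObj (X : GlobTheory.GlobModel C) : GlobTheory.GlobModel C where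
  functor := (cylF s).op ⋙ yoneda.obj X
  sums S b h hb hh := by
    have := ((hG S b h hb hh).op.map (yoneda.obj X)).flip
    rw [← cylF_incl s, ← cylF_incl s, ← cylF_incl s, ← cylF_incl s] at this
    exact this

/-- the path functor -/
noncomputable def pathF : GlobTheory.GlobModel C ⥤ GlobTheory.GlobModel C where
  obj X := pathObj s X
  map {X Y} f := (Functor.whiskerLeft (cylF s).op (yoneda.map f) :
    (pathObj s X).functor ⟶ (pathObj s Y).functor)
  map_id X := by
    change Functor.whiskerLeft (cylF s).op (yoneda.map (𝟙 X)) = 𝟙 _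
    rw [yoneda.map_id]
    rfl
  map_comp f g := by
    change Functor.whiskerLeft (cylF s).op (yoneda.map (f ≫ g)) =
      Functor.whiskerLeft (cylF s).op (yoneda.map f) ≫ Functor.whiskerLeft (cylF s).op (yoneda.map g)
    rw [yoneda.map_comp]
    rfl

/-- Yoneda -/
noncomputable def yo (S : Shape) (X : GlobTheory.GlobModel C) :
    ((FrM C).obj S ⟶ X) ≃ X.functor.obj (op (⟨S⟩ : C.Ob)) :=
  yonedaEquiv (X := (⟨S⟩ : C.Ob)) (F := X.functor)

theorem yo_left {S T : Shape} (f : C.arr S T) {X : GlobTheory.GlobModel C}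
    (g : (FrM C).obj T ⟶ X) :
    yo S X (frArr C f ≫ g) = X.functor.map (Quiver.Hom.op
      (show (⟨S⟩ : C.Ob) ⟶ (⟨T⟩ : C.Ob) from f)) (yo T X g) := by
  exact (yonedaEquiv_naturality (F := X.functor) g
    (show (⟨S⟩ : C.Ob) ⟶ (⟨T⟩ : C.Ob) from f)).symm

theorem yo_right {S : Shape} {X Y : GlobTheory.GlobModel C}
    (g : (FrM C).obj S ⟶ X) (h : X ⟶ Y) :
    yo S Y (g ≫ h) = (show X.functor ⟶ Y.functor from h).app (op (⟨S⟩ : C.Ob)) (yo S X g) := by
  exact yonedaEquiv_comp (F := X.functor) (G := Y.functor) g h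

/-- an end of the path object -/
noncomputable def ev (ι : FrM C ⟶ G)
    (hι : ∀ {S T : Shape} (f : C.arr S T), ι.app S ≫ cyl s f = frArr C f ≫ ι.app T)
    (X : GlobTheory.GlobModel C) : pathObj s X ⟶ X :=
  ({ app := fun S => TypeCat.ofHom (fun φ => yo S.unop.shape X (ι.app S.unop.shape ≫ φ))
     naturality := by
      intro S T f
      ext φ
      change G.obj S.unop.shape ⟶ X at φ
      change yo T.unop.shape X (ι.app T.unop.shape ≫ (cyl s f.unop ≫ φ)) =
        X.functor.map f (yo S.unop.shape X (ι.app S.unop.shape ≫ φ))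
      rw [← Category.assoc, hι, Category.assoc]
      exact yo_left _ _ } : (pathObj s X).functor ⟶ X.functor)

theorem ev_apply (ι : FrM C ⟶ G)
    (hι : ∀ {S T : Shape} (f : C.arr S T), ι.app S ≫ cyl s f = frArr C f ≫ ι.app T)
    (X : GlobTheory.GlobModel C) (S : Shape) (φ : G.obj S ⟶ X) :
    (show (pathObj s X).functor ⟶ X.functor from ev s ι hι X).app (op (⟨S⟩ : C.Ob)) φ =
      yo S X (ι.app S ≫ φ) := rfl

/-- the end as a natural transformation -/
noncomputable def evN (ι : FrM C ⟶ G)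
    (hι : ∀ {S T : Shape} (f : C.arr S T), ι.app S ≫ cyl s f = frArr C f ≫ ι.app T) :
    pathF s ⟶ 𝟭 (GlobTheory.GlobModel C) where
  app X := ev s ι hι X
  naturality := by
    intro X Y h
    refine NatTrans.ext (funext fun S => ?_)
    ext φ
    change G.obj S.unop.shape ⟶ X at φ
    change yo S.unop.shape Y (ι.app S.unop.shape ≫ (φ ≫ h)) =
      (show X.functor ⟶ Y.functor from h).app _ (yo S.unop.shape X (ι.app S.unop.shape ≫ φ))
    rw [← Category.assoc]
    exact yo_right _ _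

include hs in
/-- the path functor -/
theorem pathFun : Nonempty (PathFun (FrM C) G ι₀ ι₁) := by
  refine ⟨{ P := pathF s, e := fun S X => yo S (pathObj s X), e_left := ?_, e_right := ?_,
            ev₀ := evN s ι₀ (fun f => cyl_ι₀ s hs f), ev₁ := evN s ι₁ (fun f => cyl_ι₁ s hs f),
            e_ev₀ := ?_, e_ev₁ := ?_ }⟩
  · intro S T f X g
    have := yo_left (C.ofShape f) (X := pathObj s X) g
    refine this.trans ?_
    change cyl s (C.ofShape f) ≫ _ = _
    rw [cyl_ofShape]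
    rfl
  · intro S X Y g h
    exact yo_right (Y := pathObj s Y) g ((pathF s).map h)
  · intro S X g
    apply (yo S X).injective
    refine (yo_right g (ev s ι₀ (fun f => cyl_ι₀ s hs f) X)).trans ?_
    exact ev_apply s ι₀ _ X S _
  · intro S X g
    apply (yo S X).injective
    refine (yo_right g (ev s ι₁ (fun f => cyl_ι₁ s hs f) X)).trans ?_
    exact ev_apply s ι₁ _ X S _

end Section

end

end Paths

theorem hasPaths_FrM (C : GlobTheory.{u}) (hC : C.IsCoheratorTheory) : HasPaths (FrM C) := by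
  intro G hG ι₀ ι₁ hL
  obtain ⟨s, hs⟩ := exists_section hC.1 (Paths.proj G ι₀ ι₁ hG)
    (Paths.lift G ι₀ ι₁ hG hL)
  exact Paths.pathFun s hs

end Crest.Agent.R248
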