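import Crest.Agent.R248.Main
import Crest.Agent.R248.Paths
import Crest.Agent.R248.Lift

/-! TASK Final: from `abstract_main` to the statement of S0382. -/

set_option autoImplicit false

namespace Crest.Agent.R248

open CategoryTheory CategoryTheory.Limits Opposite
open Crest.GeometryTopology.Coherator
open Crest.GeometryTopology.Coherator.GlobTheory
open Crest.GeometryTopology.Coherator.GlobTheory.GlobModel

universe u

section

variable {C : GlobTheory.{u}}

/-- the cell named by a map out of the free model on a globe -/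
noncomputable def gcell {X : C.GlobModel} {n : ℕ} (a : glob (FrM C) n ⟶ X) : X.cells.cell n :=
  diskCell (a : diskModel C n ⟶ X)

/-- the map out of the free model on a globe naming a cell -/
noncomputable def gmap {X : C.GlobModel} {n : ℕ} (x : X.cells.cell n) : glob (FrM C) n ⟶ X :=
  (diskMap x : diskModel C n ⟶ X)

theorem gcell_gmap {X : C.GlobModel} {n : ℕ} (x : X.cells.cell n) : gcell (gmap x) = x :=
  diskCell_diskMap x

theorem gcell_injective {X : C.GlobModel} {n : ℕ} {a b : glob (FrM C) n ⟶ X}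
    (h : gcell a = gcell b) : a = b := diskCell_injective h

theorem gcell_comp {X Y : C.GlobModel} {n : ℕ} (a : glob (FrM C) n ⟶ X) (f : X ⟶ Y) :
    gcell (a ≫ f) = (cellsMap f).app n (gcell a) := diskCell_comp _ _

theorem src_gcell {X : C.GlobModel} {n : ℕ} (b : glob (FrM C) (n + 1) ⟶ X) :
    X.cells.src n (gcell b) = gcell (sg (FrM C) n ≫ b) :=
  src_diskCell (b : diskModel C (n + 1) ⟶ X)

theorem tgt_gcell {X : C.GlobModel} {n : ℕ} (b : glob (FrM C) (n + 1) ⟶ X) :
    X.cells.tgt n (gcell b) = gcell (tg (FrM C) n ≫ b) :=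
  yonedaEquiv_naturality (b : (diskModel C (n + 1)).functor ⟶ X.functor)
    (C.incl.map (Shape.τ n))

/-- maps out of the boundary of a disk agree if the cells are parallel -/
theorem bdι_eq_of_areParallel {X : C.GlobModel} {n : ℕ} (u v : glob (FrM C) n ⟶ X)
    (h : X.cells.AreParallel n (gcell u) (gcell v)) :
    bdι (FrM C) n ≫ u = bdι (FrM C) n ≫ v := by
  cases n with
  | zero => exact (bdInit (FrM C)).hom_ext _ _
  | succ n =>
    obtain ⟨hs, ht⟩ := h
    rw [src_gcell, src_gcell] at hs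
    rw [tgt_gcell, tgt_gcell] at ht
    exact bdι_succ_ext (gcell_injective hs) (gcell_injective ht)

/-- A sphere gives a map out of the boundary. -/
theorem exists_sphereMap {X : C.GlobModel} {n : ℕ} (s : X.cells.Sphere n) :
    ∃ g : bd (FrM C) n ⟶ X, ∀ {Y : C.GlobModel} (p : X ⟶ Y) (y : glob (FrM C) n ⟶ Y),
      (bdι (FrM C) n ≫ y = g ≫ p) ↔
        Y.cells.bdry n (gcell y) = (cellsMap p).sphere n s := by
  cases n with
  | zero =>
    refine ⟨(bdInit (FrM C)).to X, ?_⟩
    intro Y p y
    exact ⟨fun _ => rfl, fun _ => (bdInit (FrM C)).hom_ext _ _⟩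
  | succ n =>
    obtain ⟨⟨x, y⟩, hxy⟩ := s
    have hpar : bdι (FrM C) n ≫ gmap x = bdι (FrM C) n ≫ gmap y := by
      apply bdι_eq_of_areParallel
      rw [gcell_gmap, gcell_gmap]
      exact hxy
    refine ⟨(bd_sq (FrM C) n).desc (gmap x) (gmap y) hpar, ?_⟩
    intro Y p z
    constructor
    · intro hz
      have h1 : sg (FrM C) n ≫ z = gmap x ≫ p := by
        rw [← bdInl_bdι, Category.assoc, hz, ← Category.assoc, (bd_sq (FrM C) n).inl_desc]
      have h2 : tg (FrM C) n ≫ z = gmap y ≫ p := by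
        rw [← bdInr_bdι, Category.assoc, hz, ← Category.assoc, (bd_sq (FrM C) n).inr_desc]
      apply Subtype.ext
      apply Prod.ext
      · show Y.cells.src n (gcell z) = (cellsMap p).app n x
        rw [src_gcell, h1, gcell_comp, gcell_gmap]
      · show Y.cells.tgt n (gcell z) = (cellsMap p).app n y
        rw [tgt_gcell, h2, gcell_comp, gcell_gmap]
    · intro hz
      have h1 : Y.cells.src n (gcell z) = (cellsMap p).app n x :=
        congrArg (fun t => t.1.1) hz
      have h2 : Y.cells.tgt n (gcell z) = (cellsMap p).app n y :=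
        congrArg (fun t => t.1.2) hz
      rw [src_gcell] at h1
      rw [tgt_gcell] at h2
      apply (bd_sq (FrM C) n).hom_ext
      · rw [← Category.assoc, bdInl_bdι, ← Category.assoc, (bd_sq (FrM C) n).inl_desc]
        apply gcell_injective
        rw [h1, gcell_comp, gcell_gmap]
      · rw [← Category.assoc, bdInr_bdι, ← Category.assoc, (bd_sq (FrM C) n).inr_desc]
        apply gcell_injective
        rw [h2, gcell_comp, gcell_gmap]

theorem cellLift_of_rlp {P X : C.GlobModel} (p : P ⟶ X) (hp : (GenCof (FrM C) ⊤).rlp p) :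
    CellLift p := by
  intro n s x hx
  obtain ⟨g, hg⟩ := exists_sphereMap s
  have hsq : g ≫ p = bdι (FrM C) n ≫ gmap x := by
    refine ((hg p (gmap x)).2 ?_).symm
    rw [gcell_gmap, hx]
  have hl : HasLiftingProperty (bdι (FrM C) n) p := hp _ (GenCof.mk n le_top)
  obtain ⟨⟨l⟩⟩ := hl.sq_hasLift ⟨hsq⟩
  refine ⟨gcell l.l, ?_, ?_⟩
  · have h1 : bdι (FrM C) n ≫ l.l = g ≫ 𝟙 P := by rw [l.fac_left, Category.comp_id]
    have h2 := (hg (𝟙 P) l.l).1 h1
    rw [h2]
    cases n with
    | zero => rfl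
    | succ n => rfl
  · rw [← gcell_comp, l.fac_right, gcell_gmap]

/-- cellular models are cofibrant -/
theorem cofibrant_of_cellular (C : GlobTheory.{u}) (_hC : C.IsCoheratorTheory)
    (X : C.GlobModel) (hX : X.IsCellularModel) : Cofibrant (FrM C) ⊤ X := by
  intro P Z p hp
  have hcl := cellLift_of_rlp p hp
  obtain ⟨c⟩ := hX
  let _ := c.linOrd
  let _ := c.bot
  let _ := c.succ
  have _ := c.wf
  have hl : HasLiftingProperty (c.chain.incl.app ⊥) p :=
    HasLiftingProperty.transfiniteComposition.hasLiftingProperty_ι_app_bot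
      (hc := c.chain.isColimit)
      (fun j hj => hasLiftingProperty_of_isAttaching (c.attach j hj) p hcl)
  have hini : IsInitial (c.chain.F.obj ⊥) := c.startIsInitial.ofIso c.chain.isoBot.symm
  have e : initial.to X = (initialIsInitial.uniqueUpToIso hini).hom ≫ c.chain.incl.app ⊥ :=
    initialIsInitial.hom_ext _ _
  rw [e]
  infer_instance

/-- the unit operation as a map of free models -/
noncomputable def unitMap (e : C.UnitChoice) (n : ℕ) : glob (FrM C) (n + 1) ⟶ glob (FrM C) n :=
  (yoneda.map (X := (⟨Shape.globe (n + 1)⟩ : C.Ob)) (Y := (⟨Shape.globe n⟩ : C.Ob)) (e.unit n) :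
      (diskModel C (n + 1)).functor ⟶ (diskModel C n).functor)

theorem sg_unitMap (e : C.UnitChoice) (n : ℕ) : sg (FrM C) n ≫ unitMap e n = 𝟙 _ := by
  refine (yoneda.map_comp (X := (⟨Shape.globe n⟩ : C.Ob)) (Y := (⟨Shape.globe (n + 1)⟩ : C.Ob))
      (Z := (⟨Shape.globe n⟩ : C.Ob)) (C.ofShape (Shape.σ n)) (e.unit n)).symm.trans ?_
  exact (congrArg (yoneda.map (X := (⟨Shape.globe n⟩ : C.Ob)) (Y := (⟨Shape.globe n⟩ : C.Ob)))
      (e.src_unit n)).trans (yoneda.map_id _)

theorem tg_unitMap (e : C.UnitChoice) (n : ℕ) : tg (FrM C) n ≫ unitMap e n = 𝟙 _ := by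
  refine (yoneda.map_comp (X := (⟨Shape.globe n⟩ : C.Ob)) (Y := (⟨Shape.globe (n + 1)⟩ : C.Ob))
      (Z := (⟨Shape.globe n⟩ : C.Ob)) (C.ofShape (Shape.τ n)) (e.unit n)).symm.trans ?_
  exact (congrArg (yoneda.map (X := (⟨Shape.globe n⟩ : C.Ob)) (Y := (⟨Shape.globe n⟩ : C.Ob)))
      (e.tgt_unit n)).trans (yoneda.map_id _)

theorem gcell_unitMap (e : C.UnitChoice) {X : C.GlobModel} (n : ℕ) (a : glob (FrM C) n ⟶ X) :
    gcell (unitMap e n ≫ a) = X.unitCell e n (gcell a) :=
  (yonedaEquiv_naturality (X := (⟨Shape.globe n⟩ : C.Ob))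
      (Y := (⟨Shape.globe (n + 1)⟩ : C.Ob)) (F := X.functor)
      (a : (diskModel C n).functor ⟶ X.functor) (e.unit n)).symm

end

theorem final (C : GlobTheory.{u}) (hC : C.IsCoheratorTheory) (e : C.UnitChoice)
    (X : C.GlobModel) (hX : X.IsCellularModel) (n : ℕ)
    (a : GlobTheory.GlobModel.diskModel C n ⟶ X)
    (Y : C.GlobModel) (i : X ⟶ Y) (b : GlobTheory.GlobModel.diskModel C (n + 1) ⟶ Y)
    (sq : IsPushout a (GlobTheory.GlobModel.sourceIncl C n) i b) :
    GlobTheory.GlobModel.IsWeakEquiv e i := by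
  obtain ⟨r, hr, hrb⟩ := exists_retraction e sq
  apply isWeakEquiv_of_retraction e i r hr
  intro k u v huv h
  have hS := setting_FrM C hC
  have hp := hasPaths_FrM C hC
  have hcof := cofibrant_of_cellular C hC X hX
  let b' : glob (FrM C) (n + 1) ⟶ Y := b
  let a' : glob (FrM C) n ⟶ X := a
  have hrb' : b' ≫ r = unitMap e n ≫ a' := by
    apply gcell_injective
    rw [gcell_comp, gcell_unitMap]
    exact hrb
  obtain ⟨w, hw1, hw2⟩ := abstract_strong hS hp n hcof a' i b' sq (unitMap e n) (sg_unitMap e n)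
    (tg_unitMap e n) r hr hrb' k (gmap u) (gmap v)
    (by
      apply bdι_eq_of_areParallel
      rw [gcell_gmap, gcell_gmap]
      exact huv)
    (by
      apply gcell_injective
      rw [gcell_comp, gcell_comp, gcell_gmap, gcell_gmap, h])
  refine ⟨gcell w, ?_, ?_⟩
  · rw [src_gcell, hw1, gcell_gmap]
  · rw [tgt_gcell, hw2, gcell_gmap]

end Crest.Agent.R248
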