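import Crest.Agent.R248.Colim

/-! TASK Free: the free model functor `Shape ⥤ GlobModel C` and the coherator axiom for it. -/

set_option autoImplicit false

namespace Crest.Agent.R248

open CategoryTheory CategoryTheory.Limits Opposite
open Crest.GeometryTopology.Coherator

universe u

/-- the free model functor on shapes -/
noncomputable def FrM (C : GlobTheory.{u}) : Shape ⥤ GlobTheory.GlobModel C where
  obj S := GlobTheory.GlobModel.freeOn C S
  map f := (yoneda.map (C.incl.map f) :
    (GlobTheory.GlobModel.freeOn C _).functor ⟶ (GlobTheory.GlobModel.freeOn C _).functor)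
  map_id S := by
    exact (congrArg yoneda.map (C.incl.map_id S)).trans (yoneda.map_id (⟨S⟩ : C.Ob))
  map_comp f g := by
    exact (congrArg yoneda.map (C.incl.map_comp f g)).trans (yoneda.map_comp _ _)

theorem sourceIncl_eq (C : GlobTheory.{u}) (n : ℕ) :
    GlobTheory.GlobModel.sourceIncl C n = sg (FrM C) n := rfl

/-- Yoneda: maps out of the free model on `S` are `S`-tuples. -/
noncomputable def ev (C : GlobTheory.{u}) (S : Shape) (X : GlobTheory.GlobModel C) :
    ((FrM C).obj S ⟶ X) ≃ X.functor.obj (op (C.incl.obj S)) :=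
  yonedaEquiv (X := (C.incl.obj S : C.Ob)) (F := X.functor)

/-- naturality of `ev` in the shape -/
theorem ev_map (C : GlobTheory.{u}) {S T : Shape} (f : S ⟶ T) (X : GlobTheory.GlobModel C)
    (g : (FrM C).obj T ⟶ X) :
    ev C S X ((FrM C).map f ≫ g) = X.functor.map (C.incl.map f).op (ev C T X g) :=
  (yonedaEquiv_naturality (X := (C.incl.obj T : C.Ob)) (Y := (C.incl.obj S : C.Ob)) (F := X.functor)
    (g : yoneda.obj (C.incl.obj T : C.Ob) ⟶ X.functor) (C.incl.map f)).symm

/-- naturality of `ev` in the model -/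
theorem ev_comp (C : GlobTheory.{u}) {S : Shape} {X Y : GlobTheory.GlobModel C}
    (g : (FrM C).obj S ⟶ X) (h : X ⟶ Y) :
    ev C S Y (g ≫ h) =
      (NatTrans.app (h : X.functor ⟶ Y.functor) (op (C.incl.obj S))) (ev C S X g) :=
  rfl

theorem ev_symm_map (C : GlobTheory.{u}) {S T : Shape} (f : S ⟶ T) (X : GlobTheory.GlobModel C)
    (x : X.functor.obj (op (C.incl.obj T))) :
    (FrM C).map f ≫ (ev C T X).symm x = (ev C S X).symm (X.functor.map (C.incl.map f).op x) := by
  apply (ev C S X).injective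
  rw [ev_map, Equiv.apply_symm_apply, Equiv.apply_symm_apply]

theorem sums_FrM (C : GlobTheory.{u}) : Sums (FrM C) := by
  intro S b h hb hh
  have comm : S.hinge hb ≫ S.inLeft b h hb hh = Shape.faceMap hh false ≫ S.inRight b h hb hh :=
    pushout.condition (f := GlobPsh.globeRepFace hb true ≫ S.apex)
      (g := GlobPsh.globeRepFace hh false)
  have key : ∀ (X : GlobTheory.GlobModel C) (x : (FrM C).obj S ⟶ X)
      (y : (FrM C).obj (Shape.globe h) ⟶ X),
      (FrM C).map (S.hinge hb) ≫ x = (FrM C).map (Shape.faceMap hh false) ≫ y →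
      ∃ z : (FrM C).obj (S.glue b h hb hh) ⟶ X,
        (FrM C).map (S.inLeft b h hb hh) ≫ z = x ∧ (FrM C).map (S.inRight b h hb hh) ≫ z = y := by
    intro X x y hxy
    have h1 := congrArg (ev C _ X) hxy
    rw [ev_map, ev_map] at h1
    obtain ⟨z, hz1, hz2⟩ := Types.exists_of_isPullback (X.sums S b h hb hh) _ _ h1
    refine ⟨(ev C _ X).symm z, ?_, ?_⟩
    · rw [ev_symm_map, hz1, Equiv.symm_apply_apply]
    · rw [ev_symm_map, hz2, Equiv.symm_apply_apply]
  have uniq : ∀ (X : GlobTheory.GlobModel C) (z z' : (FrM C).obj (S.glue b h hb hh) ⟶ X),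
      (FrM C).map (S.inLeft b h hb hh) ≫ z = (FrM C).map (S.inLeft b h hb hh) ≫ z' →
      (FrM C).map (S.inRight b h hb hh) ≫ z = (FrM C).map (S.inRight b h hb hh) ≫ z' → z = z' := by
    intro X z z' h1 h2
    apply (ev C _ X).injective
    apply Types.ext_of_isPullback (X.sums S b h hb hh)
    · rw [← ev_map, ← ev_map, h1]
    · rw [← ev_map, ← ev_map, h2]
  refine ⟨⟨?_⟩, ⟨PushoutCocone.IsColimit.mk _ (fun s => (key s.pt s.inl s.inr s.condition).choose)
    (fun s => (key s.pt s.inl s.inr s.condition).choose_spec.1)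
    (fun s => (key s.pt s.inl s.inr s.condition).choose_spec.2) ?_⟩⟩
  · rw [← (FrM C).map_comp, ← (FrM C).map_comp, comm]
  · intro s m h1 h2
    apply uniq
    · rw [h1]; exact (key s.pt s.inl s.inr s.condition).choose_spec.1.symm
    · rw [h2]; exact (key s.pt s.inl s.inr s.condition).choose_spec.2.symm

/-- the coherator axiom: `FrM C` is a `Setting` -/
theorem setting_FrM (C : GlobTheory.{u}) (hC : C.IsCoheratorTheory) : Setting (FrM C) := by
  refine ⟨sums_FrM C, ?_⟩
  intro j S hS u v huv
  have hpar : C.OpsParallel j (ev C _ _ u) (ev C _ _ v) := by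
    cases j with
    | zero => trivial
    | succ j =>
      have hs : sg (FrM C) j ≫ u = sg (FrM C) j ≫ v := by
        rw [← bdInl_bdι, Category.assoc, Category.assoc, huv]
      have ht : tg (FrM C) j ≫ u = tg (FrM C) j ≫ v := by
        rw [← bdInr_bdι, Category.assoc, Category.assoc, huv]
      have hs' := congrArg (ev C _ _) hs
      have ht' := congrArg (ev C _ _) ht
      rw [ev_map, ev_map] at hs' ht'
      exact ⟨hs', ht'⟩
  obtain ⟨z, hz1, hz2⟩ := hC.2 ⟨j, S, hS, ev C _ _ u, ev C _ _ v, hpar⟩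
  let z' : ((FrM C).obj S).functor.obj (op (C.incl.obj (Shape.globe (j + 1)))) := z
  have h1 : ((FrM C).obj S).functor.map (C.incl.map (Shape.σ j)).op z' = ev C _ _ u := hz1
  have h2 : ((FrM C).obj S).functor.map (C.incl.map (Shape.τ j)).op z' = ev C _ _ v := hz2
  refine ⟨(ev C (Shape.globe (j + 1)) ((FrM C).obj S)).symm z', ?_, ?_⟩
  · rw [sg, ev_symm_map, h1, Equiv.symm_apply_apply]
  · rw [tg, ev_symm_map, h2, Equiv.symm_apply_apply]

end Crest.Agent.R248
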