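import Crest.Agent.R248.TopFun

/-! TASK Main: `PO k m` for all `m ≤ k` and the abstract main theorem. -/

set_option autoImplicit false

namespace Crest.Agent.R248

open CategoryTheory CategoryTheory.Limits Opposite
open Crest.GeometryTopology.Coherator

universe v w

variable {M : Type w} [Category.{v} M] [HasColimitsOfSize.{v, v} M] [HasPushouts M] [HasInitial M]
  [HasEqualizers M] {Fr : Shape ⥤ M}

omit [HasColimitsOfSize.{v, v} M] [HasEqualizers M] in
/-- parallel cells of the path object correspond to parallel "cylinders" -/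
theorem PathOn.parallel {C : CylSeq Fr} (T : PathOn C) {j : ℕ} {X : M}
    {g h : glob Fr j ⟶ T.P.obj X} (hgh : bdι Fr j ≫ g = bdι Fr j ≫ h) :
    C.δ j ≫ T.e j X g = C.δ j ≫ T.e j X h := by
  cases j with
  | zero => exact C.init.hom_ext _ _
  | succ j =>
    apply (C.sq j).hom_ext
    · rw [← Category.assoc, ← Category.assoc]
      have h1 : sg Fr j ≫ g = sg Fr j ≫ h := by
        rw [← bdInl_bdι, Category.assoc, Category.assoc, hgh]
      have h2 := T.e_s (X := X) g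
      have h3 := T.e_s (X := X) h
      unfold CylSeq.s at h2 h3
      rw [← h2, ← h3, h1]
    · rw [← Category.assoc, ← Category.assoc]
      have h1 : tg Fr j ≫ g = tg Fr j ≫ h := by
        rw [← bdInr_bdι, Category.assoc, Category.assoc, hgh]
      have h2 := T.e_t (X := X) g
      have h3 := T.e_t (X := X) h
      unfold CylSeq.t at h2 h3
      rw [← h2, ← h3, h1]

/-- transport of `Step` along a deformation: if `Θ : Y ⟶ P Z`, then parallel cells of `Y` whose `ev₁`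
ends are joined have joined `ev₀` ends. -/
theorem PathOn.step_of_step (S : Setting Fr) (hp : HasPaths Fr) {C : CylSeq Fr} {n : ℕ} {κ : ℕ∞}
    (hC : C.IsCyl n κ) (hPO : ∀ k m : ℕ, n ≤ k → (k : ℕ∞) ≤ κ → n < m → PO Fr k m)
    (T : PathOn C) {j : ℕ} (hj : (j : ℕ∞) ≤ κ) {Y Z : M} (Θ : Y ⟶ T.P.obj Z)
    (u v : glob Fr j ⟶ Y) (huv : bdι Fr j ≫ u = bdι Fr j ≫ v)
    (h : Step Fr (u ≫ Θ ≫ T.ev₁.app Z) (v ≫ Θ ≫ T.ev₁.app Z)) :
    Step Fr (u ≫ Θ ≫ T.ev₀.app Z) (v ≫ Θ ≫ T.ev₀.app Z) := by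
  have e0 : ∀ w : glob Fr j ⟶ Y, w ≫ Θ ≫ T.ev₀.app Z = C.i₀ j ≫ T.e j Z (w ≫ Θ) := by
    intro w
    have := T.e_ev₀ (w ≫ Θ)
    rw [← this, Category.assoc]
  have e1 : ∀ w : glob Fr j ⟶ Y, w ≫ Θ ≫ T.ev₁.app Z = C.i₁ j ≫ T.e j Z (w ≫ Θ) := by
    intro w
    have := T.e_ev₁ (w ≫ Θ)
    rw [← this, Category.assoc]
  rw [e0, e0]
  rw [e1, e1] at h
  refine step_i₀_of_step_i₁ S hp C hC hPO j hj _ _ ?_ h
  apply T.parallel
  rw [← Category.assoc, ← Category.assoc, huv]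

theorem po_step (S : Setting Fr) (hp : HasPaths Fr) {k n : ℕ} (hn : n ≤ k)
    (hPO : ∀ j m : ℕ, n ≤ j → j ≤ k → n < m → PO Fr j m) : PO Fr k n := by
  intro X hX a Y i b sq hXk u v huv
  have hn' : (n : ℕ∞) ≤ (k : ℕ∞) + 1 := by exact_mod_cast (by omega : n ≤ k + 1)
  have hPO' : ∀ j m : ℕ, n ≤ j → (j : ℕ∞) ≤ (k : ℕ∞) → n < m → PO Fr j m := by
    intro j m hnj hj hm
    exact hPO j m hnj (by exact_mod_cast hj) hm
  obtain ⟨C, hC⟩ := exists_isCyl S n (k : ℕ∞) hn' hPO'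
  obtain ⟨T⟩ := exists_pathOn S hp C hC hPO'
  obtain ⟨e, he, he'⟩ := exists_unit S n
  obtain ⟨Θ, r', h0, h1, -⟩ := exists_deformation S hp C hC hPO' T hX a i b sq e he he'
  have key := T.step_of_step S hp hC hPO' (j := k) le_rfl Θ u v huv (by
    rw [h1, ← Category.assoc, ← Category.assoc]
    refine (hXk (u ≫ r') (v ≫ r') ?_).comp i
    rw [← Category.assoc, ← Category.assoc, huv])
  rwa [h0, Category.comp_id, Category.comp_id] at key

theorem po_all (S : Setting Fr) (hp : HasPaths Fr) (k n : ℕ) (hn : n ≤ k) : PO Fr k n := by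
  suffices H : ∀ d k n : ℕ, n ≤ k → k - n = d → PO Fr k n from H _ k n hn rfl
  intro d
  induction d using Nat.strong_induction_on with
  | _ d ih =>
    intro k n hn hd
    apply po_step S hp hn
    intro j m hnj hj hm
    rcases Nat.lt_or_ge j m with hmj | hmj
    · exact po_high S hp hmj
    · exact ih (j - m) (by omega) j m hmj rfl

/-- strong form of the main theorem: parallel cells of `Y` with the same image in `X` are joined. -/
theorem abstract_strong (S : Setting Fr) (hp : HasPaths Fr) (n : ℕ) {X Y : M}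
    (hX : Cofibrant Fr ⊤ X) (a : glob Fr n ⟶ X) (i : X ⟶ Y) (b : glob Fr (n + 1) ⟶ Y)
    (sq : IsPushout a (sg Fr n) i b)
    (e : glob Fr (n + 1) ⟶ glob Fr n) (he : sg Fr n ≫ e = 𝟙 _) (he' : tg Fr n ≫ e = 𝟙 _)
    (r : Y ⟶ X) (hr : i ≫ r = 𝟙 X) (hrb : b ≫ r = e ≫ a)
    (m : ℕ) (u v : glob Fr m ⟶ Y) (huv : bdι Fr m ≫ u = bdι Fr m ≫ v) (h : u ≫ r = v ≫ r) :
    Step Fr u v := by
  have hPO' : ∀ k m : ℕ, n ≤ k → (k : ℕ∞) ≤ (⊤ : ℕ∞) → n < m → PO Fr k m := by
    intro k m _ _ _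
    rcases Nat.lt_or_ge k m with hmk | hmk
    · exact po_high S hp hmk
    · exact po_all S hp k m hmk
  obtain ⟨C, hC⟩ := exists_isCyl S n (⊤ : ℕ∞) le_top hPO'
  obtain ⟨T⟩ := exists_pathOn S hp C hC hPO'
  obtain ⟨Θ, r', h0, h1, h2⟩ := exists_deformation S hp C hC hPO' T hX a i b sq e he he'
  have hrr : r' = r ≫ i ≫ r' := by
    apply sq.hom_ext
    · rw [← Category.assoc i r, hr, Category.id_comp]
    · rw [← Category.assoc b r, hrb, h2, Category.assoc]
  have key := T.step_of_step S hp hC hPO' (j := m) le_top Θ u v huv (by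
    rw [h1, hrr]
    simp only [Category.assoc]
    rw [← Category.assoc u r, ← Category.assoc v r, h]
    exact Step.refl S _)
  rwa [h0, Category.comp_id, Category.comp_id] at key

theorem abstract_main (S : Setting Fr) (hp : HasPaths Fr) (n : ℕ) {X Y : M}
    (hX : Cofibrant Fr ⊤ X) (a : glob Fr n ⟶ X) (i : X ⟶ Y) (b : glob Fr (n + 1) ⟶ Y)
    (sq : IsPushout a (sg Fr n) i b)
    (e : glob Fr (n + 1) ⟶ glob Fr n) (he : sg Fr n ≫ e = 𝟙 _) (he' : tg Fr n ≫ e = 𝟙 _)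
    (r : Y ⟶ X) (hr : i ≫ r = 𝟙 X) (hrb : b ≫ r = e ≫ a)
    (m : ℕ) (z : glob Fr m ⟶ Y) (hz : bdι Fr m ≫ z = bdι Fr m ≫ z ≫ r ≫ i) :
    Step Fr z (z ≫ r ≫ i) := by
  refine abstract_strong S hp n hX a i b sq e he he' r hr hrb m _ _ hz ?_
  simp only [Category.assoc]
  rw [hr, Category.comp_id]

end Crest.Agent.R248
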