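import Crest.Agent.R248.Core

/-! TASK NatExt: a family of maps on globes compatible with faces extends to a natural transformation
out of a sum-preserving functor; two natural transformations out of it agreeing on globes are equal. -/

set_option autoImplicit false

namespace Crest.Agent.R248

open CategoryTheory CategoryTheory.Limits Opposite
open Crest.GeometryTopology.Coherator

universe v w

variable {M : Type w} [Category.{v} M]

/-- induction on shapes -/
theorem shape_induction {motive : Shape → Prop} (hglobe : ∀ n, motive (Shape.globe n))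
    (hglue : ∀ (S : Shape) (b h : ℕ) (hb : b < S.last) (hh : b < h), motive S →
      motive (S.glue b h hb hh)) (S : Shape) : motive S := by
  obtain ⟨n, P⟩ := S
  induction P with
  | single h => exact hglobe h
  | glue P b h hb hh ih => exact hglue ⟨_, P⟩ b h hb hh ih

/-- (suggested first step) every map from a globe to a glued shape factors through one of the two pieces -/
theorem globe_to_glue (S : Shape) (b h : ℕ) (hb : b < S.last) (hh : b < h) (j : ℕ)
    (x : Shape.globe j ⟶ S.glue b h hb hh) :
    (∃ y : Shape.globe j ⟶ S, y ≫ S.inLeft b h hb hh = x) ∨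
      (∃ y : Shape.globe j ⟶ Shape.globe h, y ≫ S.inRight b h hb hh = x) := by
  let f := GlobPsh.globeRepFace hb true ≫ S.apex
  let g := GlobPsh.globeRepFace hh false
  let x' : GlobPsh.globeRep j ⟶ pushout f g := x
  let D : WalkingSpan ⥤ GlobPsh.{0} := span f g
  let xe : (colimit D).obj (op (GlobeObj.mk j)) := x'.app _ (𝟙 _)
  obtain ⟨k, y, hy⟩ := FunctorToTypes.jointly_surjective' (F := D) (op (GlobeObj.mk j)) xe
  have key : ∀ {P : GlobPsh.{0}} (q : P ⟶ pushout f g)
      (z : P.obj (op (GlobeObj.mk j))), xe = q.app _ z → yonedaEquiv.symm z ≫ q = x' := by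
    intro P q z hz
    apply yonedaEquiv.injective
    rw [yonedaEquiv_comp, Equiv.apply_symm_apply]
    exact hz.symm
  have hL : ∀ z : S.psh.obj (op (GlobeObj.mk j)), xe = (pushout.inl f g).app _ z →
      (∃ y : Shape.globe j ⟶ S, y ≫ S.inLeft b h hb hh = x) := by
    intro z hz
    exact ⟨(yonedaEquiv.symm z : GlobPsh.globeRep j ⟶ S.psh), key _ z hz⟩
  rcases k with _ | _ | _
  · left
    refine hL (f.app _ y) ?_
    rw [hy]
    have := colimit.w D WalkingSpan.Hom.fst
    exact (types_congr_hom (NatTrans.congr_app this (op (GlobeObj.mk j))) y).symm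
  · left
    exact hL y hy
  · right
    exact ⟨(yonedaEquiv.symm y : GlobPsh.globeRep j ⟶ GlobPsh.globeRep h), key _ y hy⟩

theorem glue_condition (S : Shape) (b h : ℕ) (hb : b < S.last) (hh : b < h) :
    S.hinge hb ≫ S.inLeft b h hb hh = Shape.faceMap hh false ≫ S.inRight b h hb hh := by
  exact pushout.condition (f := GlobPsh.globeRepFace hb true ≫ S.apex)
    (g := GlobPsh.globeRepFace hh false)

theorem globe_hom_cases {m n : ℕ} (x : Shape.globe m ⟶ Shape.globe n) :
    (∃ h : m = n, x = eqToHom (by rw [h])) ∨ ∃ (h : m < n) (b : Bool), x = Shape.faceMap h b := by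
  let x' : yoneda.obj (GlobeObj.mk m) ⟶ yoneda.obj (GlobeObj.mk n) := x
  obtain ⟨a, ha⟩ := yoneda.map_surjective x'
  let a' : GlobeObj.Arrow m n := a
  have ha' : yoneda.map (X := GlobeObj.mk m) (Y := GlobeObj.mk n) a' = x' := ha
  clear_value a'
  rcases a' with _ | ⟨lt, b⟩
  · left
    refine ⟨rfl, ?_⟩
    change x' = _
    rw [← ha']
    exact yoneda.map_id (GlobeObj.mk m)
  · right
    exact ⟨lt, b, ha'.symm⟩

section

variable {G G' : Shape ⥤ M} (α : ∀ j, glob G j ⟶ glob G' j)
    (hs : ∀ j, sg G j ≫ α (j + 1) = α j ≫ sg G' j)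
    (ht : ∀ j, tg G j ≫ α (j + 1) = α j ≫ tg G' j)

include hs ht in
theorem faceMap_nat {m n : ℕ} (h : m < n) (b : Bool) :
    G.map (Shape.faceMap h b) ≫ α n = α m ≫ G'.map (Shape.faceMap h b) := by
  induction n with
  | zero => omega
  | succ n ih =>
    rcases Nat.lt_succ_iff_lt_or_eq.1 h with h' | rfl
    · have hc : Shape.faceMap h b = Shape.faceMap h' b ≫ Shape.σ n :=
        (faceMap_comp h' (Nat.lt_succ_self n) b false).symm
      rw [hc, G.map_comp, G'.map_comp, Category.assoc]
      have := hs n
      unfold sg at this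
      rw [this, ← Category.assoc, ih h', Category.assoc]
    · cases b
      · exact hs m
      · exact ht m

include hs ht in
theorem globe_nat {m n : ℕ} (x : Shape.globe m ⟶ Shape.globe n) :
    G.map x ≫ α n = α m ≫ G'.map x := by
  rcases globe_hom_cases x with ⟨h, hx⟩ | ⟨h, b, rfl⟩
  · subst h
    have : x = 𝟙 _ := hx
    subst this
    rw [G.map_id, G'.map_id]
    simp
  · exact faceMap_nat α hs ht h b

/-- two maps out of `G.obj S` agreeing on all globes of `S` are equal -/
theorem Sums.hom_ext (hG : Sums G) {S : Shape} {Z : M} {u v : G.obj S ⟶ Z}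
    (H : ∀ j (x : Shape.globe j ⟶ S), G.map x ≫ u = G.map x ≫ v) : u = v := by
  induction S using shape_induction with
  | hglobe h =>
    have := H h (𝟙 _)
    rw [G.map_id] at this
    simpa using this
  | hglue S b h hb hh ih =>
    refine (hG S b h hb hh).hom_ext (ih ?_) ?_
    · intro j x
      rw [← Category.assoc, ← Category.assoc, ← G.map_comp]
      exact H j _
    · exact H h _

include hs ht in
theorem exists_natTrans_aux (hG : Sums G) (S : Shape) :
    ∃ β : G.obj S ⟶ G'.obj S, ∀ j (x : Shape.globe j ⟶ S), G.map x ≫ β = α j ≫ G'.map x := by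
  induction S using shape_induction with
  | hglobe h =>
    exact ⟨α h, fun j x => globe_nat α hs ht x⟩
  | hglue S b h hb hh ih =>
    obtain ⟨β, hβ⟩ := ih
    have sq := hG S b h hb hh
    have hc : G.map (S.hinge hb) ≫ β ≫ G'.map (S.inLeft b h hb hh) =
        G.map (Shape.faceMap hh false) ≫ α h ≫ G'.map (S.inRight b h hb hh) := by
      have h1 := hβ b (S.hinge hb)
      have h2 := globe_nat α hs ht (Shape.faceMap hh false)
      rw [← Category.assoc, h1, ← Category.assoc, h2, Category.assoc, Category.assoc,
        ← G'.map_comp, ← G'.map_comp, glue_condition]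
    refine ⟨sq.desc _ _ hc, ?_⟩
    intro j x
    rcases globe_to_glue S b h hb hh j x with ⟨y, rfl⟩ | ⟨y, rfl⟩
    · rw [G.map_comp, G'.map_comp, Category.assoc, sq.inl_desc, ← Category.assoc, hβ,
        Category.assoc]
    · rw [G.map_comp, G'.map_comp, Category.assoc, sq.inr_desc, ← Category.assoc,
        globe_nat α hs ht, Category.assoc]

end

theorem exists_natTrans {G G' : Shape ⥤ M} (hG : Sums G) (α : ∀ j, glob G j ⟶ glob G' j)
    (hs : ∀ j, sg G j ≫ α (j + 1) = α j ≫ sg G' j)
    (ht : ∀ j, tg G j ≫ α (j + 1) = α j ≫ tg G' j) :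
    ∃ β : G ⟶ G', ∀ j, β.app (Shape.globe j) = α j := by
  choose β hβ using exists_natTrans_aux α hs ht hG
  refine ⟨{ app := β, naturality := ?_ }, ?_⟩
  · intro S T f
    apply hG.hom_ext
    intro j x
    rw [← Category.assoc, ← G.map_comp, hβ, ← Category.assoc, hβ, Category.assoc, G'.map_comp]
  · intro j
    have := hβ (Shape.globe j) j (𝟙 _)
    rw [G.map_id, G'.map_id] at this
    simpa using this

/-- natural transformations out of a sum-preserving functor are determined on globes -/
theorem Sums.natTrans_ext {G G' : Shape ⥤ M} (hG : Sums G) {β γ : G ⟶ G'}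
    (H : ∀ j, β.app (Shape.globe j) = γ.app (Shape.globe j)) : β = γ := by
  ext S
  apply hG.hom_ext
  intro j x
  rw [β.naturality, γ.naturality, H]

end Crest.Agent.R248
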