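import Crest.Agent.R248.CylContr
import Crest.Agent.R248.NatExt

/-! Past (helper598): contractibility of cylinders of globular sums (pasting induction). -/

set_option autoImplicit false

namespace Crest.Agent.R248

open CategoryTheory CategoryTheory.Limits Opposite
open Crest.GeometryTopology.Coherator

universe v w

variable {M : Type w} [Category.{v} M] [HasPushouts M] [HasInitial M] {Fr : Shape ⥤ M}

section

variable (S : Setting Fr) (C : CylSeq Fr) {n k : ℕ}
  (low : ∀ j, j < n → C.Low j) (bot : C.MidWith n (C.oD n))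
  (mid : ∀ j, n < j → j ≤ k → C.Mid j) (hPO : ∀ m, n < m → PO Fr k m)
  (G : Shape ⥤ M) (hG : Sums G) (φ : ∀ j, glob G j ≅ C.A j)
  (hs : ∀ j, sg G j ≫ (φ (j + 1)).hom = (φ j).hom ≫ C.s j)
  (ι₀ : Fr ⟶ G) (h₀ : ∀ j, ι₀.app (Shape.globe j) ≫ (φ j).hom = C.i₀ j)

include S low bot mid hPO hs h₀

theorem whG_step {h : ℕ} (hh : h + 1 ≤ k) {P : M} {x : glob G h ⟶ P} {y : glob Fr (h + 1) ⟶ P}
    (sqP : IsPushout (ι₀.app (Shape.globe h)) (sg Fr h) x y) :
    ∃ ρ : P ⟶ glob G (h + 1), y ≫ ρ = ι₀.app (Shape.globe (h + 1)) ∧ x ≫ ρ = sg G h ∧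
      Wh Fr k n (Shape.globe (h + 1)) y ρ := by
  have sq1 : IsPushout (φ h).hom x ((φ h).inv ≫ x) (𝟙 P) :=
    IsPushout.of_horiz_isIso ⟨by rw [Iso.hom_inv_id_assoc, Category.comp_id]⟩
  have sq2 := sqP.paste_horiz sq1
  rw [h₀, Category.comp_id] at sq2
  obtain ⟨ρ, hy, hx, hρ⟩ := C.wh_step (m := k) S low bot mid hPO hh hh sq2
  refine ⟨ρ ≫ (φ (h + 1)).inv, ?_, ?_, hρ.comp (Wh.iso _ _)⟩
  · rw [← Category.assoc, hy, ← h₀, Category.assoc, Iso.hom_inv_id, Category.comp_id]
  · rw [Category.assoc] at hx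
    have : x ≫ ρ = (φ h).hom ≫ C.s h := by rw [← hx, Iso.hom_inv_id_assoc]
    rw [← Category.assoc, this, ← hs, Category.assoc, Iso.hom_inv_id, Category.comp_id]

theorem whG_rel {b h : ℕ} (hb : b < h) (hh : h ≤ k) : ∀ {R : M} (x : glob G b ⟶ R)
    (y : glob Fr h ⟶ R)
    (_ : IsPushout (ι₀.app (Shape.globe b)) (Fr.map (Shape.faceMap hb false)) x y),
    ∃ ρ : R ⟶ glob G h, y ≫ ρ = ι₀.app (Shape.globe h) ∧
      x ≫ ρ = G.map (Shape.faceMap hb false) ∧ Wh Fr k n (Shape.globe h) y ρ := by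
  induction h, hb using Nat.le_induction with
  | base =>
    intro R x y sqR
    exact whG_step S C low bot mid hPO G φ hs ι₀ h₀ hh sqR
  | succ h hb ih =>
    intro R x' y' sqR
    have eF : Fr.map (Shape.faceMap (Nat.lt_succ_of_lt hb) false) =
        Fr.map (Shape.faceMap hb false) ≫ sg Fr h := by
      unfold sg Shape.σ
      rw [← Fr.map_comp, faceMap_comp]
    have eG : G.map (Shape.faceMap (Nat.lt_succ_of_lt hb) false) =
        G.map (Shape.faceMap hb false) ≫ sg G h := by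
      unfold sg Shape.σ
      rw [← G.map_comp, faceMap_comp]
    have sqR1 : IsPushout (ι₀.app (Shape.globe b)) (Fr.map (Shape.faceMap hb false))
      (pushout.inl _ _) (pushout.inr _ _) := IsPushout.of_hasPushout _ _
    set x := pushout.inl (ι₀.app (Shape.globe b)) (Fr.map (Shape.faceMap hb false))
    set y := pushout.inr (ι₀.app (Shape.globe b)) (Fr.map (Shape.faceMap hb false))
    obtain ⟨ρ, hy, hx, hρ⟩ := ih (by omega) x y sqR1
    have sqR' : IsPushout (ι₀.app (Shape.globe b)) (Fr.map (Shape.faceMap hb false) ≫ sg Fr h)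
      x' y' := by rw [← eF]; exact sqR
    let r := sqR1.desc x' (sg Fr h ≫ y') (by rw [sqR'.w, Category.assoc])
    have hr1 : x ≫ r = x' := sqR1.inl_desc _ _ _
    have hr2 : y ≫ r = sg Fr h ≫ y' := sqR1.inr_desc _ _ _
    have sq3 : IsPushout y (sg Fr h) r y' := by
      refine IsPushout.of_top ?_ hr2 sqR1
      rw [hr1]
      exact sqR'
    have sqP : IsPushout (ι₀.app (Shape.globe h)) (sg Fr h) (pushout.inl _ _) (pushout.inr _ _) :=
      IsPushout.of_hasPushout _ _
    set xP := pushout.inl (ι₀.app (Shape.globe h)) (sg Fr h)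
    set yP := pushout.inr (ι₀.app (Shape.globe h)) (sg Fr h)
    let r2 := sq3.desc (ρ ≫ xP) yP (by rw [← Category.assoc, hy, sqP.w])
    have hr3 : r ≫ r2 = ρ ≫ xP := sq3.inl_desc _ _ _
    have hr4 : y' ≫ r2 = yP := sq3.inr_desc _ _ _
    have sq4 : IsPushout ρ r xP r2 := by
      refine IsPushout.of_left ?_ hr3.symm sq3
      rw [hy, hr4]
      exact sqP
    obtain ⟨ρ', hy', hx', hρ'⟩ := whG_step S C low bot mid hPO G φ hs ι₀ h₀ hh sqP
    have h1 := hρ.cobase sq4.flip
    have h2 := h1.reshape (Shape.σ h) y' hr2.symm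
    refine ⟨r2 ≫ ρ', ?_, ?_, h2.comp ?_⟩
    · rw [← Category.assoc, hr4, hy']
    · rw [← hr1, Category.assoc, ← Category.assoc r, hr3, Category.assoc, hx', ← Category.assoc, hx]
      exact eG.symm
    · rw [hr4]; exact hρ'

include hG

theorem whG (P : Shape) (hP : P.dim ≤ k) : Wh Fr k n P (𝟙 _) (ι₀.app P) := by
  induction P using shape_induction with
  | hglobe h =>
    have e : ι₀.app (Shape.globe h) = C.i₀ h ≫ (φ h).inv := by
      rw [← h₀, Category.assoc, Iso.hom_inv_id, Category.comp_id]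
    rw [e]
    have hi : IsIso (φ h).inv := Iso.isIso_inv (φ h)
    exact (C.wh_i₀ (m := k) S low bot mid hPO hP hP).comp
      (Wh.good _ (@Good.of_isIso _ _ _ _ _ _ _ _ (φ h).inv hi))
  | hglue P b h hb hh ih =>
    have hdim : max P.dim h ≤ k := hP
    have ih' := ih (by omega)
    have sqF := S.sums P b h hb hh
    have sqG := hG P b h hb hh
    have sqQ : IsPushout (ι₀.app P) (Fr.map (P.inLeft b h hb hh)) (pushout.inl _ _)
      (pushout.inr _ _) := IsPushout.of_hasPushout _ _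
    set qL := pushout.inl (ι₀.app P) (Fr.map (P.inLeft b h hb hh))
    set qR := pushout.inr (ι₀.app P) (Fr.map (P.inLeft b h hb hh))
    have sqR : IsPushout (ι₀.app (Shape.globe b)) (Fr.map (Shape.faceMap hh false))
      (pushout.inl _ _) (pushout.inr _ _) := IsPushout.of_hasPushout _ _
    set x := pushout.inl (ι₀.app (Shape.globe b)) (Fr.map (Shape.faceMap hh false))
    set y := pushout.inr (ι₀.app (Shape.globe b)) (Fr.map (Shape.faceMap hh false))
    obtain ⟨ρ, hy, hx, hρ⟩ := whG_rel S C low bot mid hPO G φ hs ι₀ h₀ hh (by omega) x y sqR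
    -- `F(glue) ⟶ Q`
    have h1 : Wh Fr k n (P.glue b h hb hh) (𝟙 _) qR :=
      (ih'.cobase sqQ.flip).reshape (P.inLeft b h hb hh) (𝟙 _)
        (by rw [Category.comp_id, Category.id_comp])
    have hnat : Fr.map (P.hinge hb) ≫ ι₀.app P = ι₀.app (Shape.globe b) ≫ G.map (P.hinge hb) :=
      ι₀.naturality _
    have hnatL : Fr.map (P.inLeft b h hb hh) ≫ ι₀.app (P.glue b h hb hh) =
      ι₀.app P ≫ G.map (P.inLeft b h hb hh) := ι₀.naturality _
    have hnatR : Fr.map (P.inRight b h hb hh) ≫ ι₀.app (P.glue b h hb hh) =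
      ι₀.app (Shape.globe h) ≫ G.map (P.inRight b h hb hh) := ι₀.naturality _
    have sq1 : IsPushout (Fr.map (P.hinge hb) ≫ ι₀.app P) (Fr.map (Shape.faceMap hh false)) qL
        (Fr.map (P.inRight b h hb hh) ≫ qR) := sqF.flip.paste_vert sqQ.flip |>.flip
    rw [hnat] at sq1
    let z := sqR.desc (G.map (P.hinge hb) ≫ qL) (Fr.map (P.inRight b h hb hh) ≫ qR)
      (by rw [← Category.assoc]; exact sq1.w)
    have hz1 : x ≫ z = G.map (P.hinge hb) ≫ qL := sqR.inl_desc _ _ _
    have hz2 : y ≫ z = Fr.map (P.inRight b h hb hh) ≫ qR := sqR.inr_desc _ _ _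
    have sq2 : IsPushout (G.map (P.hinge hb)) x qL z := by
      refine IsPushout.of_left ?_ hz1.symm sqR
      rw [hz2]
      exact sq1
    let ζ := sqQ.desc (G.map (P.inLeft b h hb hh)) (ι₀.app (P.glue b h hb hh)) hnatL.symm
    have hζ1 : qL ≫ ζ = G.map (P.inLeft b h hb hh) := sqQ.inl_desc _ _ _
    have hζ2 : qR ≫ ζ = ι₀.app (P.glue b h hb hh) := sqQ.inr_desc _ _ _
    have hw : z ≫ ζ = ρ ≫ G.map (P.inRight b h hb hh) := by
      apply sqR.hom_ext
      · rw [← Category.assoc, hz1, Category.assoc, hζ1, ← Category.assoc x, hx, sqG.w]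
      · rw [← Category.assoc, hz2, Category.assoc, hζ2, ← Category.assoc y, hy, hnatR]
    have sq3 : IsPushout z ρ ζ (G.map (P.inRight b h hb hh)) := by
      refine IsPushout.of_top ?_ hw sq2
      rw [hζ1, hx]
      exact sqG
    have h2 := (hρ.cobase sq3).reshape (P.inRight b h hb hh) qR hz2.symm
    rw [← hζ2]
    refine h1.comp ?_
    rwa [Category.id_comp]

end

section

variable (S : Setting Fr) (C : CylSeq Fr) {n : ℕ}
  (low : ∀ j, j < n → C.Low j) (bot : C.MidWith n (C.oD n))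
  (G : Shape ⥤ M) (hG : Sums G) (φ : ∀ j, glob G j ≅ C.A j)
  (ι₀ : Fr ⟶ G) (h₀ : ∀ j, ι₀.app (Shape.globe j) ≫ (φ j).hom = C.i₀ j)

include low bot h₀

theorem plus_globe (h : ℕ) (hh : h ≤ n) : ∃ h' : ℕ, ∃ (hle : h ≤ h') (_ : h' ≤ n + 1)
    (e : glob G h ≅ glob Fr h'), ∀ (b : ℕ) (hb : b < h) (β : Bool),
      Fr.map (Shape.faceMap hb β) ≫ ι₀.app (Shape.globe h) ≫ e.hom =
        Fr.map (Shape.faceMap (hb.trans_le hle) β) := by
  rcases Nat.lt_or_eq_of_le hh with hlt | rfl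
  · have h1 : IsIso (C.i₀ h) := (low h hlt).1
    let e : glob G h ≅ glob Fr h := φ h ≪≫ (asIso (C.i₀ h)).symm
    refine ⟨h, le_rfl, by omega, e, fun b hb β => ?_⟩
    have he : ι₀.app (Shape.globe h) ≫ e.hom = 𝟙 _ := by
      show ι₀.app (Shape.globe h) ≫ (φ h).hom ≫ inv (C.i₀ h) = 𝟙 _
      rw [← Category.assoc, h₀, IsIso.hom_inv_id]
    rw [he, Category.comp_id]
  · obtain ⟨-, θ, sq, -⟩ := bot
    have h1 : IsIso (C.oD h) := C.isIso_oD h low
    have h2 : IsIso θ := sq.isIso_inr_of_isIso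
    let e : glob G h ≅ glob Fr (h + 1) := φ h ≪≫ (asIso θ).symm
    refine ⟨h + 1, by omega, le_rfl, e, fun b hb β => ?_⟩
    have he : ι₀.app (Shape.globe h) ≫ e.hom = sg Fr h := by
      show ι₀.app (Shape.globe h) ≫ (φ h).hom ≫ inv θ = _
      rw [← Category.assoc, h₀, IsIso.comp_inv_eq, ← C.oD_q, sq.w]
    rw [he]
    unfold sg Shape.σ
    rw [← Fr.map_comp, faceMap_comp]

include S hG

theorem plus_shape (P : Shape) (hP : P.dim ≤ n) : ∃ P' : Shape, ∃ (hle : P.last ≤ P'.last)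
    (_ : P'.dim ≤ n + 1) (e : G.obj P ≅ Fr.obj P'), ∀ (b : ℕ) (hb : b < P.last),
      Fr.map (P.hinge hb) ≫ ι₀.app P ≫ e.hom = Fr.map (P'.hinge (hb.trans_le hle)) := by
  induction P using shape_induction with
  | hglobe h =>
    obtain ⟨h', hle, hn, e, he⟩ := plus_globe C low bot G φ ι₀ h₀ h hP
    refine ⟨Shape.globe h', hle, hn, e, fun b hb => ?_⟩
    have h1 : (Shape.globe h).hinge (b := b) hb = Shape.faceMap (n := h) hb true := hinge_globe hb
    have h2 : (Shape.globe h').hinge (b := b) (hb.trans_le hle) =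
      Shape.faceMap (n := h') (hb.trans_le hle) true := hinge_globe (hb.trans_le hle)
    rw [h1, h2]
    exact he b hb true
  | hglue P b h hb hh ih =>
    have hdim : max P.dim h ≤ n := hP
    obtain ⟨P', hle, hd, eP, heP⟩ := ih (by omega)
    obtain ⟨h', hle', hn, e, he⟩ := plus_globe C low bot G φ ι₀ h₀ h (by omega)
    have h1 : IsIso (C.i₀ b) := (low b (by omega)).1
    let eb : glob G b ≅ glob Fr b := φ b ≪≫ (asIso (C.i₀ b)).symm
    have heb : ι₀.app (Shape.globe b) ≫ eb.hom = 𝟙 _ := by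
      show ι₀.app (Shape.globe b) ≫ (φ b).hom ≫ inv (C.i₀ b) = 𝟙 _
      rw [← Category.assoc, h₀, IsIso.hom_inv_id]
    have hinv : eb.inv = ι₀.app (Shape.globe b) := by
      rw [← cancel_mono eb.hom, Iso.inv_hom_id, heb]
    have hb' : b < P'.last := hb.trans_le hle
    have hh' : b < h' := hh.trans_le hle'
    have sqF := S.sums P' b h' hb' hh'
    have sqG := hG P b h hb hh
    have hnat : Fr.map (P.hinge hb) ≫ ι₀.app P = ι₀.app (Shape.globe b) ≫ G.map (P.hinge hb) :=
      ι₀.naturality _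
    have hnatf : Fr.map (Shape.faceMap hh false) ≫ ι₀.app (Shape.globe h) =
      ι₀.app (Shape.globe b) ≫ G.map (Shape.faceMap hh false) := ι₀.naturality _
    have hnatR : Fr.map (P.inRight b h hb hh) ≫ ι₀.app (P.glue b h hb hh) =
      ι₀.app (Shape.globe h) ≫ G.map (P.inRight b h hb hh) := ι₀.naturality _
    have c1 : G.map (P.hinge hb) ≫ eP.hom = eb.hom ≫ Fr.map (P'.hinge hb') := by
      rw [← heP b hb, ← Category.assoc (Fr.map _), hnat, ← hinv, Category.assoc,
        Iso.hom_inv_id_assoc]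
    have c2 : G.map (Shape.faceMap hh false) ≫ e.hom =
        eb.hom ≫ Fr.map (Shape.faceMap hh' false) := by
      rw [← he b hh false, ← Category.assoc (Fr.map _), hnatf, ← hinv, Category.assoc,
        Iso.hom_inv_id_assoc]
    have sqF' : IsPushout (G.map (P.hinge hb)) (G.map (Shape.faceMap hh false))
        (eP.hom ≫ Fr.map (P'.inLeft b h' hb' hh')) (e.hom ≫ Fr.map (P'.inRight b h' hb' hh')) :=
      sqF.of_iso eb.symm eP.symm e.symm (Iso.refl _)
        (by rw [Iso.symm_hom, Iso.symm_hom, Iso.comp_inv_eq, Category.assoc, c1,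
          Iso.inv_hom_id_assoc])
        (by rw [Iso.symm_hom, Iso.symm_hom, Iso.comp_inv_eq, Category.assoc, c2,
          Iso.inv_hom_id_assoc])
        (by rw [Iso.symm_hom, Iso.inv_hom_id_assoc, Iso.refl_hom, Category.comp_id])
        (by rw [Iso.symm_hom, Iso.inv_hom_id_assoc, Iso.refl_hom, Category.comp_id])
    let E : G.obj (P.glue b h hb hh) ≅ Fr.obj (P'.glue b h' hb' hh') :=
      sqG.isoIsPushout _ _ sqF'
    have hE : G.map (P.inRight b h hb hh) ≫ E.hom = e.hom ≫ Fr.map (P'.inRight b h' hb' hh') :=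
      IsPushout.inr_isoIsPushout_hom _ _ sqG sqF'
    refine ⟨P'.glue b h' hb' hh', hle', ?_, E, fun b' hb'' => ?_⟩
    · show max P'.dim h' ≤ n + 1
      omega
    · have k1 : (P.glue b h hb hh).hinge (b := b') hb'' =
        Shape.faceMap (n := h) hb'' true ≫ P.inRight b h hb hh := rfl
      have k2 : (P'.glue b h' hb' hh').hinge (b := b') (hb''.trans_le hle') =
        Shape.faceMap (n := h') (hb''.trans_le hle') true ≫ P'.inRight b h' hb' hh' := rfl
      rw [k1, k2, Fr.map_comp, Fr.map_comp, Category.assoc,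
        ← Category.assoc (Fr.map (P.inRight b h hb hh)), hnatR, Category.assoc, hE,
        ← he b' hb'' true, Category.assoc, Category.assoc]

end

theorem contr_cyl (S : Setting Fr) (C : CylSeq Fr) {n : ℕ} {κ : ℕ∞} (hC : C.IsCyl n κ)
    (G : Shape ⥤ M) (hG : Sums G) (φ : ∀ j, glob G j ≅ C.A j)
    (hs : ∀ j, sg G j ≫ (φ (j + 1)).hom = (φ j).hom ≫ C.s j)
    (ht : ∀ j, tg G j ≫ (φ (j + 1)).hom = (φ j).hom ≫ C.t j)
    {k : ℕ} (hnk : n ≤ k) (hk : (k : ℕ∞) ≤ κ) (hPO : ∀ m, n < m → PO Fr k m)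
    (P : Shape) (hP : P.dim ≤ k) : Contr Fr k (G.obj P) := by
  obtain ⟨ι₀, h₀⟩ : ∃ ι₀ : Fr ⟶ G, ∀ j, ι₀.app (Shape.globe j) = C.i₀ j ≫ (φ j).inv := by
    apply exists_natTrans S.sums
    · intro j
      rw [← Category.assoc, C.sg_i₀, Category.assoc, Category.assoc]
      congr 1
      rw [Iso.eq_inv_comp, ← Category.assoc, ← hs, Category.assoc, Iso.hom_inv_id,
        Category.comp_id]
    · intro j
      rw [← Category.assoc, C.tg_i₀, Category.assoc, Category.assoc]
      congr 1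
      rw [Iso.eq_inv_comp, ← Category.assoc, ← ht, Category.assoc, Iso.hom_inv_id,
        Category.comp_id]
  have h₀' : ∀ j, ι₀.app (Shape.globe j) ≫ (φ j).hom = C.i₀ j := by
    intro j
    rw [h₀, Category.assoc, Iso.inv_hom_id, Category.comp_id]
  have hnκ : (n : ℕ∞) ≤ κ := le_trans (by exact_mod_cast hnk) hk
  rcases Nat.lt_or_eq_of_le hnk with h | rfl
  · refine Wh.contr S h hPO (W := P) (by omega)
      (whG S C hC.low (hC.bot hnκ) (fun j hj hjk => hC.mid j hj ?_) hPO G hG φ hs ι₀ h₀' P hP)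
    exact le_trans (by exact_mod_cast hjk) hk
  · obtain ⟨P', -, hd, e, -⟩ :=
      plus_shape S C hC.low (hC.bot hnκ) G hG φ ι₀ h₀' P hP
    exact Contr.of_iso e (S.fill n P' hd)

end Crest.Agent.R248
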