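import Crest.Agent.R248.Past
import Crest.Agent.R248.Ext
import Crest.Agent.R248.NatExt
import Crest.Agent.R248.Segal

/-! TASK PathExists: an `n`-cylinder carries a path functor.  Use `exists_ext` to get `G`, `exists_natTrans`
to get `ι₀ ι₁`, `contr_cyl` to prove `Lifts`, then `HasPaths`. -/

set_option autoImplicit false

namespace Crest.Agent.R248

open CategoryTheory CategoryTheory.Limits Opposite
open Crest.GeometryTopology.Coherator

universe v w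

section Aux

variable {M : Type w} [Category.{v} M] {Fr : Shape ⥤ M}

/-- two natural transformations agreeing on globes of dimension `≤ dim S` agree at `S` -/
theorem app_eq_of_dim_le {G : Shape ⥤ M} (hF : Sums Fr) (ι₀ ι₁ : Fr ⟶ G) (S : Shape)
    (H : ∀ j, j ≤ S.dim → ι₀.app (Shape.globe j) = ι₁.app (Shape.globe j)) :
    ι₀.app S = ι₁.app S := by
  apply hF.hom_ext
  intro j x
  have hj : j ≤ S.dim := by
    by_contra hc
    exact (Segal.no_globe_above S j (by omega)).false x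
  rw [ι₀.naturality, ι₁.naturality, H j hj]

variable [HasPushouts M] [HasInitial M]

namespace CylSeq

variable (C : CylSeq Fr)

theorem i₀_s (j : ℕ) : C.i₀ j ≫ C.s j = sg Fr j ≫ C.i₀ (j + 1) := by
  unfold s
  rw [← Category.assoc, ← C.inl_k₀ j, Category.assoc, C.k₀_δ, ← Category.assoc, bdInl_bdι]

theorem i₀_t (j : ℕ) : C.i₀ j ≫ C.t j = tg Fr j ≫ C.i₀ (j + 1) := by
  unfold t
  rw [← Category.assoc, ← C.inr_k₀ j, Category.assoc, C.k₀_δ, ← Category.assoc, bdInr_bdι]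

theorem i₁_s (j : ℕ) : C.i₁ j ≫ C.s j = sg Fr j ≫ C.i₁ (j + 1) := by
  unfold s
  rw [← Category.assoc, ← C.inl_k₁ j, Category.assoc, C.k₁_δ, ← Category.assoc, bdInl_bdι]

theorem i₁_t (j : ℕ) : C.i₁ j ≫ C.t j = tg Fr j ≫ C.i₁ (j + 1) := by
  unfold t
  rw [← Category.assoc, ← C.inr_k₁ j, Category.assoc, C.k₁_δ, ← Category.assoc, bdInr_bdι]

theorem δ_s (j : ℕ) : C.δ j ≫ C.s j = C.δ j ≫ C.t j := by
  unfold s t
  rw [← Category.assoc, (C.sq j).w, Category.assoc]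

theorem s_s (j : ℕ) : C.s j ≫ C.s (j + 1) = C.s j ≫ C.t (j + 1) := by
  have h : C.s j = C.inl j ≫ C.δ (j + 1) := rfl
  rw [h, Category.assoc, Category.assoc, C.δ_s]

theorem t_s (j : ℕ) : C.t j ≫ C.s (j + 1) = C.t j ≫ C.t (j + 1) := by
  have h : C.t j = C.inr j ≫ C.δ (j + 1) := rfl
  rw [h, Category.assoc, Category.assoc, C.δ_s]

end CylSeq

/-- the boundary of a globe of `G` is the boundary of the cylinder sequence -/
theorem parallel_of_bdι (C : CylSeq Fr) (G : Shape ⥤ M) (φ : ∀ j, glob G j ≅ C.A j)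
    (hs : ∀ j, sg G j ≫ (φ (j + 1)).hom = (φ j).hom ≫ C.s j)
    (ht : ∀ j, tg G j ≫ (φ (j + 1)).hom = (φ j).hom ≫ C.t j)
    (j : ℕ) {X : M} (Φ Ψ : glob G j ⟶ X) (h : bdι G j ≫ Φ = bdι G j ≫ Ψ) :
    C.δ j ≫ (φ j).inv ≫ Φ = C.δ j ≫ (φ j).inv ≫ Ψ := by
  cases j with
  | zero => exact C.init.hom_ext _ _
  | succ j =>
    have hs' : C.s j ≫ (φ (j + 1)).inv = (φ j).inv ≫ sg G j := by
      rw [Iso.eq_inv_comp, ← Category.assoc, ← hs, Category.assoc, Iso.hom_inv_id,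
        Category.comp_id]
    have ht' : C.t j ≫ (φ (j + 1)).inv = (φ j).inv ≫ tg G j := by
      rw [Iso.eq_inv_comp, ← Category.assoc, ← ht, Category.assoc, Iso.hom_inv_id,
        Category.comp_id]
    apply (C.sq j).hom_ext
    · have e : ∀ Ω : glob G (j + 1) ⟶ X, C.inl j ≫ C.δ (j + 1) ≫ (φ (j + 1)).inv ≫ Ω =
          (φ j).inv ≫ bdInl G j ≫ bdι G (j + 1) ≫ Ω := by
        intro Ω
        have := congrArg (· ≫ Ω) hs'
        simp only [CylSeq.s, Category.assoc] at this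
        rw [this, ← bdInl_bdι, Category.assoc]
      rw [e, e, h]
    · have e : ∀ Ω : glob G (j + 1) ⟶ X, C.inr j ≫ C.δ (j + 1) ≫ (φ (j + 1)).inv ≫ Ω =
          (φ j).inv ≫ bdInr G j ≫ bdι G (j + 1) ≫ Ω := by
        intro Ω
        have := congrArg (· ≫ Ω) ht'
        simp only [CylSeq.t, Category.assoc] at this
        rw [this, ← bdInr_bdι, Category.assoc]
      rw [e, e, h]

end Aux

variable {M : Type w} [Category.{v} M] [HasColimitsOfSize.{v, v} M] {Fr : Shape ⥤ M}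

theorem lifts_of_isCyl [HasPushouts M] [HasInitial M] (S : Setting Fr) (C : CylSeq Fr) {n : ℕ} {κ : ℕ∞}
    (hC : C.IsCyl n κ)
    (G : Shape ⥤ M) (hG : Sums G) (φ : ∀ j, glob G j ≅ C.A j)
    (hs : ∀ j, sg G j ≫ (φ (j + 1)).hom = (φ j).hom ≫ C.s j)
    (ht : ∀ j, tg G j ≫ (φ (j + 1)).hom = (φ j).hom ≫ C.t j)
    (ι₀ ι₁ : Fr ⟶ G) (h₀ : ∀ j, ι₀.app (Shape.globe j) ≫ (φ j).hom = C.i₀ j)
    (h₁ : ∀ j, ι₁.app (Shape.globe j) ≫ (φ j).hom = C.i₁ j)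
    (hcontr : ∀ k : ℕ, n ≤ k → (k : ℕ∞) ≤ κ → ∀ P : Shape, P.dim ≤ k → Contr Fr k (G.obj P)) :
    Lifts Fr G ι₀ ι₁ := by
  intro j P hP Φ Ψ f g hΦ₀ hΦ₁ hΨ₀ hΨ₁ hΦΨ hfg ρ hρf hρg
  -- transported data
  have h₀' : ∀ j, C.i₀ j ≫ (φ j).inv = ι₀.app (Shape.globe j) := by
    intro j; rw [← h₀, Category.assoc, Iso.hom_inv_id, Category.comp_id]
  have h₁' : ∀ j, C.i₁ j ≫ (φ j).inv = ι₁.app (Shape.globe j) := by
    intro j; rw [← h₁, Category.assoc, Iso.hom_inv_id, Category.comp_id]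
  -- it suffices to build the map on `A (j+1)`
  suffices hA : ∃ R : C.A (j + 1) ⟶ G.obj P, C.s j ≫ R = (φ j).inv ≫ Φ ∧
      C.t j ≫ R = (φ j).inv ≫ Ψ ∧ C.i₀ (j + 1) ≫ R = ρ ≫ ι₀.app P ∧
      C.i₁ (j + 1) ≫ R = ρ ≫ ι₁.app P by
    obtain ⟨R, hR1, hR2, hR3, hR4⟩ := hA
    refine ⟨(φ (j + 1)).hom ≫ R, ?_, ?_, ?_, ?_⟩
    · rw [← Category.assoc, hs, Category.assoc, hR1, Iso.hom_inv_id_assoc]
    · rw [← Category.assoc, ht, Category.assoc, hR2, Iso.hom_inv_id_assoc]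
    · rw [← Category.assoc, h₀, hR3]
    · rw [← Category.assoc, h₁, hR4]
  -- the boundary
  have hδ : C.δ j ≫ (φ j).inv ≫ Φ = C.δ j ≫ (φ j).inv ≫ Ψ :=
    parallel_of_bdι C G φ hs ht j Φ Ψ hΦΨ
  obtain ⟨x, hx1, hx2⟩ : ∃ x : C.B (j + 1) ⟶ G.obj P, C.inl j ≫ x = (φ j).inv ≫ Φ ∧
      C.inr j ≫ x = (φ j).inv ≫ Ψ :=
    ⟨(C.sq j).desc _ _ hδ, (C.sq j).inl_desc _ _ _, (C.sq j).inr_desc _ _ _⟩
  have hk₀ : C.k₀ (j + 1) ≫ x = bdι Fr (j + 1) ≫ ρ ≫ ι₀.app P := by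
    apply (bd_sq Fr j).hom_ext
    · rw [← Category.assoc, C.inl_k₀, Category.assoc, hx1, ← Category.assoc, h₀', hΦ₀,
        ← Category.assoc, bdInl_bdι, ← Category.assoc, hρf]
    · rw [← Category.assoc, C.inr_k₀, Category.assoc, hx2, ← Category.assoc, h₀', hΨ₀,
        ← Category.assoc, bdInr_bdι, ← Category.assoc, hρg]
  have hk₁ : C.k₁ (j + 1) ≫ x = bdι Fr (j + 1) ≫ ρ ≫ ι₁.app P := by
    apply (bd_sq Fr j).hom_ext
    · rw [← Category.assoc, C.inl_k₁, Category.assoc, hx1, ← Category.assoc, h₁', hΦ₁,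
        ← Category.assoc, bdInl_bdι, ← Category.assoc, hρf]
    · rw [← Category.assoc, C.inr_k₁, Category.assoc, hx2, ← Category.assoc, h₁', hΨ₁,
        ← Category.assoc, bdInr_bdι, ← Category.assoc, hρg]
  -- the open box
  obtain ⟨y, hy1, hy2⟩ : ∃ y : C.O (j + 1) ⟶ G.obj P, C.oB (j + 1) ≫ y = x ∧
      C.oD (j + 1) ≫ y = ρ ≫ ι₀.app P :=
    ⟨(C.sqO (j + 1)).desc _ _ hk₀, (C.sqO (j + 1)).inl_desc _ _ _, (C.sqO (j + 1)).inr_desc _ _ _⟩
  -- it suffices to extend along `q`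
  suffices hq : ∃ R : C.A (j + 1) ⟶ G.obj P, C.q (j + 1) ≫ R = y ∧
      C.i₁ (j + 1) ≫ R = ρ ≫ ι₁.app P by
    obtain ⟨R, hR1, hR2⟩ := hq
    refine ⟨R, ?_, ?_, ?_, hR2⟩
    · change (C.inl j ≫ C.δ (j + 1)) ≫ R = _
      rw [← C.oB_q, Category.assoc, Category.assoc, hR1, hy1, hx1]
    · change (C.inr j ≫ C.δ (j + 1)) ≫ R = _
      rw [← C.oB_q, Category.assoc, Category.assoc, hR1, hy1, hx2]
    · rw [← C.oD_q, Category.assoc, hR1, hy2]
  rcases lt_or_ge (j + 1) n with hjn | hjn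
  · -- low dimensions
    have hlow := hC.low (j + 1) hjn
    have hlow' := hC.low j (by omega)
    have := hlow.1
    have := hlow'.1
    have hdim : ∀ i, i ≤ P.dim → ι₀.app (Shape.globe i) = ι₁.app (Shape.globe i) := by
      intro i hi
      have : i < n := by omega
      rw [← h₀' i, ← h₁' i, (hC.low i this).2]
    have hιP : ι₀.app P = ι₁.app P := app_eq_of_dim_le S.sums ι₀ ι₁ P hdim
    refine ⟨inv (C.i₀ (j + 1)) ≫ ρ ≫ ι₀.app P, ?_, ?_⟩
    · -- compare on `O (j+1)`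
      have hsinv : C.s j ≫ inv (C.i₀ (j + 1)) = inv (C.i₀ j) ≫ sg Fr j := by
        rw [IsIso.comp_inv_eq, Category.assoc, IsIso.eq_inv_comp, C.i₀_s]
      have htinv : C.t j ≫ inv (C.i₀ (j + 1)) = inv (C.i₀ j) ≫ tg Fr j := by
        rw [IsIso.comp_inv_eq, Category.assoc, IsIso.eq_inv_comp, C.i₀_t]
      apply (C.sqO (j + 1)).hom_ext
      · rw [hy1]
        apply (C.sq j).hom_ext
        · rw [hx1, ← Category.assoc (C.oB _), C.oB_q]
          have : C.inl j ≫ C.δ (j + 1) ≫ inv (C.i₀ (j + 1)) ≫ ρ ≫ ι₀.app P =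
              (C.s j ≫ inv (C.i₀ (j + 1))) ≫ ρ ≫ ι₀.app P := by
            simp only [CylSeq.s, Category.assoc]
          rw [this, hsinv, Category.assoc, ← Category.assoc (sg Fr j), hρf, ← hΦ₀, ← h₀' j,
            Category.assoc, IsIso.inv_hom_id_assoc]
        · rw [hx2, ← Category.assoc (C.oB _), C.oB_q]
          have : C.inr j ≫ C.δ (j + 1) ≫ inv (C.i₀ (j + 1)) ≫ ρ ≫ ι₀.app P =
              (C.t j ≫ inv (C.i₀ (j + 1))) ≫ ρ ≫ ι₀.app P := by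
            simp only [CylSeq.t, Category.assoc]
          rw [this, htinv, Category.assoc, ← Category.assoc (tg Fr j), hρg, ← hΨ₀, ← h₀' j,
            Category.assoc, IsIso.inv_hom_id_assoc]
      · rw [hy2, ← Category.assoc, C.oD_q, IsIso.hom_inv_id_assoc]
    · rw [hlow.2, IsIso.hom_inv_id_assoc, hιP]
  · by_cases hjκ : ((j + 1 : ℕ) : ℕ∞) ≤ κ
    · -- middle dimensions
      obtain ⟨w, hw, θ, hsq, hθ⟩ : C.Mid (j + 1) := by
        rcases hjn.lt_or_eq with h | h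
        · exact hC.mid (j + 1) h hjκ
        · exact ⟨C.oD (j + 1), by subst h; exact hC.bot hjκ⟩
      have hpar : bdι Fr (j + 1) ≫ (w ≫ y) = bdι Fr (j + 1) ≫ (ρ ≫ ι₁.app P) := by
        rw [← Category.assoc, hw, Category.assoc, hy1, hk₁]
      obtain ⟨W, hW1, hW2⟩ := hcontr (j + 1) hjn hjκ P hP _ _ hpar
      refine ⟨hsq.desc y W hW1.symm, hsq.inl_desc _ _ _, ?_⟩
      rw [← hθ, Category.assoc, hsq.inr_desc, hW2]
    · -- high dimensions
      have hhigh := hC.high (j + 1) (not_le.mp hjκ)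
      have hc : (C.k₁ (j + 1) ≫ C.oB (j + 1)) ≫ y = bdι Fr (j + 1) ≫ (ρ ≫ ι₁.app P) := by
        rw [Category.assoc, hy1, hk₁]
      have hsq : IsPushout (C.k₁ (j + 1) ≫ C.oB (j + 1)) (bdι Fr (j + 1)) (C.q (j + 1))
        (C.i₁ (j + 1)) := hhigh
      exact ⟨hsq.desc _ _ hc, hsq.inl_desc _ _ _, hsq.inr_desc _ _ _⟩

theorem exists_pathOn [HasPushouts M] [HasInitial M] (S : Setting Fr) (hp : HasPaths Fr)
    (C : CylSeq Fr) {n : ℕ} {κ : ℕ∞} (hC : C.IsCyl n κ)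
    (hPO : ∀ k m : ℕ, n ≤ k → (k : ℕ∞) ≤ κ → n < m → PO Fr k m) : Nonempty (PathOn C) := by
  obtain ⟨G, φ, hG, hs, ht⟩ := exists_ext C.A C.s C.t C.s_s C.t_s
  have hs' : ∀ j, C.s j ≫ (φ (j + 1)).inv = (φ j).inv ≫ sg G j := by
    intro j
    rw [Iso.eq_inv_comp, ← Category.assoc, ← hs, Category.assoc, Iso.hom_inv_id,
      Category.comp_id]
  have ht' : ∀ j, C.t j ≫ (φ (j + 1)).inv = (φ j).inv ≫ tg G j := by
    intro j
    rw [Iso.eq_inv_comp, ← Category.assoc, ← ht, Category.assoc, Iso.hom_inv_id,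
      Category.comp_id]
  obtain ⟨ι₀, hι₀⟩ := exists_natTrans S.sums (G' := G) (fun j => C.i₀ j ≫ (φ j).inv)
    (by intro j; rw [← Category.assoc, ← C.i₀_s, Category.assoc, Category.assoc, hs'])
    (by intro j; rw [← Category.assoc, ← C.i₀_t, Category.assoc, Category.assoc, ht'])
  obtain ⟨ι₁, hι₁⟩ := exists_natTrans S.sums (G' := G) (fun j => C.i₁ j ≫ (φ j).inv)
    (by intro j; rw [← Category.assoc, ← C.i₁_s, Category.assoc, Category.assoc, hs'])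
    (by intro j; rw [← Category.assoc, ← C.i₁_t, Category.assoc, Category.assoc, ht'])
  have h₀ : ∀ j, ι₀.app (Shape.globe j) ≫ (φ j).hom = C.i₀ j := by
    intro j; rw [hι₀, Category.assoc, Iso.inv_hom_id, Category.comp_id]
  have h₁ : ∀ j, ι₁.app (Shape.globe j) ≫ (φ j).hom = C.i₁ j := by
    intro j; rw [hι₁, Category.assoc, Iso.inv_hom_id, Category.comp_id]
  have hL : Lifts Fr G ι₀ ι₁ := lifts_of_isCyl S C hC G hG φ hs ht ι₀ ι₁ h₀ h₁
    (fun k hnk hk P hP => contr_cyl S C hC G hG φ hs ht hnk hk (fun m h1 => hPO k m hnk hk h1) P hP)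
  obtain ⟨T⟩ := hp G hG ι₀ ι₁ hL
  exact ⟨{
    P := T.P
    e := fun j X => (T.e (Shape.globe j) X).trans (Iso.homCongr (φ j) (Iso.refl X))
    e_s := by
      intro j X g
      change (φ j).inv ≫ T.e _ X (Fr.map _ ≫ g) ≫ 𝟙 X = C.s j ≫ (φ (j + 1)).inv ≫ T.e _ X g ≫ 𝟙 X
      rw [T.e_left, Category.comp_id, Category.comp_id, ← Category.assoc (C.s j), hs',
        Category.assoc]
    e_t := by
      intro j X g
      change (φ j).inv ≫ T.e _ X (Fr.map _ ≫ g) ≫ 𝟙 X = C.t j ≫ (φ (j + 1)).inv ≫ T.e _ X g ≫ 𝟙 X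
      rw [T.e_left, Category.comp_id, Category.comp_id, ← Category.assoc (C.t j), ht',
        Category.assoc]
    e_right := by
      intro j X Y g h
      change (φ j).inv ≫ T.e _ Y (g ≫ T.P.map h) ≫ 𝟙 Y = ((φ j).inv ≫ T.e _ X g ≫ 𝟙 X) ≫ h
      rw [T.e_right, Category.comp_id, Category.comp_id, Category.assoc]
    ev₀ := T.ev₀
    ev₁ := T.ev₁
    e_ev₀ := by
      intro j X g
      change g ≫ T.ev₀.app X = C.i₀ j ≫ (φ j).inv ≫ T.e _ X g ≫ 𝟙 X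
      rw [T.e_ev₀, Category.comp_id, ← Category.assoc (C.i₀ j), ← hι₀]
    e_ev₁ := by
      intro j X g
      change g ≫ T.ev₁.app X = C.i₁ j ≫ (φ j).inv ≫ T.e _ X g ≫ 𝟙 X
      rw [T.e_ev₁, Category.comp_id, ← Category.assoc (C.i₁ j), ← hι₁] }⟩

end Crest.Agent.R248
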