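import Crest.Agent.R248.Adj

/-! TASK PathUse: section of `ev₀`, deformation, `po_high`. -/

set_option autoImplicit false

namespace Crest.Agent.R248

open CategoryTheory CategoryTheory.Limits Opposite
open Crest.GeometryTopology.Coherator

universe v w

variable {M : Type w} [Category.{v} M] [HasPushouts M] [HasInitial M] {Fr : Shape ⥤ M}

namespace CylSeq

variable (C : CylSeq Fr)

theorem oB_q_assoc' (j : ℕ) {X : M} (a : C.A j ⟶ X) : C.oB j ≫ C.q j ≫ a = C.δ j ≫ a := by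
  rw [← Category.assoc, C.oB_q]

theorem oD_q_assoc' (j : ℕ) {X : M} (a : C.A j ⟶ X) : C.oD j ≫ C.q j ≫ a = C.i₀ j ≫ a := by
  rw [← Category.assoc, C.oD_q]

/-- extension in a `Low` dimension -/
theorem ext_low {j : ℕ} (h : ∀ i, i ≤ j → C.Low i) {X : M} (β : C.B j ⟶ X) (c : glob Fr j ⟶ X)
    (hβ : C.k₀ j ≫ β = bdι Fr j ≫ c) :
    ∃ a : C.A j ⟶ X, C.δ j ≫ a = β ∧ C.i₀ j ≫ a = c ∧ C.i₁ j ≫ a = c := by
  have i1 : IsIso (C.k₀ j) := (C.isIso_k₀ j (fun i hi => h i (by omega))).1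
  have i2 : IsIso (C.i₀ j) := (h j le_rfl).1
  refine ⟨inv (C.i₀ j) ≫ c, ?_, by simp, ?_⟩
  · rw [← cancel_epi (C.k₀ j), hβ, ← Category.assoc, C.k₀_δ, Category.assoc,
      IsIso.hom_inv_id_assoc]
  · rw [(h j le_rfl).2]; simp

/-- extension in a `MidWith` dimension, with a given top cell -/
theorem ext_mid {j : ℕ} {w : glob Fr j ⟶ C.O j} (h : C.MidWith j w) {X : M} (β : C.B j ⟶ X)
    (c : glob Fr j ⟶ X) (hβ : C.k₀ j ≫ β = bdι Fr j ≫ c) (t : glob Fr (j + 1) ⟶ X)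
    (ht : w ≫ (C.sqO j).desc β c hβ = sg Fr j ≫ t) :
    ∃ a : C.A j ⟶ X, C.δ j ≫ a = β ∧ C.i₀ j ≫ a = c ∧ C.i₁ j ≫ a = tg Fr j ≫ t := by
  obtain ⟨_, θ, sq, hθ⟩ := h
  refine ⟨sq.desc ((C.sqO j).desc β c hβ) t ht, ?_, ?_, ?_⟩
  · rw [← C.oB_q, Category.assoc, sq.inl_desc, (C.sqO j).inl_desc]
  · rw [← C.oD_q, Category.assoc, sq.inl_desc, (C.sqO j).inr_desc]
  · rw [← hθ, Category.assoc, sq.inr_desc]

/-- extension in a `High` dimension -/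
theorem ext_high {j : ℕ} (h : C.High j) {X : M} (β : C.B j ⟶ X)
    (c : glob Fr j ⟶ X) (hβ : C.k₀ j ≫ β = bdι Fr j ≫ c) (c' : glob Fr j ⟶ X)
    (hβ' : C.k₁ j ≫ β = bdι Fr j ≫ c') :
    ∃ a : C.A j ⟶ X, C.δ j ≫ a = β ∧ C.i₀ j ≫ a = c ∧ C.i₁ j ≫ a = c' := by
  have sq : IsPushout (C.k₁ j ≫ C.oB j) (bdι Fr j) (C.q j) (C.i₁ j) := h
  have e : (C.k₁ j ≫ C.oB j) ≫ (C.sqO j).desc β c hβ = bdι Fr j ≫ c' := by
    rw [Category.assoc, (C.sqO j).inl_desc, hβ']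
  refine ⟨sq.desc ((C.sqO j).desc β c hβ) c' e, ?_, ?_, ?_⟩
  · rw [← C.oB_q, Category.assoc, sq.inl_desc, (C.sqO j).inl_desc]
  · rw [← C.oD_q, Category.assoc, sq.inl_desc, (C.sqO j).inr_desc]
  · exact sq.inr_desc _ _ _

/-- the path (top cell) of a map out of `A j` in the bottom moving dimension -/
theorem step_bot {j : ℕ} (h : C.MidWith j (C.oD j)) {X : M} (a : C.A j ⟶ X) :
    Step Fr (C.i₀ j ≫ a) (C.i₁ j ≫ a) := by
  obtain ⟨_, θ, sq, hθ⟩ := h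
  refine ⟨θ ≫ a, ?_, ?_⟩
  · rw [← Category.assoc, ← sq.w, C.oD_q]
  · rw [← Category.assoc, hθ]

/-- the path (top cell) of a map out of `A j` in a `MidWith` dimension -/
theorem step_mid {j : ℕ} {w : glob Fr j ⟶ C.O j} (h : C.MidWith j w) {X : M} (a : C.A j ⟶ X) :
    Step Fr (w ≫ C.q j ≫ a) (C.i₁ j ≫ a) := by
  obtain ⟨_, θ, sq, hθ⟩ := h
  refine ⟨θ ≫ a, ?_, ?_⟩
  · rw [← Category.assoc, ← sq.w, Category.assoc]
  · rw [← Category.assoc, hθ]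

end CylSeq

/-- `ev₀` has the RLP against generating cofibrations of level `κ` (uses the transports `w_j`, `j ≤ κ`
and `TR (κ+1)` from `CylSeq.tr_of`). -/
theorem rlp_ev₀ (S : Setting Fr) (C : CylSeq Fr) {n : ℕ} {κ : ℕ∞} (hC : C.IsCyl n κ)
    (hTR : ∀ j : ℕ, n < j → (j : ℕ∞) ≤ κ + 1 → C.TR j) (T : PathOn C) (X : M) :
    (GenCof Fr κ).rlp (T.ev₀.app X) := by
  suffices H : ∀ j : ℕ, (j : ℕ∞) ≤ κ + 1 → HasLiftingProperty (bdι Fr j) (T.ev₀.app X) by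
    intro _ _ _ hg
    cases hg with
    | mk j hj => exact H j hj
  intro j hj
  refine ⟨fun {f c} sq => ?_⟩
  obtain ⟨β, h1, h2, h3⟩ := T.exists_adj j f
  have hβ : C.k₀ j ≫ β = bdι Fr j ≫ c := by rw [h2]; exact sq.w
  have key : ∃ a : C.A j ⟶ X, C.δ j ≫ a = β ∧ C.i₀ j ≫ a = c := by
    obtain ⟨e, he1, he2⟩ := exists_unit S j
    have hmid : ∀ w : glob Fr j ⟶ C.O j, C.MidWith j w →
        ∃ a : C.A j ⟶ X, C.δ j ≫ a = β ∧ C.i₀ j ≫ a = c := by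
      intro w hw
      obtain ⟨a, ha1, ha2, _⟩ := C.ext_mid hw β c hβ (e ≫ w ≫ (C.sqO j).desc β c hβ)
        (by rw [← Category.assoc, he1, Category.id_comp])
      exact ⟨a, ha1, ha2⟩
    rcases lt_trichotomy j n with hjn | hjn | hjn
    · obtain ⟨a, ha1, ha2, _⟩ := C.ext_low (fun i hi => hC.low i (by omega)) β c hβ
      exact ⟨a, ha1, ha2⟩
    · subst hjn
      by_cases hjk : (j : ℕ∞) ≤ κ
      · exact hmid _ (hC.bot hjk)
      · obtain ⟨a, ha1, ha2, _⟩ := C.ext_high (hC.high j (not_le.1 hjk)) β c hβ c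
          (by rw [(C.isIso_k₀ j (fun i hi => hC.low i hi)).2, hβ])
        exact ⟨a, ha1, ha2⟩
    · by_cases hjk : (j : ℕ∞) ≤ κ
      · obtain ⟨w, hw⟩ := hC.mid j hjn hjk
        exact hmid w hw
      · obtain ⟨w, hw⟩ := hTR j hjn hj
        obtain ⟨a, ha1, ha2, _⟩ := C.ext_high (hC.high j (not_le.1 hjk)) β c hβ
          (w ≫ (C.sqO j).desc β c hβ) (by
            rw [← Category.assoc, hw, Category.assoc, (C.sqO j).inl_desc])
        exact ⟨a, ha1, ha2⟩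
  obtain ⟨a, ha1, ha2⟩ := key
  exact ⟨⟨⟨(T.e j X).symm a, (h1 _).2 (by rw [Equiv.apply_symm_apply, ha1]), by
    rw [T.e_ev₀, Equiv.apply_symm_apply, ha2]⟩⟩⟩

/-- sections of maps with the lifting property over cofibrant objects -/
theorem Cofibrant.exists_lift {κ : ℕ∞} {X Y B : M} (hX : Cofibrant Fr κ X) (p : Y ⟶ B)
    (hp : (GenCof Fr κ).rlp p) (g : X ⟶ B) : ∃ θ : X ⟶ Y, θ ≫ p = g := by
  have := hX p hp
  have sq : CommSq (initial.to Y) (initial.to X) p g := ⟨initialIsInitial.hom_ext _ _⟩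
  exact ⟨sq.lift, sq.fac_right⟩

/-- hence sections over cofibrant objects -/
theorem exists_section_ev₀ (S : Setting Fr) (C : CylSeq Fr) {n : ℕ} {κ : ℕ∞} (hC : C.IsCyl n κ)
    (hTR : ∀ j : ℕ, n < j → (j : ℕ∞) ≤ κ + 1 → C.TR j) (T : PathOn C) (X : M)
    (hX : Cofibrant Fr κ X) : ∃ θ : X ⟶ T.P.obj X, θ ≫ T.ev₀.app X = 𝟙 X :=
  hX.exists_lift (T.ev₀.app X) (rlp_ev₀ S C hC hTR T X) (𝟙 X)

theorem enat_le_of_lt {i j : ℕ} {κ : ℕ∞} (h : i < j) (hj : (j : ℕ∞) ≤ κ + 1) : (i : ℕ∞) ≤ κ := by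
  induction κ using ENat.recTopCoe with
  | top => exact le_top
  | coe k =>
    have : j ≤ k + 1 := by exact_mod_cast hj
    have : i ≤ k := by omega
    exact_mod_cast this

theorem CylSeq.IsCyl.tr (S : Setting Fr) (C : CylSeq Fr) {n : ℕ} {κ : ℕ∞} (hC : C.IsCyl n κ)
    (hPO : ∀ k m : ℕ, n ≤ k → (k : ℕ∞) ≤ κ → n < m → PO Fr k m) (j : ℕ) (hj : n < j)
    (hjk : (j : ℕ∞) ≤ κ + 1) : C.TR j :=
  C.tr_of S hC.low (hC.bot (enat_le_of_lt hj hjk)) hj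
    (fun i hi hij => hC.mid i hi (enat_le_of_lt hij hjk))
    (fun m hm => hPO (j - 1) m (by omega) (enat_le_of_lt (by omega) hjk) hm)

theorem CylSeq.IsCyl.contr_O' (S : Setting Fr) (C : CylSeq Fr) {n : ℕ} {κ : ℕ∞} (hC : C.IsCyl n κ)
    (hPO : ∀ k m : ℕ, n ≤ k → (k : ℕ∞) ≤ κ → n < m → PO Fr k m) (j : ℕ) (hj : n < j)
    (hjk : (j : ℕ∞) ≤ κ) : Contr Fr j (C.O j) :=
  C.contr_O S hC.low (hC.bot (le_trans (by exact_mod_cast hj.le) hjk)) hj (Nat.le_succ j) hj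
    (fun i hi hij => hC.mid i hi (le_trans (by exact_mod_cast hij.le) hjk))
    (fun m hm => hPO j m hj.le hjk hm)

/-- right whiskering: `b ~ b'` implies `b ∘ a ~ b' ∘ a` -/
theorem CompOp.whiskR (S : Setting Fr) {n : ℕ} (c : CompOp Fr n) {X : M}
    {a b b' : glob Fr (n + 1) ⟶ X} (h : tg Fr n ≫ a = sg Fr n ≫ b)
    (h' : tg Fr n ≫ a = sg Fr n ≫ b') (hs : Step Fr b b') : Step Fr (c.ap a b h) (c.ap a b' h') := by
  obtain ⟨α, rfl, rfl⟩ := hs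
  have hn : n < n + 2 := by omega
  have hsq := sq_sh2 S (a := n + 1) (h := n + 2) (Nat.lt_succ_self n) hn
  have e2 : Fr.map (Shape.faceMap hn false) = sg Fr n ≫ sg Fr (n + 1) := by
    unfold sg Shape.σ
    rw [← Fr.map_comp, faceMap_comp]
  have e2' : Fr.map (Shape.faceMap hn false) = sg Fr n ≫ tg Fr (n + 1) := by
    rw [e2, sg_sg]
  set L := Fr.map ((Shape.globe (n + 1)).inLeft n (n + 2) (Nat.lt_succ_self n) hn) with hL
  set R := Fr.map ((Shape.globe (n + 1)).inRight n (n + 2) (Nat.lt_succ_self n) hn) with hR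
  have w1 : tg Fr n ≫ L = sg Fr n ≫ (sg Fr (n + 1) ≫ R) := by
    rw [← Category.assoc, ← e2]; exact hsq.w
  have w2 : tg Fr n ≫ L = sg Fr n ≫ (tg Fr (n + 1) ≫ R) := by
    rw [← Category.assoc, ← e2']; exact hsq.w
  have e : Fr.map (Shape.faceMap (Nat.lt_succ_self n) true) ≫ a =
      Fr.map (Shape.faceMap hn false) ≫ α := by
    rw [e2, Category.assoc]; exact h
  have key := S.step (k := n + 1) (sh2 (n + 1) n (n + 2) (Nat.lt_succ_self n) hn)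
    (by rw [dim_sh2]; omega) (hsq.desc a α e)
    (c.ap L (sg Fr (n + 1) ≫ R) w1) (c.ap L (tg Fr (n + 1) ≫ R) w2)
    (by
      apply bdι_succ_ext
      · rw [c.sg_ap, c.sg_ap]
      · rw [c.tg_ap, c.tg_ap, ← Category.assoc, ← Category.assoc, tg_sg])
  rw [c.ap_comp, c.ap_comp] at key
  convert key using 2
  · exact (hsq.inl_desc _ _ _).symm
  · rw [Category.assoc, hsq.inr_desc]
  · exact (hsq.inl_desc _ _ _).symm
  · rw [Category.assoc, hsq.inr_desc]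

/-- inverse law -/
theorem CompOp.inv_ap (S : Setting Fr) {n : ℕ} (c : CompOp Fr n)
    (iv : glob Fr (n + 1) ⟶ glob Fr (n + 1)) (hi1 : sg Fr n ≫ iv = tg Fr n)
    (hi2 : tg Fr n ≫ iv = sg Fr n)
    (e : glob Fr (n + 1) ⟶ glob Fr n) (he1 : sg Fr n ≫ e = 𝟙 _) (he2 : tg Fr n ≫ e = 𝟙 _) {X : M}
    (l : glob Fr (n + 1) ⟶ X) (h : tg Fr n ≫ (iv ≫ l) = sg Fr n ≫ l) :
    Step Fr (c.ap (iv ≫ l) l h) (e ≫ tg Fr n ≫ l) := by
  have w3 : tg Fr n ≫ iv = sg Fr n ≫ 𝟙 (glob Fr (n + 1)) := by rw [Category.comp_id, hi2]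
  have s2 := S.step (k := n + 1) (Shape.globe (n + 1)) (by rw [dim_globe]; omega) l
    (c.ap iv (𝟙 _) w3) (e ≫ tg Fr n) (by
      apply bdι_succ_ext
      · rw [c.sg_ap, hi1, ← Category.assoc, he1, Category.id_comp]
      · rw [c.tg_ap, Category.comp_id, ← Category.assoc, he2, Category.id_comp])
  rw [c.ap_comp] at s2
  simpa only [Category.id_comp, Category.assoc] using s2

/-- division for a given composition operation -/
theorem CompOp.exists_div (S : Setting Fr) {n : ℕ} (c : CompOp Fr n) {X : M}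
    (l f : glob Fr (n + 1) ⟶ X) (hlf : sg Fr n ≫ l = sg Fr n ≫ f) :
    ∃ (g : glob Fr (n + 1) ⟶ X) (h : tg Fr n ≫ l = sg Fr n ≫ g),
      tg Fr n ≫ g = tg Fr n ≫ f ∧ Step Fr (c.ap l g h) f := by
  obtain ⟨iv, hi1, hi2⟩ := exists_inv S n
  obtain ⟨e, he1, he2⟩ := exists_unit S n
  have w1 : tg Fr n ≫ (iv ≫ l) = sg Fr n ≫ f := by rw [← Category.assoc, hi2, hlf]
  have w2 : tg Fr n ≫ l = sg Fr n ≫ (iv ≫ l) := by rw [← Category.assoc, hi1]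
  refine ⟨c.ap (iv ≫ l) f w1, by rw [c.sg_ap, w2], c.tg_ap _ _ _, ?_⟩
  refine ((c.assoc S w2 w1).symm S).trans S ?_
  have w3 : tg Fr n ≫ 𝟙 (glob Fr (n + 1)) = sg Fr n ≫ iv := by rw [Category.comp_id, hi1]
  have s2 := S.step (k := n + 1) (Shape.globe (n + 1)) (by rw [dim_globe]; omega) l
    (c.ap (𝟙 _) iv w3) (e ≫ sg Fr n) (by
      apply bdι_succ_ext
      · rw [c.sg_ap, Category.comp_id, ← Category.assoc, he1, Category.id_comp]
      · rw [c.tg_ap, hi2, ← Category.assoc, he2, Category.id_comp])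
  rw [c.ap_comp] at s2
  simp only [Category.id_comp] at s2
  have w4 : tg Fr n ≫ ((e ≫ sg Fr n) ≫ l) = sg Fr n ≫ f := by
    rw [← Category.assoc, ← Category.assoc, he2, Category.id_comp, hlf]
  refine (c.whiskL S (b := f) _ w4 s2).trans S ?_
  have w5 : tg Fr n ≫ (e ≫ sg Fr n) = sg Fr n ≫ 𝟙 (glob Fr (n + 1)) := by
    rw [← Category.assoc, he2, Category.id_comp, Category.comp_id]
  have s3 := S.step (k := n + 1) (Shape.globe (n + 1)) (by rw [dim_globe]; omega) f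
    (c.ap (e ≫ sg Fr n) (𝟙 _) w5) (𝟙 _) (by
      apply bdι_succ_ext
      · rw [c.sg_ap, Category.comp_id, ← Category.assoc, he1, Category.id_comp]
      · rw [c.tg_ap])
  rw [c.ap_comp] at s3
  simp only [Category.id_comp] at s3
  convert s3 using 2
  rw [Category.assoc, Category.assoc, hlf]

/-- the key cell: an `(n+1)`-cell of the path object over `b : a0 → a0'` and the unit of `a1`, with
prescribed source. -/
theorem exists_newCell (S : Setting Fr) (C : CylSeq Fr) {n : ℕ} {κ : ℕ∞}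
    (hC : C.IsCyl n κ) (hPO : ∀ k m : ℕ, n ≤ k → (k : ℕ∞) ≤ κ → n < m → PO Fr k m) {Y : M}
    (Aθ : C.A n ⟶ Y) (a0 a1 : glob Fr n ⟶ Y) (hA0 : C.i₀ n ≫ Aθ = a0) (hA1 : C.i₁ n ≫ Aθ = a1)
    (b : glob Fr (n + 1) ⟶ Y) (hb0 : sg Fr n ≫ b = a0)
    (e : glob Fr (n + 1) ⟶ glob Fr n) (he : sg Fr n ≫ e = 𝟙 _) (he' : tg Fr n ≫ e = 𝟙 _) :
    ∃ Aβ : C.A (n + 1) ⟶ Y, C.s n ≫ Aβ = Aθ ∧ C.i₀ (n + 1) ≫ Aβ = b ∧
      C.i₁ (n + 1) ≫ Aβ = e ≫ a1 := by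
  have hHk : C.k₀ n ≫ C.δ n ≫ Aθ = bdι Fr n ≫ tg Fr n ≫ b := by
    rw [← Category.assoc, C.k₀_δ, Category.assoc, hA0, ← hb0, ← Category.assoc, bdι_sg,
      Category.assoc]
  have hHk1 : C.k₁ n ≫ C.δ n ≫ Aθ = bdι Fr n ≫ a1 := by
    rw [← Category.assoc, C.k₁_δ, Category.assoc, hA1]
  -- the boundary of the new path from the target cell
  have bdy : ∀ (AH : C.A n ⟶ Y) (hAHδ : C.δ n ≫ AH = C.δ n ≫ Aθ) (_ : C.i₀ n ≫ AH = tg Fr n ≫ b)
      (_ : C.i₁ n ≫ AH = a1),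
      C.k₀ (n + 1) ≫ (C.sq n).desc Aθ AH hAHδ.symm = bdι Fr (n + 1) ≫ b ∧
      C.k₁ (n + 1) ≫ (C.sq n).desc Aθ AH hAHδ.symm = bdι Fr (n + 1) ≫ e ≫ a1 := by
    intro AH hAHδ hAH0 hAH1
    constructor
    · apply (bd_sq Fr n).hom_ext
      · rw [← Category.assoc, C.inl_k₀, Category.assoc, (C.sq n).inl_desc, hA0,
          ← Category.assoc, bdInl_bdι, hb0]
      · rw [← Category.assoc, C.inr_k₀, Category.assoc, (C.sq n).inr_desc, hAH0,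
          ← Category.assoc, bdInr_bdι]
    · apply (bd_sq Fr n).hom_ext
      · rw [← Category.assoc, C.inl_k₁, Category.assoc, (C.sq n).inl_desc, hA1,
          ← Category.assoc (bdInl Fr n), bdInl_bdι, ← Category.assoc, he, Category.id_comp]
      · rw [← Category.assoc, C.inr_k₁, Category.assoc, (C.sq n).inr_desc, hAH1,
          ← Category.assoc (bdInr Fr n), bdInr_bdι, ← Category.assoc, he', Category.id_comp]
  by_cases hnκ : (n : ℕ∞) ≤ κ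
  swap
  · -- everything is `High`
    obtain ⟨AH, h1, h2, h3⟩ := C.ext_high (hC.high n (not_le.1 hnκ)) (C.δ n ≫ Aθ)
      (tg Fr n ≫ b) hHk a1 hHk1
    obtain ⟨hk0, hk1⟩ := bdy AH h1 h2 h3
    have hh : κ < ((n + 1 : ℕ) : ℕ∞) :=
      lt_of_lt_of_le (not_le.1 hnκ) (by exact_mod_cast Nat.le_succ n)
    obtain ⟨Aβ, q1, q2, q3⟩ := C.ext_high (hC.high (n + 1) hh) _ b hk0 (e ≫ a1) hk1
    exact ⟨Aβ, by unfold CylSeq.s; rw [Category.assoc, q1, (C.sq n).inl_desc], q2, q3⟩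
  obtain ⟨c⟩ := nonempty_compOp S n
  obtain ⟨iv, hi1, hi2⟩ := exists_inv S n
  obtain ⟨_, θn, sqn, hθn⟩ := hC.bot hnκ
  have hsgθ : sg Fr n ≫ θn = C.i₀ n := by rw [← sqn.w, C.oD_q]
  set th : glob Fr (n + 1) ⟶ Y := θn ≫ Aθ with hth
  have hth0 : sg Fr n ≫ th = a0 := by rw [hth, ← Category.assoc, hsgθ, hA0]
  have hth1 : tg Fr n ≫ th = a1 := by rw [hth, ← Category.assoc, hθn, hA1]
  -- the target cell of the new path
  obtain ⟨H', hH'1, hH'2, hH'3⟩ := c.exists_div S b th (by rw [hb0, hth0])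
  set xH : C.O n ⟶ Y := (C.sqO n).desc (C.δ n ≫ Aθ) (tg Fr n ≫ b) hHk with hxH
  have hxH' : C.oD n ≫ xH = sg Fr n ≫ H' := by rw [hxH, (C.sqO n).inr_desc, hH'1]
  set AH : C.A n ⟶ Y := sqn.desc xH H' hxH' with hAH
  have hAH0 : C.i₀ n ≫ AH = tg Fr n ≫ b := by
    rw [← C.oD_q, Category.assoc, hAH, sqn.inl_desc, hxH, (C.sqO n).inr_desc]
  have hAHθ : θn ≫ AH = H' := by rw [hAH, sqn.inr_desc]
  have hAH1 : C.i₁ n ≫ AH = a1 := by
    rw [← hθn, Category.assoc, hAHθ, hH'2, hth1]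
  have hAHδ : C.δ n ≫ AH = C.δ n ≫ Aθ := by
    rw [← C.oB_q, Category.assoc, hAH, sqn.inl_desc, hxH, (C.sqO n).inl_desc, C.oB_q]
  obtain ⟨hk0, hk1⟩ := bdy AH hAHδ hAH0 hAH1
  set Bβ : C.B (n + 1) ⟶ Y := (C.sq n).desc Aθ AH hAHδ.symm with hBβ
  have hBl : C.inl n ≫ Bβ = Aθ := (C.sq n).inl_desc _ _ _
  have hBr : C.inr n ≫ Bβ = AH := (C.sq n).inr_desc _ _ _
  suffices key : ∃ Aβ : C.A (n + 1) ⟶ Y, C.δ (n + 1) ≫ Aβ = Bβ ∧ C.i₀ (n + 1) ≫ Aβ = b ∧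
      C.i₁ (n + 1) ≫ Aβ = e ≫ a1 by
    obtain ⟨Aβ, q1, q2, q3⟩ := key
    exact ⟨Aβ, by unfold CylSeq.s; rw [Category.assoc, q1, hBl], q2, q3⟩
  by_cases hn : ((n + 1 : ℕ) : ℕ∞) ≤ κ
  · obtain ⟨w, hw⟩ := hC.mid (n + 1) (Nat.lt_succ_self n) hn
    have hcontr := hC.contr_O' S C hPO (n + 1) (Nat.lt_succ_self n) hn
    have hw1 : bdι Fr (n + 1) ≫ w = C.k₁ (n + 1) ≫ C.oB (n + 1) := hw.1
    set hs : glob Fr (n + 1) ⟶ C.O (n + 1) := θn ≫ C.inl n ≫ C.oB (n + 1) with hhs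
    set ht : glob Fr (n + 1) ⟶ C.O (n + 1) := θn ≫ C.inr n ≫ C.oB (n + 1) with hht
    have hs0 : sg Fr n ≫ hs = C.i₀ n ≫ C.inl n ≫ C.oB (n + 1) := by
      rw [hhs, ← Category.assoc, hsgθ]
    have hs1 : tg Fr n ≫ hs = C.i₁ n ≫ C.inl n ≫ C.oB (n + 1) := by
      rw [hhs, ← Category.assoc, hθn]
    have ht0 : sg Fr n ≫ ht = C.i₀ n ≫ C.inr n ≫ C.oB (n + 1) := by
      rw [hht, ← Category.assoc, hsgθ]
    have ht1 : tg Fr n ≫ ht = C.i₁ n ≫ C.inr n ≫ C.oB (n + 1) := by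
      rw [hht, ← Category.assoc, hθn]
    have hc0 : sg Fr n ≫ C.oD (n + 1) = C.i₀ n ≫ C.inl n ≫ C.oB (n + 1) := by
      rw [← bdInl_bdι, Category.assoc, ← (C.sqO (n + 1)).w, ← Category.assoc, C.inl_k₀,
        Category.assoc]
    have hc1 : tg Fr n ≫ C.oD (n + 1) = C.i₀ n ≫ C.inr n ≫ C.oB (n + 1) := by
      rw [← bdInr_bdι, Category.assoc, ← (C.sqO (n + 1)).w, ← Category.assoc, C.inr_k₀,
        Category.assoc]
    have hw0 : sg Fr n ≫ w = C.i₁ n ≫ C.inl n ≫ C.oB (n + 1) := by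
      rw [← bdInl_bdι, Category.assoc, hw1, ← Category.assoc, C.inl_k₁, Category.assoc]
    have hw2 : tg Fr n ≫ w = C.i₁ n ≫ C.inr n ≫ C.oB (n + 1) := by
      rw [← bdInr_bdι, Category.assoc, hw1, ← Category.assoc, C.inr_k₁, Category.assoc]
    have u1 : tg Fr n ≫ C.oD (n + 1) = sg Fr n ≫ ht := by rw [hc1, ht0]
    have u2 : tg Fr n ≫ (iv ≫ hs) = sg Fr n ≫ c.ap (C.oD (n + 1)) ht u1 := by
      rw [← Category.assoc, hi2, hs0, c.sg_ap, hc0]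
    have hst : Step Fr w (c.ap (iv ≫ hs) (c.ap (C.oD (n + 1)) ht u1) u2) := by
      apply hcontr
      apply bdι_succ_ext
      · rw [c.sg_ap, ← Category.assoc, hi1, hs1, hw0]
      · rw [c.tg_ap, c.tg_ap, ht1, hw2]
    set x : C.O (n + 1) ⟶ Y := (C.sqO (n + 1)).desc Bβ b hk0 with hx
    have ex1 : (iv ≫ hs) ≫ x = iv ≫ th := by
      rw [hhs, Category.assoc, Category.assoc, Category.assoc, hx, (C.sqO (n + 1)).inl_desc,
        hBl]
    have ex2 : C.oD (n + 1) ≫ x = b := (C.sqO (n + 1)).inr_desc _ _ _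
    have ex3 : ht ≫ x = H' := by
      rw [hht, Category.assoc, Category.assoc, hx, (C.sqO (n + 1)).inl_desc, hBr, hAHθ]
    have hst' := hst.comp x
    rw [c.ap_comp] at hst'
    simp only [c.ap_comp, ex1, ex2, ex3] at hst'
    have u3 : tg Fr n ≫ (iv ≫ th) = sg Fr n ≫ th := by rw [← Category.assoc, hi2]
    have hst2 := (hst'.trans S (c.whiskR S _ u3 hH'3)).trans S
      (c.inv_ap S iv hi1 hi2 e he he' th u3)
    rw [hth1] at hst2
    obtain ⟨t, ht1', ht2'⟩ := hst2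
    obtain ⟨Aβ, h1, h2, h3⟩ := C.ext_mid hw Bβ b hk0 t ht1'.symm
    exact ⟨Aβ, h1, h2, by rw [h3, ht2']⟩
  · exact C.ext_high (hC.high (n + 1) (not_le.1 hn)) Bβ b hk0 (e ≫ a1) hk1

/-- Deformation of `Y = X ∪_a D_{n+1}` into `X`. -/
theorem exists_deformation (S : Setting Fr) (_hp : HasPaths Fr) (C : CylSeq Fr) {n : ℕ} {κ : ℕ∞}
    (hC : C.IsCyl n κ) (hPO : ∀ k m : ℕ, n ≤ k → (k : ℕ∞) ≤ κ → n < m → PO Fr k m)
    (T : PathOn C) {X Y : M} (hX : Cofibrant Fr κ X) (a : glob Fr n ⟶ X) (i : X ⟶ Y)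
    (b : glob Fr (n + 1) ⟶ Y) (sq : IsPushout a (sg Fr n) i b)
    (e : glob Fr (n + 1) ⟶ glob Fr n) (he : sg Fr n ≫ e = 𝟙 _) (he' : tg Fr n ≫ e = 𝟙 _) :
    ∃ (Θ : Y ⟶ T.P.obj Y) (r' : Y ⟶ X), Θ ≫ T.ev₀.app Y = 𝟙 Y ∧ Θ ≫ T.ev₁.app Y = r' ≫ i ∧
      b ≫ r' = e ≫ a ≫ i ≫ r' := by
  obtain ⟨θ, hθ⟩ := exists_section_ev₀ S C hC (fun j hj hjk => hC.tr S C hPO j hj hjk) T X hX
  have nat0 : T.P.map i ≫ T.ev₀.app Y = T.ev₀.app X ≫ i := T.ev₀.naturality i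
  have nat1 : T.P.map i ≫ T.ev₁.app Y = T.ev₁.app X ≫ i := T.ev₁.naturality i
  obtain ⟨Aβ, hβ1, hβ2, hβ3⟩ := exists_newCell S C hC hPO (T.e n Y (a ≫ θ ≫ T.P.map i)) (a ≫ i)
    (a ≫ θ ≫ T.ev₁.app X ≫ i)
    (by rw [← T.e_ev₀, Category.assoc, Category.assoc, nat0, ← Category.assoc θ, hθ,
      Category.id_comp])
    (by rw [← T.e_ev₁, Category.assoc, Category.assoc, nat1])
    b sq.w.symm e he he'
  set βc : glob Fr (n + 1) ⟶ T.P.obj Y := (T.e (n + 1) Y).symm Aβ with hβc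
  have hcompat : a ≫ θ ≫ T.P.map i = sg Fr n ≫ βc := by
    apply (T.e n Y).injective
    rw [T.e_s, hβc, Equiv.apply_symm_apply, hβ1]
  have hcompat' : a ≫ θ ≫ T.ev₁.app X = sg Fr n ≫ e ≫ a ≫ θ ≫ T.ev₁.app X := by
    rw [← Category.assoc (sg Fr n), he, Category.id_comp]
  refine ⟨sq.desc (θ ≫ T.P.map i) βc hcompat,
    sq.desc (θ ≫ T.ev₁.app X) (e ≫ a ≫ θ ≫ T.ev₁.app X) hcompat', ?_, ?_, ?_⟩
  · apply sq.hom_ext
    · rw [← Category.assoc, sq.inl_desc, Category.assoc, nat0, ← Category.assoc, hθ]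
      simp
    · rw [← Category.assoc, sq.inr_desc, T.e_ev₀, hβc, Equiv.apply_symm_apply, hβ2]
      simp
  · apply sq.hom_ext
    · rw [← Category.assoc, sq.inl_desc, Category.assoc, nat1, ← Category.assoc i, sq.inl_desc,
        Category.assoc]
    · rw [← Category.assoc, sq.inr_desc, T.e_ev₁, hβc, Equiv.apply_symm_apply, hβ3,
        ← Category.assoc b, sq.inr_desc]
      simp only [Category.assoc]
  · rw [sq.inr_desc, sq.inl_desc]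

section high

variable [HasColimitsOfSize.{v, v} M]

/-- `PO k m` for `m > k`: use the cylinder with `n = m`, `κ = m - 1` (no `PO` hypothesis needed). -/
theorem po_high (S : Setting Fr) (hp : HasPaths Fr) {k m : ℕ} (hm : k < m) : PO Fr k m := by
  obtain ⟨κ, rfl⟩ : ∃ κ, m = κ + 1 := ⟨m - 1, by omega⟩
  have hkκ : k ≤ κ := by omega
  have hPO : ∀ k' m : ℕ, κ + 1 ≤ k' → (k' : ℕ∞) ≤ (κ : ℕ∞) → κ + 1 < m → PO Fr k' m := by
    intro k' m h1 h2 _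
    have : k' ≤ κ := by exact_mod_cast h2
    omega
  intro X hX a Y i b sq hXk u v huv
  obtain ⟨C, hC⟩ := exists_isCyl S (κ + 1) (κ : ℕ∞) (by exact_mod_cast le_rfl) hPO
  obtain ⟨T⟩ := exists_pathOn S hp C hC hPO
  obtain ⟨e, he, he'⟩ := exists_unit S (κ + 1)
  have hX' : Cofibrant Fr (κ : ℕ∞) X := Cof.mono (by exact_mod_cast hkκ) hX
  obtain ⟨Θ, r', h0, h1, -⟩ := exists_deformation S hp C hC hPO T hX' a i b sq e he he'
  have key : ∀ w : glob Fr k ⟶ Y, w = (w ≫ r') ≫ i := by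
    intro w
    have e0 := T.e_ev₀ (w ≫ Θ)
    have e1 := T.e_ev₁ (w ≫ Θ)
    rw [Category.assoc, h0, Category.comp_id] at e0
    rw [Category.assoc, h1, (hC.low k (by omega)).2, ← e0] at e1
    rw [Category.assoc]
    exact e1.symm
  rw [key u, key v]
  refine (hXk (u ≫ r') (v ≫ r') ?_).comp i
  rw [← Category.assoc, ← Category.assoc, huv]

end high

end Crest.Agent.R248
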