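import Crest.Agent.R248.PathUse
import Crest.Agent.R248.Adj
import Crest.Agent.R248.CylContr

/-! TASK TopFun: top functoriality and backward transport. -/

set_option autoImplicit false

namespace Crest.Agent.R248

open CategoryTheory CategoryTheory.Limits Opposite
open Crest.GeometryTopology.Coherator

universe v w

variable {M : Type w} [Category.{v} M] [HasPushouts M] [HasInitial M] {Fr : Shape ⥤ M}

theorem rlp_genCof {κ : ℕ∞} {A B : M} (p : A ⟶ B)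
    (h : ∀ i : ℕ, (i : ℕ∞) ≤ κ + 1 → HasLiftingProperty (bdι Fr i) p) : (GenCof Fr κ).rlp p := by
  intro _ _ _ hgen
  obtain ⟨i, hi⟩ := hgen
  exact h i hi

/-- extension of cylinders constant on the boundary, in an `n`-cylinder truncated at `n` -/
theorem exists_const_ext (S : Setting Fr) (C : CylSeq Fr) {n : ℕ} (hC : C.IsCyl n n) (i : ℕ) {X : M}
    (û : C.B i ⟶ X) (x : glob Fr i ⟶ X) (h₀ : C.k₀ i ≫ û = bdι Fr i ≫ x)
    (h₁ : C.k₁ i ≫ û = bdι Fr i ≫ x) :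
    ∃ R : C.A i ⟶ X, C.δ i ≫ R = û ∧ C.i₀ i ≫ R = x ∧ C.i₁ i ≫ R = x := by
  obtain ⟨y, hy1, hy2⟩ : ∃ y : C.O i ⟶ X, C.oB i ≫ y = û ∧ C.oD i ≫ y = x :=
    ⟨(C.sqO i).desc û x h₀, (C.sqO i).inl_desc _ _ _, (C.sqO i).inr_desc _ _ _⟩
  suffices hq : ∃ R : C.A i ⟶ X, C.q i ≫ R = y ∧ C.i₁ i ≫ R = x by
    obtain ⟨R, hR1, hR2⟩ := hq
    refine ⟨R, ?_, ?_, hR2⟩
    · rw [← C.oB_q, Category.assoc, hR1, hy1]
    · rw [← C.oD_q, Category.assoc, hR1, hy2]
  rcases lt_trichotomy i n with hi | hi | hi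
  · have hlow := hC.low i hi
    have := hlow.1
    refine ⟨inv (C.i₀ i) ≫ x, ?_, ?_⟩
    · apply (C.sqO i).hom_ext
      · have hk := (C.isIso_k₀ i (fun i' hi' => hC.low i' (by omega))).1
        rw [hy1, ← cancel_epi (C.k₀ i), ← Category.assoc (C.oB i), C.oB_q, ← Category.assoc,
          C.k₀_δ, Category.assoc, IsIso.hom_inv_id_assoc, h₀]
      · rw [hy2, ← Category.assoc, C.oD_q, IsIso.hom_inv_id_assoc]
    · rw [hlow.2, IsIso.hom_inv_id_assoc]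
  · subst hi
    obtain ⟨-, θ, hsq, hθ⟩ := hC.bot le_rfl
    obtain ⟨e, he, he'⟩ := exists_unit S i
    have hw : C.oD i ≫ y = sg Fr i ≫ e ≫ x := by
      rw [hy2, ← Category.assoc, he, Category.id_comp]
    refine ⟨hsq.desc y (e ≫ x) hw, hsq.inl_desc _ _ _, ?_⟩
    rw [← hθ, Category.assoc, hsq.inr_desc, ← Category.assoc, he', Category.id_comp]
  · have hh : IsPushout (C.k₁ i ≫ C.oB i) (bdι Fr i) (C.q i) (C.i₁ i) :=
      hC.high i (by exact_mod_cast hi)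
    have hw : (C.k₁ i ≫ C.oB i) ≫ y = bdι Fr i ≫ x := by rw [Category.assoc, hy1, h₁]
    exact ⟨hh.desc y x hw, hh.inl_desc _ _ _, hh.inr_desc _ _ _⟩

variable [HasColimitsOfSize.{v, v} M] [HasEqualizers M]

/-- TF(j): let `Kz` be `K` with a free `j`-cell `z` attached. If two maps `f g : Kz ⟶ X` agree on `K` and
send `z` to `Step`-related cells then they send every `j`-cell to `Step`-related cells.
(Use the `j`-cylinder truncated at `κ = j`, whose `PO` hypotheses are covered by `po_high`.) -/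
theorem top_functoriality (S : Setting Fr) (hp : HasPaths Fr) (j : ℕ) {K Kz : M}
    (hK : Cofibrant Fr ⊤ K) (s : bd Fr j ⟶ K) (inK : K ⟶ Kz) (z : glob Fr j ⟶ Kz)
    (sq : IsPushout s (bdι Fr j) inK z) (φ : glob Fr j ⟶ Kz) {X : M} (f g : Kz ⟶ X)
    (hfg : inK ≫ f = inK ≫ g) (h : Step Fr (z ≫ f) (z ≫ g)) : Step Fr (φ ≫ f) (φ ≫ g) := by
  have hPO : ∀ k m : ℕ, j ≤ k → (k : ℕ∞) ≤ (j : ℕ∞) → j < m → PO Fr k m := by
    intro k m h1 h2 h3
    have h2' : k ≤ j := by exact_mod_cast h2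
    exact po_high S hp (by omega)
  obtain ⟨C, hC⟩ := exists_isCyl S j (j : ℕ∞) le_self_add hPO
  obtain ⟨T⟩ := exists_pathOn S hp C hC hPO
  -- the reflexive part of the path object
  let E : M := equalizer (T.ev₀.app X) (T.ev₁.app X)
  let ι : E ⟶ T.P.obj X := equalizer.ι _ _
  have hι : ι ≫ T.ev₀.app X = ι ≫ T.ev₁.app X := equalizer.condition _ _
  have hrlp : (GenCof Fr ⊤).rlp (ι ≫ T.ev₀.app X) := by
    apply rlp_genCof
    intro i _
    constructor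
    intro u x sqr
    have sqrw := sqr.w
    obtain ⟨û, hû, hû₀, hû₁⟩ := T.exists_adj i (u ≫ ι)
    have h₀ : C.k₀ i ≫ û = bdι Fr i ≫ x := by
      rw [hû₀, Category.assoc]; exact sqrw
    have h₁ : C.k₁ i ≫ û = bdι Fr i ≫ x := by
      rw [hû₁, Category.assoc, ← hι]; exact sqrw
    obtain ⟨R, hR, hR₀, hR₁⟩ := exists_const_ext S C hC i û x h₀ h₁
    have hd : bdι Fr i ≫ (T.e i X).symm R = u ≫ ι := (hû _).2 (by
      rw [Equiv.apply_symm_apply, hR])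
    have hd₀ : (T.e i X).symm R ≫ T.ev₀.app X = x := by
      rw [T.e_ev₀, Equiv.apply_symm_apply, hR₀]
    have hd₁ : (T.e i X).symm R ≫ T.ev₁.app X = x := by
      rw [T.e_ev₁, Equiv.apply_symm_apply, hR₁]
    refine ⟨⟨⟨equalizer.lift ((T.e i X).symm R) (hd₀.trans hd₁.symm), ?_, ?_⟩⟩⟩
    · apply equalizer.hom_ext
      rw [Category.assoc, equalizer.lift_ι]
      exact hd
    · change equalizer.lift ((T.e i X).symm R) (hd₀.trans hd₁.symm) ≫
        equalizer.ι (T.ev₀.app X) (T.ev₁.app X) ≫ T.ev₀.app X = x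
      rw [← Category.assoc, equalizer.lift_ι, hd₀]
  -- lift `K`
  have hlift : HasLiftingProperty (initial.to K) (ι ≫ T.ev₀.app X) := hK _ hrlp
  have sqK : CommSq (initial.to E) (initial.to K) (ι ≫ T.ev₀.app X) (inK ≫ f) :=
    ⟨initialIsInitial.hom_ext _ _⟩
  obtain ⟨l, -, hl⟩ := (hlift.sq_hasLift sqK).exists_lift.some
  have hκ₀ : (l ≫ ι) ≫ T.ev₀.app X = inK ≫ f := by rw [Category.assoc, hl]
  have hκ₁ : (l ≫ ι) ≫ T.ev₁.app X = inK ≫ g := by
    rw [Category.assoc, ← hι, hl, hfg]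
  -- extend to `Kz`
  obtain ⟨v, hv₀, hv₁⟩ := h
  obtain ⟨-, θ, hsq, hθ⟩ := hC.bot le_rfl
  obtain ⟨û, hû, hû₀, hû₁⟩ := T.exists_adj j (s ≫ l ≫ ι)
  have h₀ : C.k₀ j ≫ û = bdι Fr j ≫ z ≫ f := by
    rw [hû₀, Category.assoc, hκ₀, ← Category.assoc, sq.w, Category.assoc]
  obtain ⟨y, hy1, hy2⟩ : ∃ y : C.O j ⟶ X, C.oB j ≫ y = û ∧ C.oD j ≫ y = z ≫ f :=
    ⟨(C.sqO j).desc û _ h₀, (C.sqO j).inl_desc _ _ _, (C.sqO j).inr_desc _ _ _⟩
  obtain ⟨R, hR1, hR2⟩ : ∃ R : C.A j ⟶ X, C.q j ≫ R = y ∧ θ ≫ R = v :=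
    ⟨hsq.desc y v (by rw [hy2, hv₀]), hsq.inl_desc _ _ _, hsq.inr_desc _ _ _⟩
  have hζ : bdι Fr j ≫ (T.e j X).symm R = s ≫ l ≫ ι := (hû _).2 (by
    rw [Equiv.apply_symm_apply, ← C.oB_q, Category.assoc, hR1, hy1])
  have hζ₀ : (T.e j X).symm R ≫ T.ev₀.app X = z ≫ f := by
    rw [T.e_ev₀, Equiv.apply_symm_apply, ← C.oD_q, Category.assoc, hR1, hy2]
  have hζ₁ : (T.e j X).symm R ≫ T.ev₁.app X = z ≫ g := by
    rw [T.e_ev₁, Equiv.apply_symm_apply, ← hθ, Category.assoc, hR2, hv₁]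
  obtain ⟨Θ, hΘ1, hΘ2⟩ : ∃ Θ : Kz ⟶ T.P.obj X, inK ≫ Θ = l ≫ ι ∧ z ≫ Θ = (T.e j X).symm R :=
    ⟨sq.desc _ _ hζ.symm, sq.inl_desc _ _ _, sq.inr_desc _ _ _⟩
  have hΘ₀ : Θ ≫ T.ev₀.app X = f := by
    apply sq.hom_ext
    · rw [← Category.assoc, hΘ1]; exact hκ₀
    · rw [← Category.assoc, hΘ2, hζ₀]
  have hΘ₁ : Θ ≫ T.ev₁.app X = g := by
    apply sq.hom_ext
    · rw [← Category.assoc, hΘ1]; exact hκ₁
    · rw [← Category.assoc, hΘ2, hζ₁]
  refine ⟨θ ≫ T.e j X (φ ≫ Θ), ?_, ?_⟩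
  · rw [← Category.assoc, ← hsq.w, C.oD_q, ← T.e_ev₀, Category.assoc, hΘ₀]
  · rw [← Category.assoc, hθ, ← T.e_ev₁, Category.assoc, hΘ₁]

/-- TR' in cell form: backward transport of `Step`. -/
theorem step_i₀_of_step_i₁ (S : Setting Fr) (hp : HasPaths Fr) (C : CylSeq Fr) {n : ℕ} {κ : ℕ∞}
    (hC : C.IsCyl n κ) (hPO : ∀ k m : ℕ, n ≤ k → (k : ℕ∞) ≤ κ → n < m → PO Fr k m)
    (j : ℕ) (hj : (j : ℕ∞) ≤ κ) {X : M} (p q : C.A j ⟶ X) (hpq : C.δ j ≫ p = C.δ j ≫ q)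
    (h : Step Fr (C.i₁ j ≫ p) (C.i₁ j ≫ q)) : Step Fr (C.i₀ j ≫ p) (C.i₀ j ≫ q) := by
  induction j generalizing X with
  | zero =>
    rcases Nat.eq_zero_or_pos n with hn | hn
    · subst hn
      obtain ⟨-, θ, hsq, hθ⟩ := hC.bot hj
      have hst : ∀ r : C.A 0 ⟶ X, Step Fr (C.i₀ 0 ≫ r) (C.i₁ 0 ≫ r) := fun r =>
        ⟨θ ≫ r, by rw [← Category.assoc, ← hsq.w, C.oD_q], by rw [← Category.assoc, hθ]⟩
      exact ((hst p).trans S h).trans S ((hst q).symm S)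
    · have := (hC.low 0 hn).2
      rwa [this] at h
  | succ j ih =>
    rcases lt_trichotomy (j + 1) n with hn | hn | hn
    · have := (hC.low (j + 1) hn).2
      rwa [this] at h
    · subst hn
      obtain ⟨-, θ, hsq, hθ⟩ := hC.bot hj
      have hst : ∀ r : C.A (j + 1) ⟶ X, Step Fr (C.i₀ (j + 1) ≫ r) (C.i₁ (j + 1) ≫ r) := fun r =>
        ⟨θ ≫ r, by rw [← Category.assoc, ← hsq.w, C.oD_q], by rw [← Category.assoc, hθ]⟩
      exact ((hst p).trans S h).trans S ((hst q).symm S)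
    · obtain ⟨w, hw, θ, hsq, hθ⟩ := hC.mid (j + 1) hn hj
      have hj' : (j : ℕ∞) ≤ κ := le_trans (by exact_mod_cast Nat.le_succ j) hj
      have hnκ : (n : ℕ∞) ≤ κ := le_trans (by exact_mod_cast hn.le) hj
      -- `Step (w ≫ q ≫ r) (i₁ ≫ r)`
      have hst : ∀ r : C.A (j + 1) ⟶ X, Step Fr (w ≫ C.q (j + 1) ≫ r) (C.i₁ (j + 1) ≫ r) :=
        fun r => ⟨θ ≫ r, by rw [← Category.assoc, ← hsq.w, Category.assoc],
          by rw [← Category.assoc, hθ]⟩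
      have hww : Step Fr (w ≫ C.q (j + 1) ≫ p) (w ≫ C.q (j + 1) ≫ q) :=
        ((hst p).trans S h).trans S ((hst q).symm S)
      -- the reversed open box
      let O' : M := pushout (C.k₁ (j + 1)) (bdι Fr (j + 1))
      let oB' : C.B (j + 1) ⟶ O' := pushout.inl _ _
      let oD' : glob Fr (j + 1) ⟶ O' := pushout.inr _ _
      have sqO' : IsPushout (C.k₁ (j + 1)) (bdι Fr (j + 1)) oB' oD' := IsPushout.of_hasPushout _ _
      -- backward transport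
      obtain ⟨v, hv⟩ : ∃ v : glob Fr (j + 1) ⟶ O', bdι Fr (j + 1) ≫ v = C.k₀ (j + 1) ≫ oB' := by
        have hpar : C.δ j ≫ C.inl j ≫ oB' = C.δ j ≫ C.inr j ≫ oB' := by
          rw [← Category.assoc, (C.sq j).w, Category.assoc]
        obtain ⟨v, hv1, hv2⟩ := ih hj' (C.inl j ≫ oB') (C.inr j ≫ oB') hpar ⟨oD', by
          rw [← bdInl_bdι, Category.assoc, ← sqO'.w, ← Category.assoc, C.inl_k₁, Category.assoc],
          by rw [← bdInr_bdι, Category.assoc, ← sqO'.w, ← Category.assoc, C.inr_k₁,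
            Category.assoc]⟩
        refine ⟨v, ?_⟩
        apply (bd_sq Fr j).hom_ext
        · rw [← Category.assoc, bdInl_bdι, hv1, ← Category.assoc, ← Category.assoc, C.inl_k₀]
        · rw [← Category.assoc, bdInr_bdι, hv2, ← Category.assoc, ← Category.assoc, C.inr_k₀]
      -- the two maps out of the reversed open box
      have hF : ∀ r : C.A (j + 1) ⟶ X, ∃ F : O' ⟶ X, oB' ≫ F = C.δ (j + 1) ≫ r ∧
          oD' ≫ F = w ≫ C.q (j + 1) ≫ r := by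
        intro r
        refine ⟨sqO'.desc (C.δ (j + 1) ≫ r) (w ≫ C.q (j + 1) ≫ r) ?_, sqO'.inl_desc _ _ _,
          sqO'.inr_desc _ _ _⟩
        rw [← Category.assoc (bdι Fr (j + 1)), hw, Category.assoc, ← Category.assoc (C.oB _),
          C.oB_q]
      obtain ⟨F, hF1, hF2⟩ := hF p
      obtain ⟨G, hG1, hG2⟩ := hF q
      have hB : Cofibrant Fr ⊤ (C.B (j + 1)) := C.cofibrant_B hC (j + 1) (by simp)
      have hvv : Step Fr (v ≫ F) (v ≫ G) :=
        top_functoriality S hp (j + 1) hB (C.k₁ (j + 1)) oB' oD' sqO' v F G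
          (by rw [hF1, hG1, hpq]) (by rw [hF2, hG2]; exact hww)
      -- comparison in the open box
      obtain ⟨c, hc1, hc2⟩ : ∃ c : O' ⟶ C.O (j + 1), oB' ≫ c = C.oB (j + 1) ∧ oD' ≫ c = w :=
        ⟨sqO'.desc (C.oB (j + 1)) w hw.symm, sqO'.inl_desc _ _ _, sqO'.inr_desc _ _ _⟩
      have hcontr : Contr Fr (j + 1) (C.O (j + 1)) :=
        C.contr_O S hC.low (hC.bot hnκ) hn (by omega) (by omega)
          (fun i hi hij => hC.mid i hi (le_trans (by exact_mod_cast hij.le) hj))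
          (fun m hm => hPO (j + 1) m (by omega) hj hm)
      have hcmp : Step Fr (C.oD (j + 1)) (v ≫ c) := by
        apply hcontr
        rw [← (C.sqO (j + 1)).w, ← Category.assoc, hv, Category.assoc, hc1]
      have hcF : ∀ (r : C.A (j + 1) ⟶ X) (F : O' ⟶ X), oB' ≫ F = C.δ (j + 1) ≫ r →
          oD' ≫ F = w ≫ C.q (j + 1) ≫ r → c ≫ C.q (j + 1) ≫ r = F := by
        intro r F h1 h2
        apply sqO'.hom_ext
        · rw [← Category.assoc, hc1, h1, ← Category.assoc, C.oB_q]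
        · rw [← Category.assoc, hc2, h2]
      have e1 : Step Fr (C.i₀ (j + 1) ≫ p) (v ≫ F) := by
        have := hcmp.comp (C.q (j + 1) ≫ p)
        rw [← Category.assoc, C.oD_q, Category.assoc, hcF p F hF1 hF2] at this
        exact this
      have e2 : Step Fr (C.i₀ (j + 1) ≫ q) (v ≫ G) := by
        have := hcmp.comp (C.q (j + 1) ≫ q)
        rw [← Category.assoc, C.oD_q, Category.assoc, hcF q G hG1 hG2] at this
        exact this
      exact (e1.trans S hvv).trans S (e2.symm S)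

end Crest.Agent.R248
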