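import Crest.Agent.R248.Good
import Crest.Agent.R248.Calc

/-! Contractibility engine (helper598): whiskers at `n`-cells connected to shape cells, moving lemma. -/

set_option autoImplicit false

namespace Crest.Agent.R248

open CategoryTheory CategoryTheory.Limits Opposite
open Crest.GeometryTopology.Coherator

universe v w

variable {M : Type w} [Category.{v} M] [HasPushouts M] [HasInitial M] {Fr : Shape ⥤ M}

/-- Moving lemma: let `u a` be connected `n`-cells of `A`, `A'` obtained from `A` by attaching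
`w' : u → u'` and `A₂` by attaching `w : a → a'`. Then `A₂` is a retract, under `A`, of a good
extension of `A'`. -/
theorem moving (S : Setting Fr) {n k : ℕ} (hn : n + 1 ≤ k) (hPO : PO Fr k (n + 1))
    {A : M} {u a : glob Fr n ⟶ A} (hua : Step Fr u a)
    {A' : M} {j' : A ⟶ A'} {w' : glob Fr (n + 1) ⟶ A'} (sq' : IsPushout u (sg Fr n) j' w')
    {A₂ : M} {j : A ⟶ A₂} {w : glob Fr (n + 1) ⟶ A₂} (sq : IsPushout a (sg Fr n) j w) :
    ∃ (Ah : M) (g : A' ⟶ Ah) (s : A₂ ⟶ Ah) (t : Ah ⟶ A₂), Good Fr k g ∧ s ≫ t = 𝟙 A₂ ∧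
      j ≫ s = j' ≫ g := by
  obtain ⟨p, hp1, hp2⟩ := hua
  obtain ⟨c⟩ := nonempty_compOp S n
  obtain ⟨iv, hi1, hi2⟩ := exists_inv S n
  -- the cell `q` of `A'`
  have hq : tg Fr n ≫ (iv ≫ p ≫ j') = sg Fr n ≫ w' := by
    rw [← Category.assoc, hi2, ← Category.assoc, hp1, sq'.w]
  let q : glob Fr (n + 1) ⟶ A' := c.ap (iv ≫ p ≫ j') w' hq
  have hq1 : sg Fr n ≫ q = a ≫ j' := by
    rw [c.sg_ap, ← Category.assoc, hi1, ← Category.assoc, hp2]
  have hsqα : IsPushout q (sg Fr (n + 1)) (pushout.inl q (sg Fr (n + 1)))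
    (pushout.inr q (sg Fr (n + 1))) := IsPushout.of_hasPushout _ _
  set g := pushout.inl q (sg Fr (n + 1)) with hg
  set α := pushout.inr q (sg Fr (n + 1)) with hα
  -- the map `s`
  have hs : a ≫ (j' ≫ g) = sg Fr n ≫ (tg Fr (n + 1) ≫ α) := by
    rw [← Category.assoc (sg Fr n), ← sg_sg, Category.assoc, ← hsqα.w, ← Category.assoc (sg Fr n),
      hq1, Category.assoc]
  -- the map `t'`
  have hP : tg Fr n ≫ (p ≫ j) = sg Fr n ≫ w := by
    rw [← Category.assoc, hp2, sq.w]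
  let ψ : glob Fr (n + 1) ⟶ A₂ := c.ap (p ≫ j) w hP
  have ht' : u ≫ j = sg Fr n ≫ ψ := by
    rw [c.sg_ap, ← Category.assoc, hp1]
  let t' : A' ⟶ A₂ := sq'.desc j ψ ht'
  have hqt : q ≫ t' = c.ap (iv ≫ p ≫ j) ψ (by
      rw [c.sg_ap, ← Category.assoc, hi2]) := by
    rw [c.ap_comp]
    have e1 : (iv ≫ p ≫ j') ≫ t' = iv ≫ p ≫ j := by
      rw [Category.assoc, Category.assoc, sq'.inl_desc]
    have e2 : w' ≫ t' = ψ := sq'.inr_desc _ _ _
    congr 1
  -- the filler
  have key : Step Fr (q ≫ t') w := by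
    rw [hqt]
    set T := sh2 (n + 1) n (n + 1) (Nat.lt_succ_self n) (Nat.lt_succ_self n) with hT
    have hLR : tg Fr n ≫ Fr.map ((Shape.globe (n + 1)).inLeft n (n + 1) (Nat.lt_succ_self n)
        (Nat.lt_succ_self n)) = sg Fr n ≫ Fr.map ((Shape.globe (n + 1)).inRight n (n + 1)
        (Nat.lt_succ_self n) (Nat.lt_succ_self n)) := c.sq.w
    set L := Fr.map ((Shape.globe (n + 1)).inLeft n (n + 1) (Nat.lt_succ_self n)
        (Nat.lt_succ_self n)) with hL
    set R := Fr.map ((Shape.globe (n + 1)).inRight n (n + 1)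
        (Nat.lt_succ_self n) (Nat.lt_succ_self n)) with hR
    have h1 : tg Fr n ≫ (iv ≫ L) = sg Fr n ≫ c.ap L R hLR := by
      rw [c.sg_ap, ← Category.assoc, hi2]
    have := S.step (k := n + 1) T (by rw [hT, dim_sh2]; omega) (c.sq.desc (p ≫ j) w hP)
      (c.ap (iv ≫ L) (c.ap L R hLR) h1) R (by
        apply bdι_succ_ext
        · rw [c.sg_ap, ← Category.assoc, hi1, hLR]
        · rw [c.tg_ap, c.tg_ap])
    have e1 : L ≫ c.sq.desc (p ≫ j) w hP = p ≫ j := c.sq.inl_desc _ _ _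
    have e2 : R ≫ c.sq.desc (p ≫ j) w hP = w := c.sq.inr_desc _ _ _
    simp only [c.ap_comp, Category.assoc, e1, e2] at this
    exact this
  obtain ⟨α', hα1, hα2⟩ := key
  let t : pushout q (sg Fr (n + 1)) ⟶ A₂ := hsqα.desc t' α' hα1.symm
  have htg : g ≫ t = t' := hsqα.inl_desc _ _ _
  have htα : α ≫ t = α' := hsqα.inr_desc _ _ _
  refine ⟨_, g, sq.desc (j' ≫ g) (tg Fr (n + 1) ≫ α) hs, t, ?_, ?_, sq.inl_desc _ _ _⟩
  · exact Good.cobase hsqα (good_sg hn hPO)
  · apply sq.hom_ext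
    · rw [sq.inl_desc_assoc, Category.assoc, htg, Category.comp_id]
      exact sq'.inl_desc _ _ _
    · rw [sq.inr_desc_assoc, Category.assoc, htα, Category.comp_id, hα2]


/-- `Whisk Fr k n W N f r`: the map `r : A ⟶ Z` is a composite of good maps and of `N` whiskers, i.e.
pushouts of `sg Fr n`, along `n`-cells connected to shape cells of `W` (seen in `A` through `f`). -/
inductive Whisk (Fr : Shape ⥤ M) (k n : ℕ) (W : Shape) :
    ℕ → ∀ {A Z : M}, (Fr.obj W ⟶ A) → (A ⟶ Z) → Prop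
  | nil {A Z : M} (f : Fr.obj W ⟶ A) (g : A ⟶ Z) (hg : Good Fr k g) : Whisk Fr k n W 0 f g
  | cons {N : ℕ} {A A₁ A₂ Z : M} (f : Fr.obj W ⟶ A) (g : A ⟶ A₁) (hg : Good Fr k g)
      (c : Shape.globe n ⟶ W) (a : glob Fr n ⟶ A₁) (hca : Step Fr (Fr.map c ≫ f ≫ g) a)
      (j : A₁ ⟶ A₂) (b : glob Fr (n + 1) ⟶ A₂) (sq : IsPushout a (sg Fr n) j b)
      (r : A₂ ⟶ Z) (hr : Whisk Fr k n W N (f ≫ g ≫ j) r) :
      Whisk Fr k n W (N + 1) f (g ≫ j ≫ r)

namespace Whisk

variable {k n : ℕ} {W : Shape}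

theorem good_prefix {N : ℕ} {A A₁ Z : M} {f : Fr.obj W ⟶ A} {g : A ⟶ A₁} (hg : Good Fr k g)
    {r : A₁ ⟶ Z} (hr : Whisk Fr k n W N (f ≫ g) r) : Whisk Fr k n W N f (g ≫ r) := by
  generalize hf : f ≫ g = f' at hr
  cases hr with
  | nil _ _ h => exact .nil _ _ (hg.comp h)
  | cons _ g' hg' c a hca j b sq r hr =>
    subst hf
    rw [← Category.assoc g]
    refine .cons f (g ≫ g') (hg.comp hg') c a ?_ j b sq r ?_
    · simpa only [Category.assoc] using hca
    · simpa only [Category.assoc] using hr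

theorem comp {N N' : ℕ} {A A₁ Z : M} {f : Fr.obj W ⟶ A} {r : A ⟶ A₁}
    (hr : Whisk Fr k n W N f r) {r' : A₁ ⟶ Z} (hr' : Whisk Fr k n W N' (f ≫ r) r') :
    Whisk Fr k n W (N + N') f (r ≫ r') := by
  induction hr with
  | nil f g hg =>
    rw [Nat.zero_add]
    exact good_prefix hg hr'
  | cons f g hg c a hca j b sq r hr ih =>
    rw [Nat.add_right_comm, Category.assoc, Category.assoc]
    refine .cons f g hg c a hca j b sq _ (ih ?_)
    simpa only [Category.assoc] using hr'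

theorem cobase {N : ℕ} {A Z A' Z' : M} {f : Fr.obj W ⟶ A} {r : A ⟶ Z}
    (hr : Whisk Fr k n W N f r) (h : A ⟶ A') (r' : A' ⟶ Z') (h' : Z ⟶ Z')
    (sq : IsPushout h r r' h') : Whisk Fr k n W N (f ≫ h) r' := by
  induction hr generalizing A' with
  | nil f g hg => exact .nil _ _ (Good.cobase sq hg)
  | @cons N A A₁ A₂ Z f g hg c a hca j b sqa r hr ih =>
    -- first square
    have sq1 : IsPushout h g (pushout.inl h g) (pushout.inr h g) := IsPushout.of_hasPushout _ _
    set g' := pushout.inl h g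
    set h1 := pushout.inr h g
    have sq2 : IsPushout h1 j (pushout.inl h1 j) (pushout.inr h1 j) := IsPushout.of_hasPushout _ _
    set j' := pushout.inl h1 j
    set h2 := pushout.inr h1 j
    have sq12 : IsPushout h (g ≫ j) (g' ≫ j') h2 := sq1.paste_vert sq2
    have hw : h ≫ r' = (g ≫ j) ≫ (r ≫ h') := by
      rw [sq.w]; simp only [Category.assoc]
    let r'' : pushout h1 j ⟶ Z' := sq12.desc r' (r ≫ h') hw
    have e1 : (g' ≫ j') ≫ r'' = r' := sq12.inl_desc _ _ _
    have e2 : h2 ≫ r'' = r ≫ h' := sq12.inr_desc _ _ _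
    have sq3 : IsPushout h2 r r'' h' := by
      refine IsPushout.of_top ?_ e2 sq12
      rw [e1, Category.assoc]
      exact sq
    have := ih h2 r'' h' sq3
    rw [← e1, Category.assoc]
    refine .cons (f ≫ h) g' (Good.cobase sq1 hg) c (a ≫ h1) ?_ j' (b ≫ h2) ?_ r'' ?_
    · have := hca.comp h1
      simp only [Category.assoc] at this ⊢
      rwa [sq1.w]
    · exact sqa.paste_horiz sq2
    · have e : (f ≫ g ≫ j) ≫ h2 = (f ≫ h) ≫ g' ≫ j' := by
        simp only [Category.assoc]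
        rw [sq12.w]
        simp only [Category.assoc]
      rwa [← e]

theorem reshape {N : ℕ} {A Z : M} {f : Fr.obj W ⟶ A} {r : A ⟶ Z}
    (hr : Whisk Fr k n W N f r) {W' : Shape} (ι : W ⟶ W') (f' : Fr.obj W' ⟶ A)
    (hf : Fr.map ι ≫ f' = f) : Whisk Fr k n W' N f' r := by
  induction hr with
  | nil f g hg => exact .nil _ _ hg
  | cons f g hg c a hca j b sq r hr ih =>
    subst hf
    refine .cons f' g hg (c ≫ ι) a ?_ j b sq r (ih _ (by simp only [Category.assoc]))
    simpa only [Category.assoc, Fr.map_comp] using hca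

end Whisk

/-- The column lemma as a proposition. -/
def ColumnProp (Fr : Shape ⥤ M) : Prop :=
  ∀ (W : Shape) (n : ℕ) (c : Shape.globe n ⟶ W), ∃ (W' : Shape) (u : Shape.globe n ⟶ W)
    (ι : W ⟶ W') (w : glob Fr (n + 1) ⟶ Fr.obj W'), W'.dim ≤ max W.dim (n + 1) ∧
      Step Fr (Fr.map u) (Fr.map c) ∧ IsPushout (Fr.map u) (sg Fr n) (Fr.map ι) w

/-- The main claim. -/
theorem Whisk.contr (S : Setting Fr) (hcol : ColumnProp Fr) {k n : ℕ} (hn : n + 1 ≤ k)
    (hPO : ∀ m, n < m → m ≤ k → PO Fr k m) : ∀ (N : ℕ) (W : Shape), W.dim ≤ k + 1 →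
    ∀ {A Z : M} (f : Fr.obj W ⟶ A) (r : A ⟶ Z), Good Fr k f → Whisk Fr k n W N f r →
      Contr Fr k Z := by
  intro N
  induction N with
  | zero =>
    intro W hW A Z f r hf hr
    cases hr with
    | nil _ _ hg =>
      refine (hf.comp hg).contr (cofibrant_obj S.sums W ?_) (S.fill k W hW)
      exact_mod_cast hW
  | succ N ih =>
    intro W hW A Z f r hf hr
    cases hr with
    | @cons _ _ A₁ A₂ _ _ g hg c a hca j b sq r hr =>
      obtain ⟨W', u, ι, w₀, hdim, huc, sqW⟩ := hcol W n c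
      have hf1 : Good Fr k (f ≫ g) := hf.comp hg
      set f1 := f ≫ g with hf1def
      have sqA : IsPushout f1 (Fr.map ι) (pushout.inl f1 (Fr.map ι)) (pushout.inr f1 (Fr.map ι)) :=
        IsPushout.of_hasPushout _ _
      set j'' := pushout.inl f1 (Fr.map ι)
      set f'' := pushout.inr f1 (Fr.map ι)
      have hf'' : Good Fr k f'' := Good.cobase sqA.flip hf1
      have sqA' : IsPushout (Fr.map u ≫ f1) (sg Fr n) j'' (w₀ ≫ f'') :=
        (sqW.paste_horiz sqA)
      have hua : Step Fr (Fr.map u ≫ f1) a := (huc.comp f1).trans S hca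
      obtain ⟨Ah, g', s, t, hg', hst, hjs⟩ := moving S hn (hPO (n + 1) (Nat.lt_succ_self n) hn)
        hua sqA' sq
      have sqZ : IsPushout s r (pushout.inl s r) (pushout.inr s r) := IsPushout.of_hasPushout _ _
      set rh := pushout.inl s r
      set zh := pushout.inr s r
      have hrh := hr.cobase s rh zh sqZ
      have e : Fr.map ι ≫ (f'' ≫ g') = (f ≫ g ≫ j) ≫ s := by
        rw [← Category.assoc f, ← hf1def, Category.assoc, hjs, ← Category.assoc, ← sqA.w,
          Category.assoc]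
      have hrh' := hrh.reshape ι (f'' ≫ g') e
      have hdim' : W'.dim ≤ k + 1 := hdim.trans (max_le hW (by omega))
      have hZ := ih W' hdim' (f'' ≫ g') rh (hf''.comp hg') hrh'
      refine Contr.of_retract zh (sqZ.desc (t ≫ r) (𝟙 _) ?_) ?_ hZ
      · rw [← Category.assoc, hst, Category.id_comp, Category.comp_id]
      · exact sqZ.inr_desc _ _ _

end Crest.Agent.R248
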